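import Mathlib

/-!
Sums of roots of unity: Galois conjugation and splitting a relation along residue classes.
-/

open Polynomial

namespace Vale.Agent.Lib.P355

variable {ι : Type*}

lemma ne_zero_of_pow_eq_one {x : ℂ} {n : ℕ} (hn : 0 < n) (hx : x ^ n = 1) : x ≠ 0 := by
  rintro rfl
  rw [zero_pow hn.ne'] at hx
  exact zero_ne_one hx

lemma zpow_eq_pow_emod {x : ℂ} {n : ℕ} (hn : 0 < n) (hx : x ^ n = 1) (E : ℤ) :
    x ^ E = x ^ (E % n).toNat := by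
  have hx0 := ne_zero_of_pow_eq_one hn hx
  have hnz : (n : ℤ) ≠ 0 := by exact_mod_cast hn.ne'
  have h1 : 0 ≤ E % n := Int.emod_nonneg _ hnz
  have h2 : (((E % n).toNat : ℕ) : ℤ) = E % n := Int.toNat_of_nonneg h1
  rw [← zpow_natCast, h2]
  conv_lhs => rw [← Int.mul_ediv_add_emod E n]
  rw [zpow_add₀ hx0, zpow_mul]
  rw [zpow_natCast, hx, one_zpow, one_mul]

/-- Galois conjugation of an integral relation among `n`th roots of unity. -/
theorem galois_sum {ζ : ℂ} {n : ℕ} (hn : 0 < n) (hζ : IsPrimitiveRoot ζ n) (I : Finset ι)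
    (E : ι → ℤ) (C : ℤ) (h : ∑ i ∈ I, ζ ^ (E i) = (C : ℂ)) (t : ℕ) (ht : t.Coprime n) :
    ∑ i ∈ I, (ζ ^ t) ^ (E i) = (C : ℂ) := by
  classical
  have hζt : IsPrimitiveRoot (ζ ^ t) n := hζ.pow_of_coprime t ht
  set Q : ℤ[X] := ∑ i ∈ I, X ^ (E i % n).toNat - Polynomial.C C with hQ
  have h1 : aeval ζ Q = 0 := by
    simp only [hQ, map_sub, map_sum, map_pow, aeval_X, aeval_C]
    have : ∀ i ∈ I, ζ ^ (E i % n).toNat = ζ ^ (E i) := fun i _ =>
      (zpow_eq_pow_emod hn hζ.pow_eq_one (E i)).symm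
    rw [Finset.sum_congr rfl this, h]
    simp
  have hdvd : cyclotomic n ℤ ∣ Q := by
    rw [cyclotomic_eq_minpoly hζ hn]
    exact minpoly.isIntegrallyClosed_dvd (hζ.isIntegral hn) h1
  have h2 : aeval (ζ ^ t) Q = 0 := by
    obtain ⟨H, hH⟩ := hdvd
    rw [hH, map_mul, cyclotomic_eq_minpoly hζt hn, minpoly.aeval, zero_mul]
  simp only [hQ, map_sub, map_sum, map_pow, aeval_X, aeval_C] at h2
  have : ∀ i ∈ I, (ζ ^ t) ^ (E i) = (ζ ^ t) ^ (E i % n).toNat := fun i _ =>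
    zpow_eq_pow_emod hn hζt.pow_eq_one (E i)
  rw [Finset.sum_congr rfl this]
  have h3 := sub_eq_zero.mp h2
  rw [h3]
  simp

/-- geometric sums of an `N`th root of unity -/
lemma geom_zpow {χ : ℂ} {N : ℕ} (hN : 0 < N) (hχ : IsPrimitiveRoot χ N) (d : ℤ) :
    ∑ s ∈ Finset.range N, (χ ^ d) ^ s = if (N : ℤ) ∣ d then (N : ℂ) else 0 := by
  split_ifs with h
  · have : χ ^ d = 1 := (hχ.zpow_eq_one_iff_dvd d).mpr h
    simp [this]
  · have h1 : χ ^ d ≠ 1 := fun h' => h ((hχ.zpow_eq_one_iff_dvd d).mp h')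
    have h2 : (χ ^ d) ^ N = 1 := by
      rw [← zpow_natCast, ← zpow_mul, mul_comm, zpow_mul, zpow_natCast, hχ.pow_eq_one, one_zpow]
    have h3 := mul_neg_geom_sum (χ ^ d) N
    rw [h2, sub_self] at h3
    rcases mul_eq_zero.mp h3 with h4 | h4
    · exact absurd (sub_eq_zero.mp h4).symm h1
    · exact h4

/-- A relation with an integral right side splits along the residues of the exponents modulo `N`,
when `1 + m * s` is always coprime to `m * N`. -/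
theorem class_sum {m N : ℕ} (hm : 0 < m) (hN : 0 < N) (hco : ∀ s : ℕ, (1 + m * s).Coprime (m * N))
    {ζ : ℂ} (hζ : IsPrimitiveRoot ζ (m * N)) (I : Finset ι) (E : ι → ℤ) (C : ℤ)
    (h : ∑ i ∈ I, ζ ^ (E i) = (C : ℂ)) (g : ℤ) :
    ∑ i ∈ I.filter (fun i => (N : ℤ) ∣ E i - g), ζ ^ (E i) = if (N : ℤ) ∣ g then (C : ℂ) else 0 := by
  classical
  have hn : 0 < m * N := Nat.mul_pos hm hN
  have hζ0 : ζ ≠ 0 := ne_zero_of_pow_eq_one hn hζ.pow_eq_one
  set χ := ζ ^ m with hχdef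
  have hχ : IsPrimitiveRoot χ N := hζ.pow hn rfl
  have hχ0 : χ ≠ 0 := pow_ne_zero _ hζ0
  have h1 : ∀ s : ℕ, ∑ i ∈ I, ζ ^ (E i) * (χ ^ (E i)) ^ s = (C : ℂ) := by
    intro s
    have := galois_sum hn hζ I E C h (1 + m * s) (hco s)
    rw [← this]
    refine Finset.sum_congr rfl fun i _ => ?_
    rw [hχdef, ← zpow_natCast, ← zpow_natCast ζ m, ← zpow_natCast ζ (1 + m * s)]
    rw [← zpow_mul, ← zpow_mul, ← zpow_mul, ← zpow_add₀ hζ0]
    congr 1
    push_cast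
    ring
  have h2 : ∑ s ∈ Finset.range N, ∑ i ∈ I, ζ ^ (E i) * (χ ^ (E i - g)) ^ s
      = ∑ s ∈ Finset.range N, (C : ℂ) * (χ ^ (-g)) ^ s := by
    refine Finset.sum_congr rfl fun s _ => ?_
    rw [← h1 s, Finset.sum_mul]
    refine Finset.sum_congr rfl fun i _ => ?_
    rw [mul_assoc, ← mul_pow, ← zpow_add₀ hχ0]
    congr 3
  rw [Finset.sum_comm] at h2
  have h3 : ∀ i ∈ I, ∑ s ∈ Finset.range N, ζ ^ (E i) * (χ ^ (E i - g)) ^ s
      = ζ ^ (E i) * (if (N : ℤ) ∣ E i - g then (N : ℂ) else 0) := by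
    intro i _
    rw [← Finset.mul_sum, geom_zpow hN hχ]
  rw [Finset.sum_congr rfl h3, ← Finset.mul_sum, geom_zpow hN hχ] at h2
  have hNc : (N : ℂ) ≠ 0 := by exact_mod_cast hN.ne'
  rw [Finset.sum_filter]
  have h4 : (∑ i ∈ I, if (N : ℤ) ∣ E i - g then ζ ^ (E i) else 0) * (N : ℂ)
      = (if (N : ℤ) ∣ g then (C : ℂ) else 0) * (N : ℂ) := by
    rw [Finset.sum_mul]
    have h5 : (if (N : ℤ) ∣ g then (C : ℂ) else 0) * (N : ℂ)
        = (C : ℂ) * if (N : ℤ) ∣ -g then (N : ℂ) else 0 := by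
      by_cases hg : (N : ℤ) ∣ g
      · have : (N : ℤ) ∣ -g := (dvd_neg).mpr hg
        simp [hg, this]
      · have : ¬ (N : ℤ) ∣ -g := fun h' => hg ((dvd_neg).mp h')
        simp [hg, this]
    rw [h5, ← h2]
    refine Finset.sum_congr rfl fun i _ => ?_
    split_ifs <;> simp
  exact mul_right_cancel₀ hNc h4

/-- The splitting in terms of `ZMod N`. -/
theorem class_sum_zmod {m N : ℕ} [NeZero N] (hm : 0 < m)
    (hco : ∀ s : ℕ, (1 + m * s).Coprime (m * N))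
    {ζ : ℂ} (hζ : IsPrimitiveRoot ζ (m * N)) (I : Finset ι) (E : ι → ℤ) (C : ℤ)
    (h : ∑ i ∈ I, ζ ^ (E i) = (C : ℂ)) (g : ZMod N) :
    ∑ i ∈ I.filter (fun i => ((E i : ℤ) : ZMod N) = g), ζ ^ (E i) = if g = 0 then (C : ℂ) else 0 := by
  classical
  have hN : 0 < N := Nat.pos_of_ne_zero (NeZero.ne N)
  obtain ⟨g', rfl⟩ := ZMod.intCast_surjective g
  have := class_sum hm hN hco hζ I E C h g'
  have h1 : ∀ i, ((E i : ℤ) : ZMod N) = (g' : ZMod N) ↔ (N : ℤ) ∣ E i - g' := by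
    intro i
    rw [ZMod.intCast_eq_intCast_iff_dvd_sub]
    constructor
    · intro h; have := (dvd_neg).mpr h; simpa using this
    · intro h; have := (dvd_neg).mpr h; simpa using this
  have h2 : ((g' : ℤ) : ZMod N) = 0 ↔ (N : ℤ) ∣ g' := ZMod.intCast_zmod_eq_zero_iff_dvd g' N
  simp only [h1, h2]
  exact this

end Vale.Agent.Lib.P355
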