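import Mathlib.Data.List.Dedup
import Mathlib.Data.List.Sort

/-!
Finite computations for dimension six over the 240th roots of unity.  The vectors are
exponent tuples in `Z/240`, encoded in base 512, and `2` is a root of the 240th cyclotomic
polynomial modulo the number `p`, which is its value at `2`.  The loops are written with the
recursors and small step functions so that the kernel runs them quickly and without deep recursion.
-/

namespace Vale.Agent.Lib.P355.C240

/-- the modulus, the value of the 240th cyclotomic polynomial at `2` -/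
def p : Nat := 18518800563924107521
/-- sum of the powers of `2` at the six base 512 digits of `w` -/
def SS (w : Nat) : Nat :=
  Nat.add (Nat.add (Nat.add (Nat.add (Nat.add (Nat.pow 2 (Nat.mod (Nat.div w 1) 512))
    (Nat.pow 2 (Nat.mod (Nat.div w 512) 512)))
    (Nat.pow 2 (Nat.mod (Nat.div w 262144) 512)))
    (Nat.pow 2 (Nat.mod (Nat.div w 134217728) 512)))
    (Nat.pow 2 (Nat.mod (Nat.div w 68719476736) 512)))
    (Nat.pow 2 (Nat.mod (Nat.div w 35184372088832) 512))
/-- the orthogonality test modulo `p`; digitwise `u + 240 - v` comes from adding the constant -/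
def orth (u v : Nat) : Bool := Nat.beq (Nat.mod (SS (Nat.sub (Nat.add u 8460774251028720) v)) 18518800563924107521) 0
/-- the unbiasedness test modulo `p` -/
def mu (u v : Nat) : Bool :=
  Nat.beq (Nat.mod (Nat.mul (SS (Nat.sub (Nat.add u 8460774251028720) v)) (SS (Nat.sub (Nat.add v 8460774251028720) u))) 18518800563924107521) 6
/-- base 512 encoding -/
def enc : List Nat → Nat
  | [] => 0
  | a :: l => Nat.add a (Nat.mul 512 (enc l))
/-- one step of `rmv` -/
def rmvS (a x : Nat) (l ih : List Nat) : List Nat := Bool.rec (List.cons x ih) l (Nat.beq a x)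
/-- removal of the first occurrence -/
def rmv (a : Nat) (l : List Nat) : List Nat :=
  List.rec (motive := fun _ => List Nat) [] (fun x l ih => rmvS a x l ih) l
/-- one step of `dd` -/
def ddS (x : Nat) (ih : List Nat) : List Nat :=
  List.rec (motive := fun _ => List Nat) (List.cons x [])
    (fun y t _ => Bool.rec (List.cons x (List.cons y t)) (List.cons y t) (Nat.beq x y)) ih
/-- removal of adjacent repetitions -/
def dd (l : List Nat) : List Nat := List.rec (motive := fun _ => List Nat) [] (fun x _ ih => ddS x ih) l
/-- Consing the encodings `pre + m * enc l`, for all arrangements `l` of the sorted list `vals`,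
onto `tail`. -/
def gn (k : Nat) : List Nat → Nat → Nat → List Nat → List Nat :=
  Nat.rec (motive := fun _ => List Nat → Nat → Nat → List Nat → List Nat)
    (fun _ _ pre tail => List.cons pre tail)
    (fun _ rec vals m pre tail =>
      List.rec (motive := fun _ => List Nat) tail
        (fun a _ ih => rec (rmv a vals) (Nat.mul m 512) (Nat.add pre (Nat.mul m a)) ih) (dd vals)) k
/-- one step of `flt` -/
def fltS (f : Nat → Bool) (a : Nat) (ih : List Nat) : List Nat := Bool.rec ih (List.cons a ih) (f a)
/-- filter -/
def flt (f : Nat → Bool) (l : List Nat) : List Nat :=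
  List.rec (motive := fun _ => List Nat) [] (fun a _ ih => fltS f a ih) l
/-- one step of `allN` -/
def allS (f : Nat → Bool) (a : Nat) (ih : Bool) : Bool := Bool.rec false ih (f a)
/-- all numbers below `n` satisfy `f` -/
def allN (f : Nat → Bool) (n : Nat) : Bool :=
  Nat.rec (motive := fun _ => Bool) true (fun i ih => allS f i ih) n
/-- empty list test -/
def isE (l : List Nat) : Bool := List.rec (motive := fun _ => Bool) true (fun _ _ _ => false) l
/-- implication of Booleans -/
def okB (m x : Bool) : Bool := Bool.rec true x m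
/-- the sum of the powers of `2` over a list -/
def SL (l : List Nat) : Nat :=
  List.rec (motive := fun _ => Nat) 0 (fun a _ ih => Nat.add (Nat.pow 2 a) ih) l
/-- the sum of the inverse powers of `2` over a list of numbers at most 240 -/
def SN (l : List Nat) : Nat :=
  List.rec (motive := fun _ => Nat) 0 (fun a _ ih => Nat.add (Nat.pow 2 (Nat.sub 240 a)) ih) l
/-- the value of the squared modulus of the sum over a list, as a number -/
def nrV (l : List Nat) : Nat := Nat.mul (SL l) (SN l)
/-- the value of the relation of three pairs at a 60th root of unity, here `16` -/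
def triV (t1 t2 t3 b c : Nat) : Nat :=
  Nat.add (Nat.add
    (Nat.mul (Nat.add 1 (Nat.pow 16 (Nat.mul 15 t2))) (Nat.add 1 (Nat.pow 16 (Nat.sub 60 (Nat.mul 15 t1)))))
    (Nat.mul (Nat.pow 16 b) (Nat.mul (Nat.add 1 (Nat.pow 16 (Nat.mul 15 t3)))
      (Nat.add 1 (Nat.pow 16 (Nat.sub 60 (Nat.mul 15 t2)))))))
    (Nat.mul (Nat.pow 16 c) (Nat.mul (Nat.add 1 (Nat.pow 16 (Nat.mul 15 t1)))
      (Nat.add 1 (Nat.pow 16 (Nat.sub 60 (Nat.mul 15 t3))))))

/-- the three pair relation fails when `b + c` is prime to 3 -/
def triOK (t1 t2 t3 b c : Nat) : Bool :=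
  okB (Bool.not (Nat.beq (Nat.mod (Nat.add b c) 3) 0))
    (Bool.not (Nat.beq (Nat.mod (triV t1 t2 t3 b c) p) 0))

/-- the full check of the three pair relation for fixed `t1` -/
def triChk (t1 : Nat) : Bool :=
  okB (Bool.not (Nat.beq t1 2))
    (allN (fun t2 => okB (Bool.not (Nat.beq t2 2))
      (allN (fun t3 => okB (Bool.not (Nat.beq t3 2))
        (allN (fun b => allN (fun c => triOK t1 t2 t3 b c) 60) 60)) 4)) 4)

/-- the three term sum `1 + x^a + x^b` never has squared modulus 6 at `x = 16` -/
def thrChk (a b : Nat) : Bool :=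
  Bool.not (Nat.beq (Nat.mod (Nat.mul (Nat.add (Nat.add 1 (Nat.pow 16 a)) (Nat.pow 16 b))
    (Nat.add (Nat.add 1 (Nat.pow 16 (Nat.sub 60 a))) (Nat.pow 16 (Nat.sub 60 b)))) p) 6)

theorem tri0 : triChk 0 = true := by decide +kernel
theorem tri1 : triChk 1 = true := by decide +kernel
theorem tri2 : triChk 2 = true := by decide +kernel
theorem tri3 : triChk 3 = true := by decide +kernel

theorem tri_all : ∀ s : Nat, s < 4 → triChk s = true
  | 0, _ => tri0
  | 1, _ => tri1
  | 2, _ => tri2
  | 3, _ => tri3
  | n + 4, h => absurd h (by omega)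

theorem thr_all : allN (fun a => allN (fun b => thrChk a b) 60) 60 = true := by decide +kernel

/-- `2` is a root of the 240th cyclotomic polynomial modulo `p` -/
theorem root_two : (2 ^ 64 + 2 ^ 56 + 2 ^ 8 + 1) % p = (2 ^ 40 + 2 ^ 32 + 2 ^ 24) % p := by decide +kernel

end Vale.Agent.Lib.P355.C240
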