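import Mathlib.Data.List.Sort
import Vale.Agent.Lib.P355.Data240

/-!
The functions of the finite computations at the 240th roots of unity.
-/

namespace Vale.Agent.Lib.P355.C240

/-- the group of entries of the table with given second entry -/
def lkp (b : Nat) : List (List Nat) := Tb.getD b []

/-- the sort of a list -/
def srt (l : List Nat) : List Nat := l.insertionSort (· ≤ ·)

/-- the list is a tuple of the table -/
def inT (l : List Nat) : Bool := (lkp (l.getD 1 0)).any fun e => decide (e.drop 4 = l)

/-- the list is a tuple of the table with orbit number `k` -/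
def inTk (k : Nat) (l : List Nat) : Bool :=
  (lkp (l.getD 1 0)).any fun e => decide (e.getD 0 0 = k ∧ e.drop 4 = l)

/-- a list unbiased to zero is, when sorted, a tuple of the table -/
def chkRow (l : List Nat) : Bool := okB (Nat.beq (Nat.mod (nrV l) p) 6) (inT (srt l))

/-- the test of a split of a tuple into two lists -/
def splt (l m : List Nat) : Bool := Nat.beq (Nat.mod (Nat.add (nrV l) (nrV m)) p) 6

/-- six entries multiples of 8 -/
def c1b (c d e f : Nat) : Bool :=
  allN (fun b => chkRow [0, Nat.mul 8 b, Nat.mul 8 c, Nat.mul 8 d, Nat.mul 8 e, Nat.mul 8 f]) (Nat.succ c)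
/-- the loop over `c` -/
def c1c (d e f : Nat) : Bool := allN (fun c => c1b c d e f) (Nat.succ d)
/-- the loop over `d` -/
def c1d (e f : Nat) : Bool := allN (fun d => c1c d e f) (Nat.succ e)
/-- the loop over `e` -/
def c1e (f : Nat) : Bool := allN (fun e => c1d e f) (Nat.succ f)

/-- five entries multiples of 8, one more -/
def c2x (b c d e : Nat) : Bool :=
  okB (splt [0, Nat.mul 8 b, Nat.mul 8 c, Nat.mul 8 d, Nat.mul 8 e] [0])
    (allN (fun x => chkRow [0, Nat.mul 8 b, Nat.mul 8 c, Nat.mul 8 d, Nat.mul 8 e,
      Nat.add 4 (Nat.mul 8 x)]) 30)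
/-- the loop over `b` -/
def c2b (c d e : Nat) : Bool := allN (fun b => c2x b c d e) (Nat.succ c)
/-- the loop over `c` -/
def c2c (d e : Nat) : Bool := allN (fun c => c2b c d e) (Nat.succ d)
/-- the loop over `d` -/
def c2d (e : Nat) : Bool := allN (fun d => c2c d e) (Nat.succ e)

/-- four entries multiples of 8, two more -/
def c3x (b c d g : Nat) : Bool :=
  okB (splt [0, Nat.mul 8 b, Nat.mul 8 c, Nat.mul 8 d] [0, Nat.mul 8 g])
    (allN (fun x => chkRow [0, Nat.mul 8 b, Nat.mul 8 c, Nat.mul 8 d, Nat.add 4 (Nat.mul 8 x),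
      Nat.mod (Nat.add (Nat.add 4 (Nat.mul 8 x)) (Nat.mul 8 g)) 240]) 30)
/-- the loop over `g` -/
def c3g (b c d : Nat) : Bool := allN (fun g => c3x b c d g) 30
/-- the loop over `b` -/
def c3b (c d : Nat) : Bool := allN (fun b => c3g b c d) (Nat.succ c)
/-- the loop over `c` -/
def c3c (d : Nat) : Bool := allN (fun c => c3b c d) (Nat.succ d)

/-- three entries multiples of 8, three more -/
def c4x (b c g h : Nat) : Bool :=
  okB (splt [0, Nat.mul 8 b, Nat.mul 8 c] [0, Nat.mul 8 g, Nat.mul 8 h])
    (allN (fun x => chkRow [0, Nat.mul 8 b, Nat.mul 8 c, Nat.add 4 (Nat.mul 8 x),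
      Nat.mod (Nat.add (Nat.add 4 (Nat.mul 8 x)) (Nat.mul 8 g)) 240,
      Nat.mod (Nat.add (Nat.add 4 (Nat.mul 8 x)) (Nat.mul 8 h)) 240]) 30)
/-- the loop over `g` -/
def c4g (b c h : Nat) : Bool := allN (fun g => c4x b c g h) (Nat.succ h)
/-- the loop over `h` -/
def c4h (b c : Nat) : Bool := allN (fun h => c4g b c h) 30
/-- the loop over `b` -/
def c4b (c : Nat) : Bool := allN (fun b => c4h b c) (Nat.succ c)

/-- four entries multiples of 4, two more at a distance a multiple of 60 -/
def c5x (b c d g : Nat) : Bool :=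
  okB (splt [0, Nat.mul 4 b, Nat.mul 4 c, Nat.mul 4 d] [0, Nat.mul 60 g])
    (allN (fun x => chkRow [0, Nat.mul 4 b, Nat.mul 4 c, Nat.mul 4 d, Nat.add 2 (Nat.mul 4 x),
      Nat.mod (Nat.add (Nat.add 2 (Nat.mul 4 x)) (Nat.mul 60 g)) 240]) 60)
/-- the loop over `g` -/
def c5g (b c d : Nat) : Bool := allN (fun g => c5x b c d g) 4
/-- the loop over `b` -/
def c5b (c d : Nat) : Bool := allN (fun b => c5g b c d) (Nat.succ c)
/-- the loop over `c` -/
def c5c (d : Nat) : Bool := allN (fun c => c5b c d) (Nat.succ d)

/-- the table of the sums of `1` and a power of the element `θ` with `θ ^ 4 = θ + 1` -/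
def zt (x : Nat) : Nat := Nat.land (Nat.shiftRight 246507700683401295 (Nat.mul 4 x)) 15
/-- the relation `1 + θ ^ b + θ ^ c = 0` -/
def ham1 (b c : Nat) : Bool := Nat.beq (zt (Nat.mod b 15)) (Nat.mod c 15)
/-- the relation `1 + θ ^ (-b) + θ ^ (-c) = 0` -/
def ham2 (b c : Nat) : Bool :=
  ham1 (Nat.mod (Nat.sub 15 (Nat.mod b 15)) 15) (Nat.mod (Nat.sub 15 (Nat.mod c 15)) 15)

/-- three entries multiples of 4, three more -/
def c6x (b c g h : Nat) : Bool :=
  okB (splt [0, Nat.mul 4 b, Nat.mul 4 c] [0, Nat.mul 4 g, Nat.mul 4 h])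
    (allN (fun x => chkRow [0, Nat.mul 4 b, Nat.mul 4 c, Nat.add 2 (Nat.mul 4 x),
      Nat.mod (Nat.add (Nat.add 2 (Nat.mul 4 x)) (Nat.mul 4 g)) 240,
      Nat.mod (Nat.add (Nat.add 2 (Nat.mul 4 x)) (Nat.mul 4 h)) 240]) 60)
/-- the loop over `g` with a condition -/
def c6g (ham : Nat → Nat → Bool) (b c h : Nat) : Bool :=
  allN (fun g => okB (ham g h) (c6x b c g h)) (Nat.succ h)
/-- the loop over `h` -/
def c6h (ham : Nat → Nat → Bool) (b c : Nat) : Bool := allN (fun h => c6g ham b c h) 60
/-- the loop over `b` with a condition -/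
def c6b (ham : Nat → Nat → Bool) (c : Nat) : Bool :=
  allN (fun b => okB (ham b c) (c6h ham b c)) (Nat.succ c)

/-- four even entries, and an opposite pair of odd entries -/
def c7x (b c d : Nat) : Bool :=
  okB (Nat.beq (Nat.mod (nrV [0, Nat.mul 2 b, Nat.mul 2 c, Nat.mul 2 d]) p) 6)
    (allN (fun x => chkRow [0, Nat.mul 2 b, Nat.mul 2 c, Nat.mul 2 d, Nat.add 1 (Nat.mul 2 x),
      Nat.add 121 (Nat.mul 2 x)]) 60)
/-- the loop over `b` -/
def c7b (c d : Nat) : Bool := allN (fun b => c7x b c d) (Nat.succ c)
/-- the loop over `c` -/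
def c7c (d : Nat) : Bool := allN (fun c => c7b c d) (Nat.succ d)

/-- rotation of a list -/
def rotL (y : Nat) (q : List Nat) : List Nat :=
  q.map fun x => Nat.mod (Nat.sub (Nat.add x 240) y) 240
/-- multiplication of a list -/
def mulL (u : Nat) (q : List Nat) : List Nat := q.map fun x => Nat.mod (Nat.mul u x) 240

/-- the units modulo 240 -/
def U : List Nat := [1, 7, 11, 13, 17, 19, 23, 29, 31, 37, 41, 43, 47, 49, 53, 59, 61, 67, 71, 73, 77, 79, 83, 89, 91, 97, 101, 103, 107, 109, 113, 119, 121, 127, 131, 133, 137, 139, 143, 149, 151, 157, 161, 163, 167, 169, 173, 179, 181, 187, 191, 193, 197, 199, 203, 209, 211, 217, 221, 223, 227, 229, 233, 239]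

/-- the first tuple of an orbit -/
def piv (k : Nat) : List Nat := ((OD.getD k []).headD []).tail

/-- the check of an entry of the table -/
def okA (e : List Nat) : Bool :=
  Nat.ble (e.getD 2 0) 240 && Nat.ble (e.getD 3 0) 240 && U.elem (e.getD 1 0) &&
    (OD.getD (e.getD 0 0) []).any (fun r => decide (r.tail = srt (rotL (e.getD 3 0) (e.drop 4)))) &&
    decide (srt (rotL (e.getD 2 0) (mulL (e.getD 1 0) (e.drop 4))) = piv (e.getD 0 0))

/-- the closure of the table under a multiplier -/
def okB1 (g : Nat) (e : List Nat) : Bool :=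
  inTk (e.getD 0 0) (srt (mulL g (e.drop 4)))

/-- the digits of a big number -/
def decC (n : Nat) : Nat → List Nat :=
  Nat.rec (motive := fun _ => Nat → List Nat) (fun _ => [])
    (fun _ ih C => List.cons (Nat.mod C 18014398509481984) (ih (Nat.div C 18014398509481984))) n

/-- the list of arrangements of an entry of `OD` -/
def decX (e : List Nat) : List Nat :=
  decC (Nat.mod (e.headD 0) 1024) (Nat.div (e.headD 0) 1024)

/-- the check of an entry of `OD` -/
def okX (e : List Nat) : Bool := decide (decX e = gn 6 e.tail 1 0 [])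

/-- one step of the filter over a big number -/
def fltC (f : Nat → Bool) (n : Nat) : Nat → List Nat → List Nat :=
  Nat.rec (motive := fun _ => Nat → List Nat → List Nat) (fun _ tail => tail)
    (fun _ ih C tail => Bool.rec (ih (Nat.div C 18014398509481984) tail)
      (List.cons (Nat.mod C 18014398509481984) (ih (Nat.div C 18014398509481984) tail))
      (f (Nat.mod C 18014398509481984))) n

/-- filter over the arrangements of an entry -/
def fltX (f : Nat → Bool) (e : List Nat) (tail : List Nat) : List Nat :=
  List.rec (motive := fun _ => List Nat) tail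
    (fun X _ _ => fltC f (Nat.mod X 1024) (Nat.div X 1024) tail) e

/-- filter over the arrangements of the entries of an orbit -/
def fltO (f : Nat → Bool) (o : List (List Nat)) (tail : List Nat) : List Nat :=
  List.rec (motive := fun _ => List Nat) tail (fun e _ ih => fltX f e ih) o

/-- filter over the arrangements of the entries of a list of orbits -/
def fltJ (f : Nat → Bool) (os : List (List (List Nat))) : List Nat :=
  List.rec (motive := fun _ => List Nat) [] (fun o _ ih => fltO f o ih) os

/-- no orthogonal `k`-clique in `M` -/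
def cq (k : Nat) : List Nat → Bool :=
  Nat.rec (motive := fun _ => List Nat → Bool) (fun _ => false)
    (fun _ rec M => List.rec (motive := fun _ => Bool) true
      (fun a rest ih => Bool.rec false ih (rec (flt (orth a) rest))) M) k

/-- one step of the clique search: the cliques containing `a`, then those in `rest` -/
def clC (rec : List Nat → List Nat → Bool) (a : Nat) (rest : List Nat) (ih : List Nat → Bool)
    (X : List Nat) : Bool :=
  Bool.rec false (ih X) (rec (flt (orth a) rest) (flt (mu a) X))

/-- no orthogonal `k`-clique in `M` has a common unbiased vector in `X` -/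
def cl (k : Nat) : List Nat → List Nat → Bool :=
  Nat.rec (motive := fun _ => List Nat → List Nat → Bool) (fun _ X => isE X)
    (fun _ rec M => List.rec (motive := fun _ => List Nat → Bool) (fun _ => true)
      (fun a rest ih X => clC rec a rest ih X) M) k

/-- a range of groups of the table passes a test -/
def rngT (f : List Nat → Bool) (lo n : Nat) : Bool :=
  allN (fun i => (Tb.getD (Nat.add lo i) []).all f) n

/-- the number of orbits without cliques -/
def kC : Nat := 32

/-- the check of an orbit without cliques -/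
def chkA (k : Nat) : Bool := cq 4 (fltJ (orth (enc (piv k))) (OD.drop k))

/-- the check of an orbit with cliques -/
def chkB (k : Nat) : Bool :=
  cl 4 (fltJ (orth (enc (piv k))) (OD.drop k)) (fltJ (mu (enc (piv k))) (OD.drop kC))

end Vale.Agent.Lib.P355.C240
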