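import Mathlib.Tactic.IntervalCases
import Vale.Agent.Lib.P355.Fn240

/-!
The finite checks of the normal form of tuples, in chunks.
-/

namespace Vale.Agent.Lib.P355.C240

theorem nf1_0 : c1e 0 = true := by decide +kernel
theorem nf1_1 : c1e 1 = true := by decide +kernel
theorem nf1_2 : c1e 2 = true := by decide +kernel
theorem nf1_3 : c1e 3 = true := by decide +kernel
theorem nf1_4 : c1e 4 = true := by decide +kernel
theorem nf1_5 : c1e 5 = true := by decide +kernel
theorem nf1_6 : c1e 6 = true := by decide +kernel
theorem nf1_7 : c1e 7 = true := by decide +kernel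
theorem nf1_8 : c1e 8 = true := by decide +kernel
theorem nf1_9 : c1e 9 = true := by decide +kernel
theorem nf1_10 : c1e 10 = true := by decide +kernel
theorem nf1_11 : c1e 11 = true := by decide +kernel
theorem nf1_12 : c1e 12 = true := by decide +kernel
theorem nf1_13 : c1e 13 = true := by decide +kernel
theorem nf1_14 : c1e 14 = true := by decide +kernel
theorem nf1_15 : c1e 15 = true := by decide +kernel
theorem nf1_16 : c1e 16 = true := by decide +kernel
theorem nf1_17 : c1e 17 = true := by decide +kernel
theorem nf1_18 : c1e 18 = true := by decide +kernel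
theorem nf1_19 : c1e 19 = true := by decide +kernel
theorem nf1_20 : c1e 20 = true := by decide +kernel
theorem nf1_21 : c1e 21 = true := by decide +kernel
theorem nf1_22 : c1e 22 = true := by decide +kernel
theorem nf1_23 : c1e 23 = true := by decide +kernel
theorem nf1_24 : c1e 24 = true := by decide +kernel
theorem nf1_25 : c1e 25 = true := by decide +kernel
theorem nf1_26 : c1e 26 = true := by decide +kernel
theorem nf1_27 : c1e 27 = true := by decide +kernel
theorem nf1_28 : c1e 28 = true := by decide +kernel
theorem nf1_29 : c1e 29 = true := by decide +kernel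

/-- all chunks of `nf1` -/
theorem nf1_all : ∀ i, i < 30 → c1e i = true := by
  intro i hi
  interval_cases i
  · exact nf1_0
  · exact nf1_1
  · exact nf1_2
  · exact nf1_3
  · exact nf1_4
  · exact nf1_5
  · exact nf1_6
  · exact nf1_7
  · exact nf1_8
  · exact nf1_9
  · exact nf1_10
  · exact nf1_11
  · exact nf1_12
  · exact nf1_13
  · exact nf1_14
  · exact nf1_15
  · exact nf1_16
  · exact nf1_17
  · exact nf1_18
  · exact nf1_19
  · exact nf1_20
  · exact nf1_21
  · exact nf1_22
  · exact nf1_23
  · exact nf1_24
  · exact nf1_25
  · exact nf1_26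
  · exact nf1_27
  · exact nf1_28
  · exact nf1_29

theorem nf2_0 : c2d 0 = true := by decide +kernel
theorem nf2_1 : c2d 1 = true := by decide +kernel
theorem nf2_2 : c2d 2 = true := by decide +kernel
theorem nf2_3 : c2d 3 = true := by decide +kernel
theorem nf2_4 : c2d 4 = true := by decide +kernel
theorem nf2_5 : c2d 5 = true := by decide +kernel
theorem nf2_6 : c2d 6 = true := by decide +kernel
theorem nf2_7 : c2d 7 = true := by decide +kernel
theorem nf2_8 : c2d 8 = true := by decide +kernel
theorem nf2_9 : c2d 9 = true := by decide +kernel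
theorem nf2_10 : c2d 10 = true := by decide +kernel
theorem nf2_11 : c2d 11 = true := by decide +kernel
theorem nf2_12 : c2d 12 = true := by decide +kernel
theorem nf2_13 : c2d 13 = true := by decide +kernel
theorem nf2_14 : c2d 14 = true := by decide +kernel
theorem nf2_15 : c2d 15 = true := by decide +kernel
theorem nf2_16 : c2d 16 = true := by decide +kernel
theorem nf2_17 : c2d 17 = true := by decide +kernel
theorem nf2_18 : c2d 18 = true := by decide +kernel
theorem nf2_19 : c2d 19 = true := by decide +kernel
theorem nf2_20 : c2d 20 = true := by decide +kernel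
theorem nf2_21 : c2d 21 = true := by decide +kernel
theorem nf2_22 : c2d 22 = true := by decide +kernel
theorem nf2_23 : c2d 23 = true := by decide +kernel
theorem nf2_24 : c2d 24 = true := by decide +kernel
theorem nf2_25 : c2d 25 = true := by decide +kernel
theorem nf2_26 : c2d 26 = true := by decide +kernel
theorem nf2_27 : c2d 27 = true := by decide +kernel
theorem nf2_28 : c2d 28 = true := by decide +kernel
theorem nf2_29 : c2d 29 = true := by decide +kernel

/-- all chunks of `nf2` -/
theorem nf2_all : ∀ i, i < 30 → c2d i = true := by
  intro i hi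
  interval_cases i
  · exact nf2_0
  · exact nf2_1
  · exact nf2_2
  · exact nf2_3
  · exact nf2_4
  · exact nf2_5
  · exact nf2_6
  · exact nf2_7
  · exact nf2_8
  · exact nf2_9
  · exact nf2_10
  · exact nf2_11
  · exact nf2_12
  · exact nf2_13
  · exact nf2_14
  · exact nf2_15
  · exact nf2_16
  · exact nf2_17
  · exact nf2_18
  · exact nf2_19
  · exact nf2_20
  · exact nf2_21
  · exact nf2_22
  · exact nf2_23
  · exact nf2_24
  · exact nf2_25
  · exact nf2_26
  · exact nf2_27
  · exact nf2_28
  · exact nf2_29


end Vale.Agent.Lib.P355.C240
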