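import Mathlib.Tactic.IntervalCases
import Vale.Agent.Lib.P355.Fn240

/-!
The finite checks of the normal form of tuples, in chunks.
-/

namespace Vale.Agent.Lib.P355.C240

theorem nf3_0 : c3c 0 = true := by decide +kernel
theorem nf3_1 : c3c 1 = true := by decide +kernel
theorem nf3_2 : c3c 2 = true := by decide +kernel
theorem nf3_3 : c3c 3 = true := by decide +kernel
theorem nf3_4 : c3c 4 = true := by decide +kernel
theorem nf3_5 : c3c 5 = true := by decide +kernel
theorem nf3_6 : c3c 6 = true := by decide +kernel
theorem nf3_7 : c3c 7 = true := by decide +kernel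
theorem nf3_8 : c3c 8 = true := by decide +kernel
theorem nf3_9 : c3c 9 = true := by decide +kernel
theorem nf3_10 : c3c 10 = true := by decide +kernel
theorem nf3_11 : c3c 11 = true := by decide +kernel
theorem nf3_12 : c3c 12 = true := by decide +kernel
theorem nf3_13 : c3c 13 = true := by decide +kernel
theorem nf3_14 : c3c 14 = true := by decide +kernel
theorem nf3_15 : c3c 15 = true := by decide +kernel
theorem nf3_16 : c3c 16 = true := by decide +kernel
theorem nf3_17 : c3c 17 = true := by decide +kernel
theorem nf3_18 : c3c 18 = true := by decide +kernel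
theorem nf3_19 : c3c 19 = true := by decide +kernel
theorem nf3_20 : c3c 20 = true := by decide +kernel
theorem nf3_21 : c3c 21 = true := by decide +kernel
theorem nf3_22 : c3c 22 = true := by decide +kernel
theorem nf3_23 : c3c 23 = true := by decide +kernel
theorem nf3_24 : c3c 24 = true := by decide +kernel
theorem nf3_25 : c3c 25 = true := by decide +kernel
theorem nf3_26 : c3c 26 = true := by decide +kernel
theorem nf3_27 : c3c 27 = true := by decide +kernel
theorem nf3_28 : c3c 28 = true := by decide +kernel
theorem nf3_29 : c3c 29 = true := by decide +kernel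

/-- all chunks of `nf3` -/
theorem nf3_all : ∀ i, i < 30 → c3c i = true := by
  intro i hi
  interval_cases i
  · exact nf3_0
  · exact nf3_1
  · exact nf3_2
  · exact nf3_3
  · exact nf3_4
  · exact nf3_5
  · exact nf3_6
  · exact nf3_7
  · exact nf3_8
  · exact nf3_9
  · exact nf3_10
  · exact nf3_11
  · exact nf3_12
  · exact nf3_13
  · exact nf3_14
  · exact nf3_15
  · exact nf3_16
  · exact nf3_17
  · exact nf3_18
  · exact nf3_19
  · exact nf3_20
  · exact nf3_21
  · exact nf3_22
  · exact nf3_23
  · exact nf3_24
  · exact nf3_25
  · exact nf3_26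
  · exact nf3_27
  · exact nf3_28
  · exact nf3_29

theorem nf4_0 : c4b 0 = true := by decide +kernel
theorem nf4_1 : c4b 1 = true := by decide +kernel
theorem nf4_2 : c4b 2 = true := by decide +kernel
theorem nf4_3 : c4b 3 = true := by decide +kernel
theorem nf4_4 : c4b 4 = true := by decide +kernel
theorem nf4_5 : c4b 5 = true := by decide +kernel
theorem nf4_6 : c4b 6 = true := by decide +kernel
theorem nf4_7 : c4b 7 = true := by decide +kernel
theorem nf4_8 : c4b 8 = true := by decide +kernel
theorem nf4_9 : c4b 9 = true := by decide +kernel
theorem nf4_10 : c4b 10 = true := by decide +kernel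
theorem nf4_11 : c4b 11 = true := by decide +kernel
theorem nf4_12 : c4b 12 = true := by decide +kernel
theorem nf4_13 : c4b 13 = true := by decide +kernel
theorem nf4_14 : c4b 14 = true := by decide +kernel
theorem nf4_15 : c4b 15 = true := by decide +kernel
theorem nf4_16 : c4b 16 = true := by decide +kernel
theorem nf4_17 : c4b 17 = true := by decide +kernel
theorem nf4_18 : c4b 18 = true := by decide +kernel
theorem nf4_19 : c4b 19 = true := by decide +kernel
theorem nf4_20 : c4b 20 = true := by decide +kernel
theorem nf4_21 : c4b 21 = true := by decide +kernel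
theorem nf4_22 : c4b 22 = true := by decide +kernel
theorem nf4_23 : c4b 23 = true := by decide +kernel
theorem nf4_24 : c4b 24 = true := by decide +kernel
theorem nf4_25 : c4b 25 = true := by decide +kernel
theorem nf4_26 : c4b 26 = true := by decide +kernel
theorem nf4_27 : c4b 27 = true := by decide +kernel
theorem nf4_28 : c4b 28 = true := by decide +kernel
theorem nf4_29 : c4b 29 = true := by decide +kernel

/-- all chunks of `nf4` -/
theorem nf4_all : ∀ i, i < 30 → c4b i = true := by
  intro i hi
  interval_cases i
  · exact nf4_0
  · exact nf4_1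
  · exact nf4_2
  · exact nf4_3
  · exact nf4_4
  · exact nf4_5
  · exact nf4_6
  · exact nf4_7
  · exact nf4_8
  · exact nf4_9
  · exact nf4_10
  · exact nf4_11
  · exact nf4_12
  · exact nf4_13
  · exact nf4_14
  · exact nf4_15
  · exact nf4_16
  · exact nf4_17
  · exact nf4_18
  · exact nf4_19
  · exact nf4_20
  · exact nf4_21
  · exact nf4_22
  · exact nf4_23
  · exact nf4_24
  · exact nf4_25
  · exact nf4_26
  · exact nf4_27
  · exact nf4_28
  · exact nf4_29

theorem nf5_0 : c5c 0 = true := by decide +kernel
theorem nf5_1 : c5c 1 = true := by decide +kernel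
theorem nf5_2 : c5c 2 = true := by decide +kernel
theorem nf5_3 : c5c 3 = true := by decide +kernel
theorem nf5_4 : c5c 4 = true := by decide +kernel
theorem nf5_5 : c5c 5 = true := by decide +kernel
theorem nf5_6 : c5c 6 = true := by decide +kernel
theorem nf5_7 : c5c 7 = true := by decide +kernel
theorem nf5_8 : c5c 8 = true := by decide +kernel
theorem nf5_9 : c5c 9 = true := by decide +kernel
theorem nf5_10 : c5c 10 = true := by decide +kernel
theorem nf5_11 : c5c 11 = true := by decide +kernel
theorem nf5_12 : c5c 12 = true := by decide +kernel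
theorem nf5_13 : c5c 13 = true := by decide +kernel
theorem nf5_14 : c5c 14 = true := by decide +kernel
theorem nf5_15 : c5c 15 = true := by decide +kernel
theorem nf5_16 : c5c 16 = true := by decide +kernel
theorem nf5_17 : c5c 17 = true := by decide +kernel
theorem nf5_18 : c5c 18 = true := by decide +kernel
theorem nf5_19 : c5c 19 = true := by decide +kernel
theorem nf5_20 : c5c 20 = true := by decide +kernel
theorem nf5_21 : c5c 21 = true := by decide +kernel
theorem nf5_22 : c5c 22 = true := by decide +kernel
theorem nf5_23 : c5c 23 = true := by decide +kernel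
theorem nf5_24 : c5c 24 = true := by decide +kernel
theorem nf5_25 : c5c 25 = true := by decide +kernel
theorem nf5_26 : c5c 26 = true := by decide +kernel
theorem nf5_27 : c5c 27 = true := by decide +kernel
theorem nf5_28 : c5c 28 = true := by decide +kernel
theorem nf5_29 : c5c 29 = true := by decide +kernel
theorem nf5_30 : c5c 30 = true := by decide +kernel
theorem nf5_31 : c5c 31 = true := by decide +kernel
theorem nf5_32 : c5c 32 = true := by decide +kernel
theorem nf5_33 : c5c 33 = true := by decide +kernel
theorem nf5_34 : c5c 34 = true := by decide +kernel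
theorem nf5_35 : c5c 35 = true := by decide +kernel
theorem nf5_36 : c5c 36 = true := by decide +kernel
theorem nf5_37 : c5c 37 = true := by decide +kernel
theorem nf5_38 : c5c 38 = true := by decide +kernel
theorem nf5_39 : c5c 39 = true := by decide +kernel
theorem nf5_40 : c5c 40 = true := by decide +kernel
theorem nf5_41 : c5c 41 = true := by decide +kernel
theorem nf5_42 : c5c 42 = true := by decide +kernel
theorem nf5_43 : c5c 43 = true := by decide +kernel
theorem nf5_44 : c5c 44 = true := by decide +kernel
theorem nf5_45 : c5c 45 = true := by decide +kernel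
theorem nf5_46 : c5c 46 = true := by decide +kernel
theorem nf5_47 : c5c 47 = true := by decide +kernel
theorem nf5_48 : c5c 48 = true := by decide +kernel
theorem nf5_49 : c5c 49 = true := by decide +kernel
theorem nf5_50 : c5c 50 = true := by decide +kernel
theorem nf5_51 : c5c 51 = true := by decide +kernel
theorem nf5_52 : c5c 52 = true := by decide +kernel
theorem nf5_53 : c5c 53 = true := by decide +kernel
theorem nf5_54 : c5c 54 = true := by decide +kernel
theorem nf5_55 : c5c 55 = true := by decide +kernel
theorem nf5_56 : c5c 56 = true := by decide +kernel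
theorem nf5_57 : c5c 57 = true := by decide +kernel
theorem nf5_58 : c5c 58 = true := by decide +kernel
theorem nf5_59 : c5c 59 = true := by decide +kernel

/-- all chunks of `nf5` -/
theorem nf5_all : ∀ i, i < 60 → c5c i = true := by
  intro i hi
  interval_cases i
  · exact nf5_0
  · exact nf5_1
  · exact nf5_2
  · exact nf5_3
  · exact nf5_4
  · exact nf5_5
  · exact nf5_6
  · exact nf5_7
  · exact nf5_8
  · exact nf5_9
  · exact nf5_10
  · exact nf5_11
  · exact nf5_12
  · exact nf5_13
  · exact nf5_14
  · exact nf5_15
  · exact nf5_16
  · exact nf5_17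
  · exact nf5_18
  · exact nf5_19
  · exact nf5_20
  · exact nf5_21
  · exact nf5_22
  · exact nf5_23
  · exact nf5_24
  · exact nf5_25
  · exact nf5_26
  · exact nf5_27
  · exact nf5_28
  · exact nf5_29
  · exact nf5_30
  · exact nf5_31
  · exact nf5_32
  · exact nf5_33
  · exact nf5_34
  · exact nf5_35
  · exact nf5_36
  · exact nf5_37
  · exact nf5_38
  · exact nf5_39
  · exact nf5_40
  · exact nf5_41
  · exact nf5_42
  · exact nf5_43
  · exact nf5_44
  · exact nf5_45
  · exact nf5_46
  · exact nf5_47
  · exact nf5_48
  · exact nf5_49
  · exact nf5_50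
  · exact nf5_51
  · exact nf5_52
  · exact nf5_53
  · exact nf5_54
  · exact nf5_55
  · exact nf5_56
  · exact nf5_57
  · exact nf5_58
  · exact nf5_59


end Vale.Agent.Lib.P355.C240
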