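import Mathlib.Tactic.IntervalCases
import Vale.Agent.Lib.P355.Fn240

/-!
The finite checks of the normal form of tuples, in chunks.
-/

namespace Vale.Agent.Lib.P355.C240

theorem nf6a_0 : c6b ham1 0 = true := by decide +kernel
theorem nf6a_1 : c6b ham1 1 = true := by decide +kernel
theorem nf6a_2 : c6b ham1 2 = true := by decide +kernel
theorem nf6a_3 : c6b ham1 3 = true := by decide +kernel
theorem nf6a_4 : c6b ham1 4 = true := by decide +kernel
theorem nf6a_5 : c6b ham1 5 = true := by decide +kernel
theorem nf6a_6 : c6b ham1 6 = true := by decide +kernel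
theorem nf6a_7 : c6b ham1 7 = true := by decide +kernel
theorem nf6a_8 : c6b ham1 8 = true := by decide +kernel
theorem nf6a_9 : c6b ham1 9 = true := by decide +kernel
theorem nf6a_10 : c6b ham1 10 = true := by decide +kernel
theorem nf6a_11 : c6b ham1 11 = true := by decide +kernel
theorem nf6a_12 : c6b ham1 12 = true := by decide +kernel
theorem nf6a_13 : c6b ham1 13 = true := by decide +kernel
theorem nf6a_14 : c6b ham1 14 = true := by decide +kernel
theorem nf6a_15 : c6b ham1 15 = true := by decide +kernel
theorem nf6a_16 : c6b ham1 16 = true := by decide +kernel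
theorem nf6a_17 : c6b ham1 17 = true := by decide +kernel
theorem nf6a_18 : c6b ham1 18 = true := by decide +kernel
theorem nf6a_19 : c6b ham1 19 = true := by decide +kernel
theorem nf6a_20 : c6b ham1 20 = true := by decide +kernel
theorem nf6a_21 : c6b ham1 21 = true := by decide +kernel
theorem nf6a_22 : c6b ham1 22 = true := by decide +kernel
theorem nf6a_23 : c6b ham1 23 = true := by decide +kernel
theorem nf6a_24 : c6b ham1 24 = true := by decide +kernel
theorem nf6a_25 : c6b ham1 25 = true := by decide +kernel
theorem nf6a_26 : c6b ham1 26 = true := by decide +kernel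
theorem nf6a_27 : c6b ham1 27 = true := by decide +kernel
theorem nf6a_28 : c6b ham1 28 = true := by decide +kernel
theorem nf6a_29 : c6b ham1 29 = true := by decide +kernel
theorem nf6a_30 : c6b ham1 30 = true := by decide +kernel
theorem nf6a_31 : c6b ham1 31 = true := by decide +kernel
theorem nf6a_32 : c6b ham1 32 = true := by decide +kernel
theorem nf6a_33 : c6b ham1 33 = true := by decide +kernel
theorem nf6a_34 : c6b ham1 34 = true := by decide +kernel
theorem nf6a_35 : c6b ham1 35 = true := by decide +kernel
theorem nf6a_36 : c6b ham1 36 = true := by decide +kernel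
theorem nf6a_37 : c6b ham1 37 = true := by decide +kernel
theorem nf6a_38 : c6b ham1 38 = true := by decide +kernel
theorem nf6a_39 : c6b ham1 39 = true := by decide +kernel
theorem nf6a_40 : c6b ham1 40 = true := by decide +kernel
theorem nf6a_41 : c6b ham1 41 = true := by decide +kernel
theorem nf6a_42 : c6b ham1 42 = true := by decide +kernel
theorem nf6a_43 : c6b ham1 43 = true := by decide +kernel
theorem nf6a_44 : c6b ham1 44 = true := by decide +kernel
theorem nf6a_45 : c6b ham1 45 = true := by decide +kernel
theorem nf6a_46 : c6b ham1 46 = true := by decide +kernel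
theorem nf6a_47 : c6b ham1 47 = true := by decide +kernel
theorem nf6a_48 : c6b ham1 48 = true := by decide +kernel
theorem nf6a_49 : c6b ham1 49 = true := by decide +kernel
theorem nf6a_50 : c6b ham1 50 = true := by decide +kernel
theorem nf6a_51 : c6b ham1 51 = true := by decide +kernel
theorem nf6a_52 : c6b ham1 52 = true := by decide +kernel
theorem nf6a_53 : c6b ham1 53 = true := by decide +kernel
theorem nf6a_54 : c6b ham1 54 = true := by decide +kernel
theorem nf6a_55 : c6b ham1 55 = true := by decide +kernel
theorem nf6a_56 : c6b ham1 56 = true := by decide +kernel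
theorem nf6a_57 : c6b ham1 57 = true := by decide +kernel
theorem nf6a_58 : c6b ham1 58 = true := by decide +kernel
theorem nf6a_59 : c6b ham1 59 = true := by decide +kernel

/-- all chunks of `nf6a` -/
theorem nf6a_all : ∀ i, i < 60 → c6b ham1 i = true := by
  intro i hi
  interval_cases i
  · exact nf6a_0
  · exact nf6a_1
  · exact nf6a_2
  · exact nf6a_3
  · exact nf6a_4
  · exact nf6a_5
  · exact nf6a_6
  · exact nf6a_7
  · exact nf6a_8
  · exact nf6a_9
  · exact nf6a_10
  · exact nf6a_11
  · exact nf6a_12
  · exact nf6a_13
  · exact nf6a_14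
  · exact nf6a_15
  · exact nf6a_16
  · exact nf6a_17
  · exact nf6a_18
  · exact nf6a_19
  · exact nf6a_20
  · exact nf6a_21
  · exact nf6a_22
  · exact nf6a_23
  · exact nf6a_24
  · exact nf6a_25
  · exact nf6a_26
  · exact nf6a_27
  · exact nf6a_28
  · exact nf6a_29
  · exact nf6a_30
  · exact nf6a_31
  · exact nf6a_32
  · exact nf6a_33
  · exact nf6a_34
  · exact nf6a_35
  · exact nf6a_36
  · exact nf6a_37
  · exact nf6a_38
  · exact nf6a_39
  · exact nf6a_40
  · exact nf6a_41
  · exact nf6a_42
  · exact nf6a_43
  · exact nf6a_44
  · exact nf6a_45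
  · exact nf6a_46
  · exact nf6a_47
  · exact nf6a_48
  · exact nf6a_49
  · exact nf6a_50
  · exact nf6a_51
  · exact nf6a_52
  · exact nf6a_53
  · exact nf6a_54
  · exact nf6a_55
  · exact nf6a_56
  · exact nf6a_57
  · exact nf6a_58
  · exact nf6a_59

theorem nf6b_0 : c6b ham2 0 = true := by decide +kernel
theorem nf6b_1 : c6b ham2 1 = true := by decide +kernel
theorem nf6b_2 : c6b ham2 2 = true := by decide +kernel
theorem nf6b_3 : c6b ham2 3 = true := by decide +kernel
theorem nf6b_4 : c6b ham2 4 = true := by decide +kernel
theorem nf6b_5 : c6b ham2 5 = true := by decide +kernel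
theorem nf6b_6 : c6b ham2 6 = true := by decide +kernel
theorem nf6b_7 : c6b ham2 7 = true := by decide +kernel
theorem nf6b_8 : c6b ham2 8 = true := by decide +kernel
theorem nf6b_9 : c6b ham2 9 = true := by decide +kernel
theorem nf6b_10 : c6b ham2 10 = true := by decide +kernel
theorem nf6b_11 : c6b ham2 11 = true := by decide +kernel
theorem nf6b_12 : c6b ham2 12 = true := by decide +kernel
theorem nf6b_13 : c6b ham2 13 = true := by decide +kernel
theorem nf6b_14 : c6b ham2 14 = true := by decide +kernel
theorem nf6b_15 : c6b ham2 15 = true := by decide +kernel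
theorem nf6b_16 : c6b ham2 16 = true := by decide +kernel
theorem nf6b_17 : c6b ham2 17 = true := by decide +kernel
theorem nf6b_18 : c6b ham2 18 = true := by decide +kernel
theorem nf6b_19 : c6b ham2 19 = true := by decide +kernel
theorem nf6b_20 : c6b ham2 20 = true := by decide +kernel
theorem nf6b_21 : c6b ham2 21 = true := by decide +kernel
theorem nf6b_22 : c6b ham2 22 = true := by decide +kernel
theorem nf6b_23 : c6b ham2 23 = true := by decide +kernel
theorem nf6b_24 : c6b ham2 24 = true := by decide +kernel
theorem nf6b_25 : c6b ham2 25 = true := by decide +kernel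
theorem nf6b_26 : c6b ham2 26 = true := by decide +kernel
theorem nf6b_27 : c6b ham2 27 = true := by decide +kernel
theorem nf6b_28 : c6b ham2 28 = true := by decide +kernel
theorem nf6b_29 : c6b ham2 29 = true := by decide +kernel
theorem nf6b_30 : c6b ham2 30 = true := by decide +kernel
theorem nf6b_31 : c6b ham2 31 = true := by decide +kernel
theorem nf6b_32 : c6b ham2 32 = true := by decide +kernel
theorem nf6b_33 : c6b ham2 33 = true := by decide +kernel
theorem nf6b_34 : c6b ham2 34 = true := by decide +kernel
theorem nf6b_35 : c6b ham2 35 = true := by decide +kernel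
theorem nf6b_36 : c6b ham2 36 = true := by decide +kernel
theorem nf6b_37 : c6b ham2 37 = true := by decide +kernel
theorem nf6b_38 : c6b ham2 38 = true := by decide +kernel
theorem nf6b_39 : c6b ham2 39 = true := by decide +kernel
theorem nf6b_40 : c6b ham2 40 = true := by decide +kernel
theorem nf6b_41 : c6b ham2 41 = true := by decide +kernel
theorem nf6b_42 : c6b ham2 42 = true := by decide +kernel
theorem nf6b_43 : c6b ham2 43 = true := by decide +kernel
theorem nf6b_44 : c6b ham2 44 = true := by decide +kernel
theorem nf6b_45 : c6b ham2 45 = true := by decide +kernel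
theorem nf6b_46 : c6b ham2 46 = true := by decide +kernel
theorem nf6b_47 : c6b ham2 47 = true := by decide +kernel
theorem nf6b_48 : c6b ham2 48 = true := by decide +kernel
theorem nf6b_49 : c6b ham2 49 = true := by decide +kernel
theorem nf6b_50 : c6b ham2 50 = true := by decide +kernel
theorem nf6b_51 : c6b ham2 51 = true := by decide +kernel
theorem nf6b_52 : c6b ham2 52 = true := by decide +kernel
theorem nf6b_53 : c6b ham2 53 = true := by decide +kernel
theorem nf6b_54 : c6b ham2 54 = true := by decide +kernel
theorem nf6b_55 : c6b ham2 55 = true := by decide +kernel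
theorem nf6b_56 : c6b ham2 56 = true := by decide +kernel
theorem nf6b_57 : c6b ham2 57 = true := by decide +kernel
theorem nf6b_58 : c6b ham2 58 = true := by decide +kernel
theorem nf6b_59 : c6b ham2 59 = true := by decide +kernel

/-- all chunks of `nf6b` -/
theorem nf6b_all : ∀ i, i < 60 → c6b ham2 i = true := by
  intro i hi
  interval_cases i
  · exact nf6b_0
  · exact nf6b_1
  · exact nf6b_2
  · exact nf6b_3
  · exact nf6b_4
  · exact nf6b_5
  · exact nf6b_6
  · exact nf6b_7
  · exact nf6b_8
  · exact nf6b_9
  · exact nf6b_10
  · exact nf6b_11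
  · exact nf6b_12
  · exact nf6b_13
  · exact nf6b_14
  · exact nf6b_15
  · exact nf6b_16
  · exact nf6b_17
  · exact nf6b_18
  · exact nf6b_19
  · exact nf6b_20
  · exact nf6b_21
  · exact nf6b_22
  · exact nf6b_23
  · exact nf6b_24
  · exact nf6b_25
  · exact nf6b_26
  · exact nf6b_27
  · exact nf6b_28
  · exact nf6b_29
  · exact nf6b_30
  · exact nf6b_31
  · exact nf6b_32
  · exact nf6b_33
  · exact nf6b_34
  · exact nf6b_35
  · exact nf6b_36
  · exact nf6b_37
  · exact nf6b_38
  · exact nf6b_39
  · exact nf6b_40
  · exact nf6b_41
  · exact nf6b_42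
  · exact nf6b_43
  · exact nf6b_44
  · exact nf6b_45
  · exact nf6b_46
  · exact nf6b_47
  · exact nf6b_48
  · exact nf6b_49
  · exact nf6b_50
  · exact nf6b_51
  · exact nf6b_52
  · exact nf6b_53
  · exact nf6b_54
  · exact nf6b_55
  · exact nf6b_56
  · exact nf6b_57
  · exact nf6b_58
  · exact nf6b_59

theorem nf7_0 : c7c 0 = true := by decide +kernel
theorem nf7_1 : c7c 1 = true := by decide +kernel
theorem nf7_2 : c7c 2 = true := by decide +kernel
theorem nf7_3 : c7c 3 = true := by decide +kernel
theorem nf7_4 : c7c 4 = true := by decide +kernel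
theorem nf7_5 : c7c 5 = true := by decide +kernel
theorem nf7_6 : c7c 6 = true := by decide +kernel
theorem nf7_7 : c7c 7 = true := by decide +kernel
theorem nf7_8 : c7c 8 = true := by decide +kernel
theorem nf7_9 : c7c 9 = true := by decide +kernel
theorem nf7_10 : c7c 10 = true := by decide +kernel
theorem nf7_11 : c7c 11 = true := by decide +kernel
theorem nf7_12 : c7c 12 = true := by decide +kernel
theorem nf7_13 : c7c 13 = true := by decide +kernel
theorem nf7_14 : c7c 14 = true := by decide +kernel
theorem nf7_15 : c7c 15 = true := by decide +kernel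
theorem nf7_16 : c7c 16 = true := by decide +kernel
theorem nf7_17 : c7c 17 = true := by decide +kernel
theorem nf7_18 : c7c 18 = true := by decide +kernel
theorem nf7_19 : c7c 19 = true := by decide +kernel
theorem nf7_20 : c7c 20 = true := by decide +kernel
theorem nf7_21 : c7c 21 = true := by decide +kernel
theorem nf7_22 : c7c 22 = true := by decide +kernel
theorem nf7_23 : c7c 23 = true := by decide +kernel
theorem nf7_24 : c7c 24 = true := by decide +kernel
theorem nf7_25 : c7c 25 = true := by decide +kernel
theorem nf7_26 : c7c 26 = true := by decide +kernel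
theorem nf7_27 : c7c 27 = true := by decide +kernel
theorem nf7_28 : c7c 28 = true := by decide +kernel
theorem nf7_29 : c7c 29 = true := by decide +kernel
theorem nf7_30 : c7c 30 = true := by decide +kernel
theorem nf7_31 : c7c 31 = true := by decide +kernel
theorem nf7_32 : c7c 32 = true := by decide +kernel
theorem nf7_33 : c7c 33 = true := by decide +kernel
theorem nf7_34 : c7c 34 = true := by decide +kernel
theorem nf7_35 : c7c 35 = true := by decide +kernel
theorem nf7_36 : c7c 36 = true := by decide +kernel
theorem nf7_37 : c7c 37 = true := by decide +kernel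
theorem nf7_38 : c7c 38 = true := by decide +kernel
theorem nf7_39 : c7c 39 = true := by decide +kernel
theorem nf7_40 : c7c 40 = true := by decide +kernel
theorem nf7_41 : c7c 41 = true := by decide +kernel
theorem nf7_42 : c7c 42 = true := by decide +kernel
theorem nf7_43 : c7c 43 = true := by decide +kernel
theorem nf7_44 : c7c 44 = true := by decide +kernel
theorem nf7_45 : c7c 45 = true := by decide +kernel
theorem nf7_46 : c7c 46 = true := by decide +kernel
theorem nf7_47 : c7c 47 = true := by decide +kernel
theorem nf7_48 : c7c 48 = true := by decide +kernel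
theorem nf7_49 : c7c 49 = true := by decide +kernel
theorem nf7_50 : c7c 50 = true := by decide +kernel
theorem nf7_51 : c7c 51 = true := by decide +kernel
theorem nf7_52 : c7c 52 = true := by decide +kernel
theorem nf7_53 : c7c 53 = true := by decide +kernel
theorem nf7_54 : c7c 54 = true := by decide +kernel
theorem nf7_55 : c7c 55 = true := by decide +kernel
theorem nf7_56 : c7c 56 = true := by decide +kernel
theorem nf7_57 : c7c 57 = true := by decide +kernel
theorem nf7_58 : c7c 58 = true := by decide +kernel
theorem nf7_59 : c7c 59 = true := by decide +kernel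
theorem nf7_60 : c7c 60 = true := by decide +kernel
theorem nf7_61 : c7c 61 = true := by decide +kernel
theorem nf7_62 : c7c 62 = true := by decide +kernel
theorem nf7_63 : c7c 63 = true := by decide +kernel
theorem nf7_64 : c7c 64 = true := by decide +kernel
theorem nf7_65 : c7c 65 = true := by decide +kernel
theorem nf7_66 : c7c 66 = true := by decide +kernel
theorem nf7_67 : c7c 67 = true := by decide +kernel
theorem nf7_68 : c7c 68 = true := by decide +kernel
theorem nf7_69 : c7c 69 = true := by decide +kernel
theorem nf7_70 : c7c 70 = true := by decide +kernel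
theorem nf7_71 : c7c 71 = true := by decide +kernel
theorem nf7_72 : c7c 72 = true := by decide +kernel
theorem nf7_73 : c7c 73 = true := by decide +kernel
theorem nf7_74 : c7c 74 = true := by decide +kernel
theorem nf7_75 : c7c 75 = true := by decide +kernel
theorem nf7_76 : c7c 76 = true := by decide +kernel
theorem nf7_77 : c7c 77 = true := by decide +kernel
theorem nf7_78 : c7c 78 = true := by decide +kernel
theorem nf7_79 : c7c 79 = true := by decide +kernel
theorem nf7_80 : c7c 80 = true := by decide +kernel
theorem nf7_81 : c7c 81 = true := by decide +kernel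
theorem nf7_82 : c7c 82 = true := by decide +kernel
theorem nf7_83 : c7c 83 = true := by decide +kernel
theorem nf7_84 : c7c 84 = true := by decide +kernel
theorem nf7_85 : c7c 85 = true := by decide +kernel
theorem nf7_86 : c7c 86 = true := by decide +kernel
theorem nf7_87 : c7c 87 = true := by decide +kernel
theorem nf7_88 : c7c 88 = true := by decide +kernel
theorem nf7_89 : c7c 89 = true := by decide +kernel
theorem nf7_90 : c7c 90 = true := by decide +kernel
theorem nf7_91 : c7c 91 = true := by decide +kernel
theorem nf7_92 : c7c 92 = true := by decide +kernel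
theorem nf7_93 : c7c 93 = true := by decide +kernel
theorem nf7_94 : c7c 94 = true := by decide +kernel
theorem nf7_95 : c7c 95 = true := by decide +kernel
theorem nf7_96 : c7c 96 = true := by decide +kernel
theorem nf7_97 : c7c 97 = true := by decide +kernel
theorem nf7_98 : c7c 98 = true := by decide +kernel
theorem nf7_99 : c7c 99 = true := by decide +kernel
theorem nf7_100 : c7c 100 = true := by decide +kernel
theorem nf7_101 : c7c 101 = true := by decide +kernel
theorem nf7_102 : c7c 102 = true := by decide +kernel
theorem nf7_103 : c7c 103 = true := by decide +kernel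
theorem nf7_104 : c7c 104 = true := by decide +kernel
theorem nf7_105 : c7c 105 = true := by decide +kernel
theorem nf7_106 : c7c 106 = true := by decide +kernel
theorem nf7_107 : c7c 107 = true := by decide +kernel
theorem nf7_108 : c7c 108 = true := by decide +kernel
theorem nf7_109 : c7c 109 = true := by decide +kernel
theorem nf7_110 : c7c 110 = true := by decide +kernel
theorem nf7_111 : c7c 111 = true := by decide +kernel
theorem nf7_112 : c7c 112 = true := by decide +kernel
theorem nf7_113 : c7c 113 = true := by decide +kernel
theorem nf7_114 : c7c 114 = true := by decide +kernel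
theorem nf7_115 : c7c 115 = true := by decide +kernel
theorem nf7_116 : c7c 116 = true := by decide +kernel
theorem nf7_117 : c7c 117 = true := by decide +kernel
theorem nf7_118 : c7c 118 = true := by decide +kernel
theorem nf7_119 : c7c 119 = true := by decide +kernel

/-- all chunks of `nf7` -/
theorem nf7_all : ∀ i, i < 120 → c7c i = true := by
  intro i hi
  interval_cases i
  · exact nf7_0
  · exact nf7_1
  · exact nf7_2
  · exact nf7_3
  · exact nf7_4
  · exact nf7_5
  · exact nf7_6
  · exact nf7_7
  · exact nf7_8
  · exact nf7_9
  · exact nf7_10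
  · exact nf7_11
  · exact nf7_12
  · exact nf7_13
  · exact nf7_14
  · exact nf7_15
  · exact nf7_16
  · exact nf7_17
  · exact nf7_18
  · exact nf7_19
  · exact nf7_20
  · exact nf7_21
  · exact nf7_22
  · exact nf7_23
  · exact nf7_24
  · exact nf7_25
  · exact nf7_26
  · exact nf7_27
  · exact nf7_28
  · exact nf7_29
  · exact nf7_30
  · exact nf7_31
  · exact nf7_32
  · exact nf7_33
  · exact nf7_34
  · exact nf7_35
  · exact nf7_36
  · exact nf7_37
  · exact nf7_38
  · exact nf7_39
  · exact nf7_40
  · exact nf7_41
  · exact nf7_42
  · exact nf7_43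
  · exact nf7_44
  · exact nf7_45
  · exact nf7_46
  · exact nf7_47
  · exact nf7_48
  · exact nf7_49
  · exact nf7_50
  · exact nf7_51
  · exact nf7_52
  · exact nf7_53
  · exact nf7_54
  · exact nf7_55
  · exact nf7_56
  · exact nf7_57
  · exact nf7_58
  · exact nf7_59
  · exact nf7_60
  · exact nf7_61
  · exact nf7_62
  · exact nf7_63
  · exact nf7_64
  · exact nf7_65
  · exact nf7_66
  · exact nf7_67
  · exact nf7_68
  · exact nf7_69
  · exact nf7_70
  · exact nf7_71
  · exact nf7_72
  · exact nf7_73
  · exact nf7_74
  · exact nf7_75
  · exact nf7_76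
  · exact nf7_77
  · exact nf7_78
  · exact nf7_79
  · exact nf7_80
  · exact nf7_81
  · exact nf7_82
  · exact nf7_83
  · exact nf7_84
  · exact nf7_85
  · exact nf7_86
  · exact nf7_87
  · exact nf7_88
  · exact nf7_89
  · exact nf7_90
  · exact nf7_91
  · exact nf7_92
  · exact nf7_93
  · exact nf7_94
  · exact nf7_95
  · exact nf7_96
  · exact nf7_97
  · exact nf7_98
  · exact nf7_99
  · exact nf7_100
  · exact nf7_101
  · exact nf7_102
  · exact nf7_103
  · exact nf7_104
  · exact nf7_105
  · exact nf7_106
  · exact nf7_107
  · exact nf7_108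
  · exact nf7_109
  · exact nf7_110
  · exact nf7_111
  · exact nf7_112
  · exact nf7_113
  · exact nf7_114
  · exact nf7_115
  · exact nf7_116
  · exact nf7_117
  · exact nf7_118
  · exact nf7_119


end Vale.Agent.Lib.P355.C240
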