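import Vale.Agent.Lib.P355.Fn240

/-!
The clique checks of the orbits.
-/

namespace Vale.Agent.Lib.P355.C240

theorem pv0 : chkA 0 = true := by decide +kernel
theorem pv1 : chkA 1 = true := by decide +kernel
theorem pv2 : chkA 2 = true := by decide +kernel
theorem pv3 : chkA 3 = true := by decide +kernel

end Vale.Agent.Lib.P355.C240
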