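import Vale.Agent.Lib.P355.Fn240

/-!
The clique checks of the orbits.
-/

namespace Vale.Agent.Lib.P355.C240

theorem pv4 : chkA 4 = true := by decide +kernel
theorem pv5 : chkA 5 = true := by decide +kernel
theorem pv6 : chkA 6 = true := by decide +kernel
theorem pv7 : chkA 7 = true := by decide +kernel
theorem pv8 : chkA 8 = true := by decide +kernel

end Vale.Agent.Lib.P355.C240
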