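import Vale.Agent.Lib.P355.Fn240

/-!
The clique checks of the orbits.
-/

namespace Vale.Agent.Lib.P355.C240

theorem pv9 : chkA 9 = true := by decide +kernel
theorem pv10 : chkA 10 = true := by decide +kernel
theorem pv11 : chkA 11 = true := by decide +kernel
theorem pv12 : chkA 12 = true := by decide +kernel
theorem pv13 : chkA 13 = true := by decide +kernel
theorem pv14 : chkA 14 = true := by decide +kernel
theorem pv15 : chkA 15 = true := by decide +kernel

end Vale.Agent.Lib.P355.C240
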