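import Vale.Agent.Lib.P355.Fn240

/-!
The clique checks of the orbits.
-/

namespace Vale.Agent.Lib.P355.C240

theorem pv16 : chkA 16 = true := by decide +kernel
theorem pv17 : chkA 17 = true := by decide +kernel
theorem pv18 : chkA 18 = true := by decide +kernel
theorem pv19 : chkA 19 = true := by decide +kernel
theorem pv20 : chkA 20 = true := by decide +kernel
theorem pv21 : chkA 21 = true := by decide +kernel
theorem pv22 : chkA 22 = true := by decide +kernel
theorem pv23 : chkA 23 = true := by decide +kernel
theorem pv24 : chkA 24 = true := by decide +kernel
theorem pv25 : chkA 25 = true := by decide +kernel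
theorem pv26 : chkA 26 = true := by decide +kernel

end Vale.Agent.Lib.P355.C240
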