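import Vale.Agent.Lib.P355.Fn240

/-!
The clique checks of the orbits.
-/

namespace Vale.Agent.Lib.P355.C240

theorem pv27 : chkA 27 = true := by decide +kernel
theorem pv28 : chkA 28 = true := by decide +kernel
theorem pv29 : chkA 29 = true := by decide +kernel
theorem pv30 : chkA 30 = true := by decide +kernel
theorem pv31 : chkA 31 = true := by decide +kernel

end Vale.Agent.Lib.P355.C240
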