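import Vale.Agent.Lib.P355.Fn240

/-!
The clique checks of the orbits.
-/

namespace Vale.Agent.Lib.P355.C240

theorem pv32 : chkB 32 = true := by decide +kernel
theorem pv33 : chkB 33 = true := by decide +kernel
theorem pv34 : chkB 34 = true := by decide +kernel
theorem pv35 : chkB 35 = true := by decide +kernel
theorem pv36 : chkB 36 = true := by decide +kernel
theorem pv37 : chkB 37 = true := by decide +kernel
theorem pv38 : chkB 38 = true := by decide +kernel
theorem pv39 : chkB 39 = true := by decide +kernel
theorem pv40 : chkB 40 = true := by decide +kernel
theorem pv41 : chkB 41 = true := by decide +kernel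
theorem pv42 : chkB 42 = true := by decide +kernel
theorem pv43 : chkB 43 = true := by decide +kernel
theorem pv44 : chkB 44 = true := by decide +kernel
theorem pv45 : chkB 45 = true := by decide +kernel
theorem pv46 : chkB 46 = true := by decide +kernel
theorem pv47 : chkB 47 = true := by decide +kernel
theorem pv48 : chkB 48 = true := by decide +kernel

end Vale.Agent.Lib.P355.C240
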