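import Mathlib.Tactic.IntervalCases
import Vale.Agent.Lib.P355.ChkP0
import Vale.Agent.Lib.P355.ChkP1
import Vale.Agent.Lib.P355.ChkP2
import Vale.Agent.Lib.P355.ChkP3
import Vale.Agent.Lib.P355.ChkP4
import Vale.Agent.Lib.P355.ChkP5

/-!
All clique checks.
-/

namespace Vale.Agent.Lib.P355.C240

/-- the checks of the orbits without cliques -/
theorem chkA_all : ∀ k, k < kC → chkA k = true := by
  intro k hk
  have hk' : k < 32 := hk
  clear hk
  interval_cases k
  · exact pv0
  · exact pv1
  · exact pv2
  · exact pv3
  · exact pv4
  · exact pv5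
  · exact pv6
  · exact pv7
  · exact pv8
  · exact pv9
  · exact pv10
  · exact pv11
  · exact pv12
  · exact pv13
  · exact pv14
  · exact pv15
  · exact pv16
  · exact pv17
  · exact pv18
  · exact pv19
  · exact pv20
  · exact pv21
  · exact pv22
  · exact pv23
  · exact pv24
  · exact pv25
  · exact pv26
  · exact pv27
  · exact pv28
  · exact pv29
  · exact pv30
  · exact pv31

/-- the checks of the orbits with cliques -/
theorem chkB_all : ∀ k, kC ≤ k → k < 49 → chkB k = true := by
  intro k hk hk2
  have hk' : 32 ≤ k := hk
  clear hk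
  interval_cases k
  · exact pv32
  · exact pv33
  · exact pv34
  · exact pv35
  · exact pv36
  · exact pv37
  · exact pv38
  · exact pv39
  · exact pv40
  · exact pv41
  · exact pv42
  · exact pv43
  · exact pv44
  · exact pv45
  · exact pv46
  · exact pv47
  · exact pv48

end Vale.Agent.Lib.P355.C240
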