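import Mathlib.Tactic.IntervalCases
import Vale.Agent.Lib.P355.Fn240

/-!
The checks of the table of tuples, in chunks.
-/

namespace Vale.Agent.Lib.P355.C240

theorem Tb_len : Tb.length = 240 := by decide +kernel

theorem okA_0 : rngT okA (Nat.mul 20 0) 20 = true := by decide +kernel
theorem okA_1 : rngT okA (Nat.mul 20 1) 20 = true := by decide +kernel
theorem okA_2 : rngT okA (Nat.mul 20 2) 20 = true := by decide +kernel
theorem okA_3 : rngT okA (Nat.mul 20 3) 20 = true := by decide +kernel
theorem okA_4 : rngT okA (Nat.mul 20 4) 20 = true := by decide +kernel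
theorem okA_5 : rngT okA (Nat.mul 20 5) 20 = true := by decide +kernel
theorem okA_6 : rngT okA (Nat.mul 20 6) 20 = true := by decide +kernel
theorem okA_7 : rngT okA (Nat.mul 20 7) 20 = true := by decide +kernel
theorem okA_8 : rngT okA (Nat.mul 20 8) 20 = true := by decide +kernel
theorem okA_9 : rngT okA (Nat.mul 20 9) 20 = true := by decide +kernel
theorem okA_10 : rngT okA (Nat.mul 20 10) 20 = true := by decide +kernel
theorem okA_11 : rngT okA (Nat.mul 20 11) 20 = true := by decide +kernel

/-- all chunks of `okA` -/
theorem okA_all : ∀ i, i < 12 → rngT okA (Nat.mul 20 i) 20 = true := by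
  intro i hi
  interval_cases i
  · exact okA_0
  · exact okA_1
  · exact okA_2
  · exact okA_3
  · exact okA_4
  · exact okA_5
  · exact okA_6
  · exact okA_7
  · exact okA_8
  · exact okA_9
  · exact okA_10
  · exact okA_11


end Vale.Agent.Lib.P355.C240
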