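import Mathlib.Tactic.IntervalCases
import Vale.Agent.Lib.P355.Fn240

/-!
The checks of the table of tuples, in chunks.
-/

namespace Vale.Agent.Lib.P355.C240

theorem okB7_0 : rngT (okB1 7) (Nat.mul 20 0) 20 = true := by decide +kernel
theorem okB7_1 : rngT (okB1 7) (Nat.mul 20 1) 20 = true := by decide +kernel
theorem okB7_2 : rngT (okB1 7) (Nat.mul 20 2) 20 = true := by decide +kernel
theorem okB7_3 : rngT (okB1 7) (Nat.mul 20 3) 20 = true := by decide +kernel
theorem okB7_4 : rngT (okB1 7) (Nat.mul 20 4) 20 = true := by decide +kernel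
theorem okB7_5 : rngT (okB1 7) (Nat.mul 20 5) 20 = true := by decide +kernel
theorem okB7_6 : rngT (okB1 7) (Nat.mul 20 6) 20 = true := by decide +kernel
theorem okB7_7 : rngT (okB1 7) (Nat.mul 20 7) 20 = true := by decide +kernel
theorem okB7_8 : rngT (okB1 7) (Nat.mul 20 8) 20 = true := by decide +kernel
theorem okB7_9 : rngT (okB1 7) (Nat.mul 20 9) 20 = true := by decide +kernel
theorem okB7_10 : rngT (okB1 7) (Nat.mul 20 10) 20 = true := by decide +kernel
theorem okB7_11 : rngT (okB1 7) (Nat.mul 20 11) 20 = true := by decide +kernel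

/-- all chunks of `okB7` -/
theorem okB7_all : ∀ i, i < 12 → rngT (okB1 7) (Nat.mul 20 i) 20 = true := by
  intro i hi
  interval_cases i
  · exact okB7_0
  · exact okB7_1
  · exact okB7_2
  · exact okB7_3
  · exact okB7_4
  · exact okB7_5
  · exact okB7_6
  · exact okB7_7
  · exact okB7_8
  · exact okB7_9
  · exact okB7_10
  · exact okB7_11

theorem okB11_0 : rngT (okB1 11) (Nat.mul 20 0) 20 = true := by decide +kernel
theorem okB11_1 : rngT (okB1 11) (Nat.mul 20 1) 20 = true := by decide +kernel
theorem okB11_2 : rngT (okB1 11) (Nat.mul 20 2) 20 = true := by decide +kernel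
theorem okB11_3 : rngT (okB1 11) (Nat.mul 20 3) 20 = true := by decide +kernel
theorem okB11_4 : rngT (okB1 11) (Nat.mul 20 4) 20 = true := by decide +kernel
theorem okB11_5 : rngT (okB1 11) (Nat.mul 20 5) 20 = true := by decide +kernel
theorem okB11_6 : rngT (okB1 11) (Nat.mul 20 6) 20 = true := by decide +kernel
theorem okB11_7 : rngT (okB1 11) (Nat.mul 20 7) 20 = true := by decide +kernel
theorem okB11_8 : rngT (okB1 11) (Nat.mul 20 8) 20 = true := by decide +kernel
theorem okB11_9 : rngT (okB1 11) (Nat.mul 20 9) 20 = true := by decide +kernel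
theorem okB11_10 : rngT (okB1 11) (Nat.mul 20 10) 20 = true := by decide +kernel
theorem okB11_11 : rngT (okB1 11) (Nat.mul 20 11) 20 = true := by decide +kernel

/-- all chunks of `okB11` -/
theorem okB11_all : ∀ i, i < 12 → rngT (okB1 11) (Nat.mul 20 i) 20 = true := by
  intro i hi
  interval_cases i
  · exact okB11_0
  · exact okB11_1
  · exact okB11_2
  · exact okB11_3
  · exact okB11_4
  · exact okB11_5
  · exact okB11_6
  · exact okB11_7
  · exact okB11_8
  · exact okB11_9
  · exact okB11_10
  · exact okB11_11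

theorem okB13_0 : rngT (okB1 13) (Nat.mul 20 0) 20 = true := by decide +kernel
theorem okB13_1 : rngT (okB1 13) (Nat.mul 20 1) 20 = true := by decide +kernel
theorem okB13_2 : rngT (okB1 13) (Nat.mul 20 2) 20 = true := by decide +kernel
theorem okB13_3 : rngT (okB1 13) (Nat.mul 20 3) 20 = true := by decide +kernel
theorem okB13_4 : rngT (okB1 13) (Nat.mul 20 4) 20 = true := by decide +kernel
theorem okB13_5 : rngT (okB1 13) (Nat.mul 20 5) 20 = true := by decide +kernel
theorem okB13_6 : rngT (okB1 13) (Nat.mul 20 6) 20 = true := by decide +kernel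
theorem okB13_7 : rngT (okB1 13) (Nat.mul 20 7) 20 = true := by decide +kernel
theorem okB13_8 : rngT (okB1 13) (Nat.mul 20 8) 20 = true := by decide +kernel
theorem okB13_9 : rngT (okB1 13) (Nat.mul 20 9) 20 = true := by decide +kernel
theorem okB13_10 : rngT (okB1 13) (Nat.mul 20 10) 20 = true := by decide +kernel
theorem okB13_11 : rngT (okB1 13) (Nat.mul 20 11) 20 = true := by decide +kernel

/-- all chunks of `okB13` -/
theorem okB13_all : ∀ i, i < 12 → rngT (okB1 13) (Nat.mul 20 i) 20 = true := by
  intro i hi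
  interval_cases i
  · exact okB13_0
  · exact okB13_1
  · exact okB13_2
  · exact okB13_3
  · exact okB13_4
  · exact okB13_5
  · exact okB13_6
  · exact okB13_7
  · exact okB13_8
  · exact okB13_9
  · exact okB13_10
  · exact okB13_11

theorem okB17_0 : rngT (okB1 17) (Nat.mul 20 0) 20 = true := by decide +kernel
theorem okB17_1 : rngT (okB1 17) (Nat.mul 20 1) 20 = true := by decide +kernel
theorem okB17_2 : rngT (okB1 17) (Nat.mul 20 2) 20 = true := by decide +kernel
theorem okB17_3 : rngT (okB1 17) (Nat.mul 20 3) 20 = true := by decide +kernel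
theorem okB17_4 : rngT (okB1 17) (Nat.mul 20 4) 20 = true := by decide +kernel
theorem okB17_5 : rngT (okB1 17) (Nat.mul 20 5) 20 = true := by decide +kernel
theorem okB17_6 : rngT (okB1 17) (Nat.mul 20 6) 20 = true := by decide +kernel
theorem okB17_7 : rngT (okB1 17) (Nat.mul 20 7) 20 = true := by decide +kernel
theorem okB17_8 : rngT (okB1 17) (Nat.mul 20 8) 20 = true := by decide +kernel
theorem okB17_9 : rngT (okB1 17) (Nat.mul 20 9) 20 = true := by decide +kernel
theorem okB17_10 : rngT (okB1 17) (Nat.mul 20 10) 20 = true := by decide +kernel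
theorem okB17_11 : rngT (okB1 17) (Nat.mul 20 11) 20 = true := by decide +kernel

/-- all chunks of `okB17` -/
theorem okB17_all : ∀ i, i < 12 → rngT (okB1 17) (Nat.mul 20 i) 20 = true := by
  intro i hi
  interval_cases i
  · exact okB17_0
  · exact okB17_1
  · exact okB17_2
  · exact okB17_3
  · exact okB17_4
  · exact okB17_5
  · exact okB17_6
  · exact okB17_7
  · exact okB17_8
  · exact okB17_9
  · exact okB17_10
  · exact okB17_11


end Vale.Agent.Lib.P355.C240
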