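import Mathlib.Tactic.IntervalCases
import Vale.Agent.Lib.P355.Fn240

/-!
The checks of the table of tuples, in chunks.
-/

namespace Vale.Agent.Lib.P355.C240

theorem OD_len : OD.length = 49 := by decide +kernel

theorem okX_0 : (OD.getD 0 []).all okX = true := by decide +kernel
theorem okX_1 : (OD.getD 1 []).all okX = true := by decide +kernel
theorem okX_2 : (OD.getD 2 []).all okX = true := by decide +kernel
theorem okX_3 : (OD.getD 3 []).all okX = true := by decide +kernel
theorem okX_4 : (OD.getD 4 []).all okX = true := by decide +kernel
theorem okX_5 : (OD.getD 5 []).all okX = true := by decide +kernel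
theorem okX_6 : (OD.getD 6 []).all okX = true := by decide +kernel
theorem okX_7 : (OD.getD 7 []).all okX = true := by decide +kernel
theorem okX_8 : (OD.getD 8 []).all okX = true := by decide +kernel
theorem okX_9 : (OD.getD 9 []).all okX = true := by decide +kernel
theorem okX_10 : (OD.getD 10 []).all okX = true := by decide +kernel
theorem okX_11 : (OD.getD 11 []).all okX = true := by decide +kernel
theorem okX_12 : (OD.getD 12 []).all okX = true := by decide +kernel
theorem okX_13 : (OD.getD 13 []).all okX = true := by decide +kernel
theorem okX_14 : (OD.getD 14 []).all okX = true := by decide +kernel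
theorem okX_15 : (OD.getD 15 []).all okX = true := by decide +kernel
theorem okX_16 : (OD.getD 16 []).all okX = true := by decide +kernel
theorem okX_17 : (OD.getD 17 []).all okX = true := by decide +kernel
theorem okX_18 : (OD.getD 18 []).all okX = true := by decide +kernel
theorem okX_19 : (OD.getD 19 []).all okX = true := by decide +kernel
theorem okX_20 : (OD.getD 20 []).all okX = true := by decide +kernel
theorem okX_21 : (OD.getD 21 []).all okX = true := by decide +kernel
theorem okX_22 : (OD.getD 22 []).all okX = true := by decide +kernel
theorem okX_23 : (OD.getD 23 []).all okX = true := by decide +kernel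
theorem okX_24 : (OD.getD 24 []).all okX = true := by decide +kernel
theorem okX_25 : (OD.getD 25 []).all okX = true := by decide +kernel
theorem okX_26 : (OD.getD 26 []).all okX = true := by decide +kernel
theorem okX_27 : (OD.getD 27 []).all okX = true := by decide +kernel
theorem okX_28 : (OD.getD 28 []).all okX = true := by decide +kernel
theorem okX_29 : (OD.getD 29 []).all okX = true := by decide +kernel
theorem okX_30 : (OD.getD 30 []).all okX = true := by decide +kernel
theorem okX_31 : (OD.getD 31 []).all okX = true := by decide +kernel
theorem okX_32 : (OD.getD 32 []).all okX = true := by decide +kernel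
theorem okX_33 : (OD.getD 33 []).all okX = true := by decide +kernel
theorem okX_34 : (OD.getD 34 []).all okX = true := by decide +kernel
theorem okX_35 : (OD.getD 35 []).all okX = true := by decide +kernel
theorem okX_36 : (OD.getD 36 []).all okX = true := by decide +kernel
theorem okX_37 : (OD.getD 37 []).all okX = true := by decide +kernel
theorem okX_38 : (OD.getD 38 []).all okX = true := by decide +kernel
theorem okX_39 : (OD.getD 39 []).all okX = true := by decide +kernel
theorem okX_40 : (OD.getD 40 []).all okX = true := by decide +kernel
theorem okX_41 : (OD.getD 41 []).all okX = true := by decide +kernel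
theorem okX_42 : (OD.getD 42 []).all okX = true := by decide +kernel
theorem okX_43 : (OD.getD 43 []).all okX = true := by decide +kernel
theorem okX_44 : (OD.getD 44 []).all okX = true := by decide +kernel
theorem okX_45 : (OD.getD 45 []).all okX = true := by decide +kernel
theorem okX_46 : (OD.getD 46 []).all okX = true := by decide +kernel
theorem okX_47 : (OD.getD 47 []).all okX = true := by decide +kernel
theorem okX_48 : (OD.getD 48 []).all okX = true := by decide +kernel

/-- all chunks of `okX` -/
theorem okX_all : ∀ i, i < 49 → (OD.getD i []).all okX = true := by
  intro i hi
  interval_cases i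
  · exact okX_0
  · exact okX_1
  · exact okX_2
  · exact okX_3
  · exact okX_4
  · exact okX_5
  · exact okX_6
  · exact okX_7
  · exact okX_8
  · exact okX_9
  · exact okX_10
  · exact okX_11
  · exact okX_12
  · exact okX_13
  · exact okX_14
  · exact okX_15
  · exact okX_16
  · exact okX_17
  · exact okX_18
  · exact okX_19
  · exact okX_20
  · exact okX_21
  · exact okX_22
  · exact okX_23
  · exact okX_24
  · exact okX_25
  · exact okX_26
  · exact okX_27
  · exact okX_28
  · exact okX_29
  · exact okX_30
  · exact okX_31
  · exact okX_32
  · exact okX_33
  · exact okX_34
  · exact okX_35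
  · exact okX_36
  · exact okX_37
  · exact okX_38
  · exact okX_39
  · exact okX_40
  · exact okX_41
  · exact okX_42
  · exact okX_43
  · exact okX_44
  · exact okX_45
  · exact okX_46
  · exact okX_47
  · exact okX_48


end Vale.Agent.Lib.P355.C240
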