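import Mathlib
import Vale.Agent.Lib.P355.Basic

/-!
Reduction modulo 2: a relation `S * conj S = A` with `A` even among `8 * 3^(c+1)`-th roots of unity
forces the exponent counts modulo `3^(c+1)` to be invariant modulo 2 under the shift by `3^c`.
-/

open Polynomial

namespace Vale.Agent.Lib.P355

/-- the residue class coefficient sum of a polynomial over `ZMod 2` -/
noncomputable def clSum (K : ℕ) (m : ZMod K) : (ZMod 2)[X] →ₗ[ZMod 2] ZMod 2 :=
  Polynomial.lsum (fun j => if ((j : ℕ) : ZMod K) = m then LinearMap.id else 0)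

lemma clSum_monomial (K : ℕ) (m : ZMod K) (j : ℕ) (a : ZMod 2) :
    clSum K m (monomial j a) = if ((j : ℕ) : ZMod K) = m then a else 0 := by
  unfold clSum
  rw [Polynomial.lsum_apply, Polynomial.sum_monomial_index]
  · split_ifs <;> simp
  · split_ifs <;> simp

lemma clSum_X_pow (K : ℕ) (m : ZMod K) (j : ℕ) :
    clSum K m (X ^ j) = if ((j : ℕ) : ZMod K) = m then 1 else 0 := by
  rw [X_pow_eq_monomial, clSum_monomial]

lemma clSum_mul (K : ℕ) (m : ZMod K) (H : (ZMod 2)[X]) : clSum K m ((X ^ K - 1) * H) = 0 := by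
  induction H using Polynomial.induction_on' with
  | add p q hp hq => rw [mul_add, map_add, hp, hq, add_zero]
  | monomial j a =>
    have : (X ^ K - 1 : (ZMod 2)[X]) * monomial j a = monomial (j + K) a - monomial j a := by
      rw [sub_mul, X_pow_mul_monomial, one_mul]
    rw [this, map_sub, clSum_monomial, clSum_monomial]
    have h2 : (((j + K : ℕ)) : ZMod K) = ((j : ℕ) : ZMod K) := by
      push_cast
      simp
    rw [h2, sub_self]

lemma X_pow_congr (K u v : ℕ) (h : ((u : ℕ) : ZMod K) = ((v : ℕ) : ZMod K)) :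
    (X ^ K - 1 : (ZMod 2)[X]) ∣ X ^ u - X ^ v := by
  have key : ∀ a b : ℕ, a ≤ b → ((a : ℕ) : ZMod K) = ((b : ℕ) : ZMod K) →
      (X ^ K - 1 : (ZMod 2)[X]) ∣ X ^ b - X ^ a := by
    intro a b hab he
    have h1 : K ∣ b - a := (Nat.modEq_iff_dvd' hab).mp ((ZMod.natCast_eq_natCast_iff _ _ _).mp he)
    obtain ⟨q, hq⟩ := h1
    have hb : b = a + K * q := by omega
    have h2 : (X ^ K - 1 : (ZMod 2)[X]) ∣ (X ^ K) ^ q - 1 ^ q := sub_dvd_pow_sub_pow _ _ _
    rw [one_pow] at h2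
    have h3 : (X ^ b - X ^ a : (ZMod 2)[X]) = X ^ a * ((X ^ K) ^ q - 1) := by
      rw [hb, pow_add, pow_mul]
      ring
    rw [h3]
    exact Dvd.dvd.mul_left h2 _
  rcases le_total u v with h1 | h1
  · have := key u v h1 h
    have h3 : (X ^ u - X ^ v : (ZMod 2)[X]) = -(X ^ v - X ^ u) := by ring
    rw [h3]
    exact (dvd_neg).mpr this
  · exact key v u h1 h.symm

/-- `2 ^ (3 ^ c) ≡ -1` modulo `3 ^ (c + 1)` -/
lemma two_pow_three_pow (c : ℕ) : ((3 : ℤ) ^ (c + 1)) ∣ 2 ^ (3 ^ c) + 1 := by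
  induction c with
  | zero => norm_num
  | succ c ih =>
    set y : ℤ := 2 ^ (3 ^ c) with hy
    have h1 : (2 : ℤ) ^ (3 ^ (c + 1)) = y ^ 3 := by
      rw [hy, ← pow_mul, pow_succ 3 c]
    rw [h1]
    obtain ⟨w, hw⟩ := ih
    have hdvd3 : (3 : ℤ) ∣ y + 1 := by
      rw [hw]
      exact Dvd.dvd.mul_right (dvd_pow_self 3 (by omega)) _
    have h2 : (3 : ℤ) ∣ (y + 1) ^ 2 - 3 * y := by
      apply dvd_sub
      · exact dvd_pow hdvd3 (by norm_num)
      · exact dvd_mul_right _ _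
    obtain ⟨v, hv⟩ := h2
    refine ⟨w * v, ?_⟩
    have : y ^ 3 + 1 = (y + 1) * ((y + 1) ^ 2 - 3 * y) := by ring
    rw [this, hv, hw]
    ring

/-- The main parity statement in terms of the residue classes in `ZMod (3 ^ (c + 1))`. -/
theorem parity_zmod (c K N n : ℕ) (hK : K = 3 ^ (c + 1)) (hN : N = 3 ^ c) (hn : n = 8 * K)
    {ζ : ℂ} (hζ : IsPrimitiveRoot ζ n) (e : Fin 6 → ℤ) (A : ℤ)
    (hA : Even A) (h : (∑ l, ζ ^ (e l)) * (∑ l, ζ ^ (-e l)) = (A : ℂ)) (m : ZMod K) :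
    ((Finset.univ.filter (fun l => ((e l : ℤ) : ZMod K) + ((N : ℕ) : ZMod K) = m)).card : ZMod 2)
      = ((Finset.univ.filter (fun l => ((e l : ℤ) : ZMod K) = m)).card : ZMod 2) := by
  classical
  have hKpos : 0 < K := by rw [hK]; positivity
  have hnpos : 0 < n := by rw [hn]; positivity
  have h2K : ¬ 2 ∣ K := by
    intro h
    rw [hK] at h
    have := (Nat.prime_two.dvd_of_dvd_pow h)
    omega
  have hKn : K ∣ n := ⟨8, by rw [hn]; ring⟩
  set a : Fin 6 → ℕ := fun l => (e l % n).toNat with ha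
  set a' : Fin 6 → ℕ := fun l => (-e l % n).toNat with ha'
  have hacast : ∀ (x : ℤ), (((x % n).toNat : ℕ) : ZMod K) = ((x : ℤ) : ZMod K) := by
    intro x
    have hnz : (n : ℤ) ≠ 0 := by exact_mod_cast hnpos.ne'
    have h1 : 0 ≤ x % n := Int.emod_nonneg _ hnz
    have h2 : (((x % n).toNat : ℕ) : ℤ) = x % n := Int.toNat_of_nonneg h1
    have h3 : (((x % n).toNat : ℕ) : ZMod K) = ((((x % n).toNat : ℕ) : ℤ) : ZMod K) := by
      push_cast; rfl
    rw [h3, h2, ZMod.intCast_eq_intCast_iff_dvd_sub]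
    have h4 : ((K : ℕ) : ℤ) ∣ (n : ℤ) := by exact_mod_cast hKn
    have h5 : (n : ℤ) ∣ x - x % n := Int.dvd_self_sub_emod
    exact h4.trans h5
  -- the integer polynomial
  set Q : ℤ[X] := (∑ l, X ^ a l) * (∑ l, X ^ a' l) - Polynomial.C A with hQ
  have h1 : aeval ζ Q = 0 := by
    simp only [hQ, map_sub, map_mul, map_sum, map_pow, aeval_X, aeval_C]
    have e1 : ∀ l, ζ ^ a l = ζ ^ (e l) := fun l =>
      (zpow_eq_pow_emod hnpos hζ.pow_eq_one (e l)).symm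
    have e2 : ∀ l, ζ ^ a' l = ζ ^ (-e l) := fun l =>
      (zpow_eq_pow_emod hnpos hζ.pow_eq_one (-e l)).symm
    simp only [e1, e2]
    rw [h]
    simp
  have hdvd : cyclotomic n ℤ ∣ Q := by
    rw [cyclotomic_eq_minpoly hζ hnpos]
    exact minpoly.isIntegrallyClosed_dvd (hζ.isIntegral hnpos) h1
  set f : (ZMod 2)[X] := ∑ l, X ^ a l with hf
  set g : (ZMod 2)[X] := ∑ l, X ^ a' l with hg
  have hA0 : ((A : ℤ) : ZMod 2) = 0 := by
    obtain ⟨k, rfl⟩ := hA
    push_cast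
    rw [← two_mul]
    have : (2 : ZMod 2) = 0 := rfl
    rw [this, zero_mul]
  have hmapQ : Q.map (Int.castRingHom (ZMod 2)) = f * g := by
    simp only [hQ, hf, hg, Polynomial.map_sub, Polynomial.map_mul, Polynomial.map_sum,
      Polynomial.map_pow, Polynomial.map_X, Polynomial.map_C, eq_intCast]
    simp
    have h6 : ((A : ℤ) : (ZMod 2)[X]) = Polynomial.C ((A : ℤ) : ZMod 2) := by simp
    rw [h6, hA0, map_zero]
  have hΦ1 : cyclotomic n (ZMod 2) ∣ f * g := by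
    rw [← hmapQ, ← map_cyclotomic_int n (ZMod 2)]
    exact Polynomial.map_dvd _ hdvd
  have : Fact (Nat.Prime 2) := ⟨Nat.prime_two⟩
  have hΦ2 : cyclotomic K (ZMod 2) ∣ cyclotomic n (ZMod 2) := by
    have := cyclotomic_mul_prime_pow_eq (ZMod 2) (p := 2) (m := K) h2K (k := 3) (by norm_num)
    have hn8 : n = 2 ^ 3 * K := by rw [hn]; norm_num
    rw [hn8, this]
    exact dvd_pow_self _ (by norm_num)
  set Φ := cyclotomic K (ZMod 2) with hΦ
  have hΦ3 : Φ ∣ X ^ K - 1 := cyclotomic.dvd_X_pow_sub_one K (ZMod 2)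
  -- Frobenius
  have hfrob : f ^ (2 ^ N) = ∑ l, X ^ (a l * 2 ^ N) := by
    rw [hf, sum_pow_char_pow]
    simp only [← pow_mul]
  have hexp : ∀ l, ((a l * 2 ^ N : ℕ) : ZMod K) = ((a' l : ℕ) : ZMod K) := by
    intro l
    have h3 := two_pow_three_pow c
    have h4 : ((2 ^ N : ℕ) : ZMod K) = -1 := by
      have : (((2 ^ N + 1 : ℤ)) : ZMod K) = 0 := by
        rw [ZMod.intCast_zmod_eq_zero_iff_dvd]
        have hK' : ((K : ℕ) : ℤ) = 3 ^ (c + 1) := by rw [hK]; norm_cast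
        have hN' : ((2 : ℤ) ^ N + 1) = 2 ^ (3 ^ c) + 1 := by rw [hN]
        rw [hN']
        rw [hK']
        exact h3
      push_cast at this ⊢
      exact eq_neg_of_add_eq_zero_left this
    rw [Nat.cast_mul, h4, hacast, hacast]
    push_cast
    ring
  have hfg : (X ^ K - 1 : (ZMod 2)[X]) ∣ f ^ (2 ^ N) - g := by
    rw [hfrob, hg, ← Finset.sum_sub_distrib]
    exact Finset.dvd_sum fun l _ => X_pow_congr K _ _ (hexp l)
  have hpow : Φ ∣ f ^ (2 ^ N + 1) := by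
    have h5 : f ^ (2 ^ N + 1) = f * g + f * (f ^ (2 ^ N) - g) := by
      rw [pow_succ]; ring
    rw [h5]
    exact dvd_add (hΦ2.trans hΦ1) (Dvd.dvd.mul_left (hΦ3.trans hfg) _)
  -- squarefree
  have hsep : (X ^ K - 1 : (ZMod 2)[X]).Separable := by
    rw [X_pow_sub_one_separable_iff]
    intro h0
    rw [ZMod.natCast_eq_zero_iff] at h0
    exact h2K h0
  have hsq : Squarefree Φ := (hsep.of_dvd hΦ3).squarefree
  have hdiv : Φ ∣ f := (hsq.dvd_pow_iff_dvd (by positivity)).mp hpow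
  have hXK : Φ * (X ^ N - 1) = X ^ K - 1 := by
    have := cyclotomic_prime_pow_mul_X_pow_sub_one (ZMod 2) 3 c
    rw [hΦ, hK, hN]
    exact this
  obtain ⟨H, hH⟩ := hdiv
  have hmain : f * (X ^ N - 1) = (X ^ K - 1) * H := by
    rw [← hXK, hH]
    ring
  have hcl := clSum_mul K m H
  rw [← hmain, hf, Finset.sum_mul, map_sum] at hcl
  have hterm : ∀ l, clSum K m (X ^ a l * (X ^ N - 1))
      = (if ((e l : ℤ) : ZMod K) + ((N : ℕ) : ZMod K) = m then 1 else 0)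
        - (if ((e l : ℤ) : ZMod K) = m then 1 else 0) := by
    intro l
    have : (X ^ a l * (X ^ N - 1) : (ZMod 2)[X]) = X ^ (a l + N) - X ^ a l := by
      rw [pow_add]; ring
    rw [this, map_sub, clSum_X_pow, clSum_X_pow, Nat.cast_add]
    simp only [ha, hacast]
  simp only [hterm] at hcl
  rw [Finset.sum_sub_distrib, Finset.sum_boole, Finset.sum_boole] at hcl
  exact sub_eq_zero.mp hcl

/-- The parity statement with integer divisibility conditions. -/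
theorem parity_int (c : ℕ) {ζ : ℂ} (hζ : IsPrimitiveRoot ζ (8 * 3 ^ (c + 1))) (e : Fin 6 → ℤ) (A : ℤ)
    (hA : Even A) (h : (∑ l, ζ ^ (e l)) * (∑ l, ζ ^ (-e l)) = (A : ℂ)) (m : ℤ) :
    ((Finset.univ.filter (fun l => ((3 : ℤ) * 3 ^ c) ∣ e l - m)).card : ZMod 2)
      = ((Finset.univ.filter (fun l => ((3 : ℤ) * 3 ^ c) ∣ e l - (m + 3 ^ c))).card : ZMod 2) := by
  classical
  have h0 := parity_zmod c (3 ^ (c + 1)) (3 ^ c) (8 * 3 ^ (c + 1)) rfl rfl rfl hζ e A hA h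
    ((m + 3 ^ c : ℤ) : ZMod (3 ^ (c + 1)))
  have hK : (((3 ^ (c + 1) : ℕ)) : ℤ) = 3 * 3 ^ c := by
    push_cast; ring
  have e1 : ∀ l, (((e l : ℤ) : ZMod (3 ^ (c + 1))) + ((3 ^ c : ℕ) : ZMod (3 ^ (c + 1)))
      = ((m + 3 ^ c : ℤ) : ZMod (3 ^ (c + 1)))) ↔ ((3 : ℤ) * 3 ^ c) ∣ e l - m := by
    intro l
    have : ((3 ^ c : ℕ) : ZMod (3 ^ (c + 1))) = (((3 : ℤ) ^ c : ℤ) : ZMod (3 ^ (c + 1))) := by
      push_cast; rfl
    rw [this, ← Int.cast_add, ZMod.intCast_eq_intCast_iff_dvd_sub, hK]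
    rw [show m + 3 ^ c - (e l + 3 ^ c) = -(e l - m) by ring, dvd_neg]
  have e2 : ∀ l, (((e l : ℤ) : ZMod (3 ^ (c + 1))) = ((m + 3 ^ c : ℤ) : ZMod (3 ^ (c + 1))))
      ↔ ((3 : ℤ) * 3 ^ c) ∣ e l - (m + 3 ^ c) := by
    intro l
    rw [ZMod.intCast_eq_intCast_iff_dvd_sub, hK]
    rw [show m + 3 ^ c - e l = -(e l - (m + 3 ^ c)) by ring, dvd_neg]
  simp only [e1, e2] at h0
  exact h0

end Vale.Agent.Lib.P355
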