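import Mathlib
import Vale.Agent.Lib.P355.Basic
import Vale.Agent.Lib.P355.Parity

/-!
Residue classes modulo `3 ^ c` of an exponent tuple which is unbiased to zero:
their sums, correlations, and sizes.
-/

namespace Vale.Agent.Lib.P355

open Finset

lemma coprime_aux (c s : ℕ) : (1 + 24 * s).Coprime (24 * 3 ^ c) := by
  have h3 : (1 + 24 * s).Coprime 3 := by
    rw [Nat.coprime_comm, Nat.Prime.coprime_iff_not_dvd Nat.prime_three]
    omega
  have h2 : (1 + 24 * s).Coprime 2 := by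
    rw [Nat.coprime_comm, Nat.Prime.coprime_iff_not_dvd Nat.prime_two]
    omega
  have h8 : (1 + 24 * s).Coprime (2 ^ 3) := Nat.Coprime.pow_right 3 h2
  have h24 : (1 + 24 * s).Coprime 24 := by
    have : (24 : ℕ) = 2 ^ 3 * 3 := by norm_num
    rw [this]
    exact Nat.Coprime.mul_right h8 h3
  exact Nat.Coprime.mul_right h24 (Nat.Coprime.pow_right c h3)

lemma conj_zpow {ζ : ℂ} (h : ‖ζ‖ = 1) (k : ℤ) : (starRingEnd ℂ) (ζ ^ k) = ζ ^ (-k) := by
  rw [map_zpow₀, ← Complex.inv_eq_conj h, inv_zpow, zpow_neg]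

/-- the sum of the powers over a residue class -/
noncomputable def xs (c : ℕ) (ζ : ℂ) (E : Fin 6 → ℤ) (g : ZMod (3 ^ c)) : ℂ :=
  ∑ l ∈ univ.filter (fun l => ((E l : ℤ) : ZMod (3 ^ c)) = g), ζ ^ (E l)

/-- the sum of the inverse powers over a residue class -/
noncomputable def xsb (c : ℕ) (ζ : ℂ) (E : Fin 6 → ℤ) (g : ZMod (3 ^ c)) : ℂ :=
  ∑ l ∈ univ.filter (fun l => ((E l : ℤ) : ZMod (3 ^ c)) = g), ζ ^ (-E l)

section

variable {c : ℕ} {ζ : ℂ} {E : Fin 6 → ℤ}

lemma norm_zeta (hζ : IsPrimitiveRoot ζ (24 * 3 ^ c)) : ‖ζ‖ = 1 :=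
  IsPrimitiveRoot.norm'_eq_one hζ (by positivity)

lemma zeta_ne_zero (hζ : IsPrimitiveRoot ζ (24 * 3 ^ c)) : ζ ≠ 0 :=
  ne_zero_of_pow_eq_one (by positivity) hζ.pow_eq_one

lemma xsb_eq_conj (hζ : IsPrimitiveRoot ζ (24 * 3 ^ c)) (g : ZMod (3 ^ c)) :
    xsb c ζ E g = (starRingEnd ℂ) (xs c ζ E g) := by
  unfold xsb xs
  rw [map_sum]
  refine Finset.sum_congr rfl fun l _ => ?_
  rw [conj_zpow (norm_zeta hζ)]

lemma xsb_ne_zero (hζ : IsPrimitiveRoot ζ (24 * 3 ^ c)) {g : ZMod (3 ^ c)} (h : xs c ζ E g ≠ 0) :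
    xsb c ζ E g ≠ 0 := by
  rw [xsb_eq_conj hζ]
  simpa using h

lemma xsb_eq_zero (hζ : IsPrimitiveRoot ζ (24 * 3 ^ c)) {g : ZMod (3 ^ c)} (h : xs c ζ E g = 0) :
    xsb c ζ E g = 0 := by
  rw [xsb_eq_conj hζ, h, map_zero]

/-- the correlations of the residue class sums -/
theorem corr (hζ : IsPrimitiveRoot ζ (24 * 3 ^ c))
    (hmu : (∑ l, ζ ^ (E l)) * (∑ l, ζ ^ (-E l)) = 6) (d : ZMod (3 ^ c)) :
    ∑ g, xs c ζ E (g + d) * xsb c ζ E g = if d = 0 then 6 else 0 := by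
  classical
  have hζ0 := zeta_ne_zero hζ
  have hsum : ∑ p : Fin 6 × Fin 6, ζ ^ (E p.1 - E p.2) = ((6 : ℤ) : ℂ) := by
    rw [Fintype.sum_prod_type]
    have : ((6 : ℤ) : ℂ) = (∑ l, ζ ^ (E l)) * (∑ l, ζ ^ (-E l)) := by rw [hmu]; norm_num
    rw [this, Finset.sum_mul_sum]
    refine Finset.sum_congr rfl fun l _ => Finset.sum_congr rfl fun m _ => ?_
    rw [sub_eq_add_neg, zpow_add₀ hζ0]
  have h1 := class_sum_zmod (m := 24) (N := 3 ^ c) (by norm_num) (coprime_aux c) hζ univ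
    (fun p : Fin 6 × Fin 6 => E p.1 - E p.2) 6 hsum d
  have hS : ((6 : ℤ) : ℂ) = 6 := by norm_num
  rw [hS] at h1
  rw [← h1]
  rw [← Finset.sum_fiberwise (univ.filter fun p : Fin 6 × Fin 6 =>
    (((E p.1 - E p.2 : ℤ)) : ZMod (3 ^ c)) = d) (fun p => ((E p.2 : ℤ) : ZMod (3 ^ c)))]
  refine Finset.sum_congr rfl fun g _ => ?_
  unfold xs xsb
  rw [Finset.sum_mul_sum, ← Finset.sum_product']
  have hset : (univ.filter (fun l => ((E l : ℤ) : ZMod (3 ^ c)) = g + d)) ×ˢ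
      (univ.filter (fun l => ((E l : ℤ) : ZMod (3 ^ c)) = g))
      = ((univ.filter fun p : Fin 6 × Fin 6 =>
        (((E p.1 - E p.2 : ℤ)) : ZMod (3 ^ c)) = d).filter
          fun p => ((E p.2 : ℤ) : ZMod (3 ^ c)) = g) := by
    ext ⟨l, m⟩
    simp only [mem_product, mem_filter, mem_univ, true_and, Int.cast_sub]
    constructor
    · rintro ⟨h1, h2⟩
      refine ⟨?_, h2⟩
      rw [h1, h2]; ring
    · rintro ⟨h1, h2⟩
      refine ⟨?_, h2⟩
      rw [← h2, ← h1]; ring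
  rw [hset]
  refine Finset.sum_congr rfl fun p _ => ?_
  rw [sub_eq_add_neg, zpow_add₀ hζ0]

lemma exists_xs_ne (hζ : IsPrimitiveRoot ζ (24 * 3 ^ c))
    (hmu : (∑ l, ζ ^ (E l)) * (∑ l, ζ ^ (-E l)) = 6) : ∃ g, xs c ζ E g ≠ 0 := by
  by_contra hall
  push Not at hall
  have h := corr hζ hmu 0
  simp only [add_zero, if_true] at h
  rw [Finset.sum_eq_zero (fun g _ => by rw [hall g, zero_mul])] at h
  norm_num at h

/-- a correlation cannot consist of a single nonzero term -/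
lemma fact1 (hζ : IsPrimitiveRoot ζ (24 * 3 ^ c))
    (hmu : (∑ l, ζ ^ (E l)) * (∑ l, ζ ^ (-E l)) = 6) {d g2 : ZMod (3 ^ c)} (hd : d ≠ 0)
    (h1 : xs c ζ E (g2 + d) ≠ 0) (h2 : xs c ζ E g2 ≠ 0) :
    ∃ g3, g3 ≠ g2 ∧ xs c ζ E g3 ≠ 0 ∧ xs c ζ E (g3 + d) ≠ 0 := by
  by_contra hall
  push Not at hall
  have h := corr hζ hmu d
  rw [if_neg hd, Finset.sum_eq_single g2] at h
  · exact mul_ne_zero h1 (xsb_ne_zero hζ h2) h
  · intro g _ hg
    by_cases hx : xs c ζ E g = 0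
    · rw [xsb_eq_zero hζ hx, mul_zero]
    · rw [hall g hg hx, zero_mul]
  · intro hh
    exact absurd (mem_univ g2) hh

/-- divisibility form of equality of residues -/
lemma lev_eq_iff (a b : ℤ) : (((a : ℤ) : ZMod (3 ^ c)) = ((b : ℤ) : ZMod (3 ^ c)))
    ↔ ((3 : ℤ) ^ c) ∣ a - b := by
  rw [ZMod.intCast_eq_intCast_iff_dvd_sub]
  have : (((3 ^ c : ℕ)) : ℤ) = 3 ^ c := by push_cast; rfl
  rw [this, show b - a = -(a - b) by ring, dvd_neg]

lemma hzeta8 (hζ : IsPrimitiveRoot ζ (24 * 3 ^ c)) : IsPrimitiveRoot ζ (8 * 3 ^ (c + 1)) := by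
  have : 8 * 3 ^ (c + 1) = 24 * 3 ^ c := by ring
  rw [this]; exact hζ

/-- every residue class modulo `3 ^ c` has at least two elements -/
theorem class_two (hζ : IsPrimitiveRoot ζ (24 * 3 ^ c))
    (hmu : (∑ l, ζ ^ (E l)) * (∑ l, ζ ^ (-E l)) = 6) (l : Fin 6) :
    ∃ k, k ≠ l ∧ ((E k : ℤ) : ZMod (3 ^ c)) = ((E l : ℤ) : ZMod (3 ^ c)) := by
  classical
  by_contra hall
  push Not at hall
  have hpar := parity_int c (hzeta8 hζ) E 6 (by decide) (by rw [hmu]; norm_num) (E l)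
  set N : ℤ := 3 ^ c with hN
  have hNpos : 0 < N := by rw [hN]; positivity
  have hle : ∀ k, N ∣ E k - E l → k = l := by
    intro k hk
    by_contra hne
    exact hall k hne ((lev_eq_iff _ _).mpr hk)
  have h3 : ∀ {a : ℤ}, (3 * N) ∣ a → N ∣ a := fun h => (Dvd.intro_left 3 rfl).trans h
  have hs1 : (univ.filter (fun k => (3 * N) ∣ E k - E l)) = {l} := by
    ext k
    simp only [mem_filter, mem_univ, true_and, mem_singleton]
    constructor
    · intro h; exact hle k (h3 h)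
    · rintro rfl; simp
  have hs2 : (univ.filter (fun k => (3 * N) ∣ E k - (E l + N))) = ∅ := by
    ext k
    simp only [mem_filter, mem_univ, true_and, notMem_empty, iff_false]
    intro h
    have hk : N ∣ E k - E l := by
      have h4 := h3 h
      have h5 : E k - E l = E k - (E l + N) + N := by ring
      rw [h5]
      exact dvd_add h4 dvd_rfl
    have := hle k hk
    subst this
    have h6 : E k - (E k + N) = -N := by ring
    rw [h6, dvd_neg] at h
    have := Int.le_of_dvd hNpos h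
    omega
  rw [hs1, hs2] at hpar
  simp at hpar

/-- a residue class with two elements lies in one class modulo `3 ^ (c + 1)` -/
theorem class_pair (hζ : IsPrimitiveRoot ζ (24 * 3 ^ c))
    (hmu : (∑ l, ζ ^ (E l)) * (∑ l, ζ ^ (-E l)) = 6) {x y : Fin 6} (hxy : x ≠ y)
    (hy : ((E y : ℤ) : ZMod (3 ^ c)) = ((E x : ℤ) : ZMod (3 ^ c)))
    (hA : ∀ k, ((E k : ℤ) : ZMod (3 ^ c)) = ((E x : ℤ) : ZMod (3 ^ c)) → k = x ∨ k = y) :
    ((3 : ℤ) * 3 ^ c) ∣ E y - E x := by
  classical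
  by_contra hnd
  have hpar0 := parity_int c (hzeta8 hζ) E 6 (by decide) (by rw [hmu]; norm_num) (E x)
  have hpar1 := parity_int c (hzeta8 hζ) E 6 (by decide) (by rw [hmu]; norm_num) (E x + 3 ^ c)
  set N : ℤ := 3 ^ c with hN
  have hNpos : 0 < N := by rw [hN]; positivity
  have hN0 : N ≠ 0 := hNpos.ne'
  obtain ⟨q, hq⟩ := (lev_eq_iff _ _).mp hy
  have hdvd3 : ∀ a : ℤ, (3 * N) ∣ N * a ↔ (3 : ℤ) ∣ a := by
    intro a
    rw [mul_comm 3 N]
    exact mul_dvd_mul_iff_left hN0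
  have h3q : ¬ (3 : ℤ) ∣ q := by
    intro h
    apply hnd
    rw [hq]
    exact (hdvd3 q).mpr h
  have h3 : ∀ {a : ℤ}, (3 * N) ∣ a → N ∣ a := fun h => (Dvd.intro_left 3 rfl).trans h
  have hcl : ∀ k (j : ℤ), (3 * N) ∣ E k - (E x + j * N) → k = x ∨ k = y := by
    intro k j h
    apply hA
    rw [lev_eq_iff]
    have h5 : E k - E x = E k - (E x + j * N) + N * j := by ring
    rw [h5]
    exact dvd_add (h3 h) (dvd_mul_right _ _)
  have hx_no : ∀ j : ℤ, ¬ (3 : ℤ) ∣ j → ¬ (3 * N) ∣ E x - (E x + j * N) := by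
    intro j hj h
    have h6 : E x - (E x + j * N) = N * (-j) := by ring
    rw [h6, hdvd3, dvd_neg] at h
    exact hj h
  have hy_no : ∀ j : ℤ, ¬ (3 : ℤ) ∣ q - j → ¬ (3 * N) ∣ E y - (E x + j * N) := by
    intro j hj h
    have h6 : E y - (E x + j * N) = N * (q - j) := by
      rw [show E y - (E x + j * N) = (E y - E x) - j * N by ring, hq]; ring
    rw [h6, hdvd3] at h
    exact hj h
  have hs0 : (univ.filter (fun k => (3 * N) ∣ E k - E x)) = {x} := by
    ext k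
    simp only [mem_filter, mem_univ, true_and, mem_singleton]
    constructor
    · intro h
      have h' : (3 * N) ∣ E k - (E x + 0 * N) := by simpa using h
      rcases hcl k 0 h' with rfl | rfl
      · rfl
      · exact absurd (by
          have h7 : E k - E x = N * q := hq
          rw [h7] at h
          exact (hdvd3 q).mp h) h3q
    · rintro rfl; simp
  have hone : ((univ.filter (fun k => (3 * N) ∣ E k - E x)).card : ZMod 2) = 1 := by
    rw [hs0]; simp
  have hempty : ∀ j : ℤ, ¬ (3 : ℤ) ∣ j → ¬ (3 : ℤ) ∣ q - j →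
      (univ.filter (fun k => (3 * N) ∣ E k - (E x + j * N))) = ∅ := by
    intro j hj hqj
    ext k
    simp only [mem_filter, mem_univ, true_and, notMem_empty, iff_false]
    intro h
    rcases hcl k j h with rfl | rfl
    · exact hx_no j hj h
    · exact hy_no j hqj h
  have hq3 : q % 3 = 1 ∨ q % 3 = 2 := by
    have : ¬ q % 3 = 0 := fun h => h3q (Int.dvd_of_emod_eq_zero h)
    omega
  rcases hq3 with h1 | h1
  · -- the class of `E x + 2 N` is empty
    have h2 := hempty 2 (by decide) (by omega)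
    have e2 : (univ.filter fun k => (3 * N) ∣ E k - (E x + N + N))
        = univ.filter fun k => (3 * N) ∣ E k - (E x + 2 * N) := by
      apply Finset.filter_congr
      intro k _
      rw [show E x + N + N = E x + 2 * N by ring]
    rw [e2, h2] at hpar1
    rw [hone, hpar1] at hpar0
    simp at hpar0
  · have h2 := hempty 1 (by decide) (by omega)
    have e2 : (univ.filter fun k => (3 * N) ∣ E k - (E x + N))
        = univ.filter fun k => (3 * N) ∣ E k - (E x + 1 * N) := by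
      apply Finset.filter_congr
      intro k _
      rw [one_mul]
    rw [e2, h2, hone] at hpar0
    simp at hpar0

end

end Vale.Agent.Lib.P355
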