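import Mathlib
import Vale.Agent.Lib.P355.Parity

/-!
Reduction modulo 2 with the `2`-part of the exponents kept: a relation `S * conj S = A` with `A` even
among `2 ^ (s + 4) * 3 ^ (c + 1)`-th roots of unity forces, within each residue class modulo
`2 ^ (s + 2)`, the exponent counts modulo `3 ^ (c + 1)` to be invariant modulo 2 under the shift by
`3 ^ c`.
-/

open Polynomial

namespace Vale.Agent.Lib.P355

section General

variable {F : Type*} [Field F]

/-- congruent powers of `X` modulo `X ^ K - 1` over any commutative ring -/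
lemma X_pow_congr' {R : Type*} [CommRing R] (K u v : ℕ)
    (h : ((u : ℕ) : ZMod K) = ((v : ℕ) : ZMod K)) : (X ^ K - 1 : R[X]) ∣ X ^ u - X ^ v := by
  have key : ∀ a b : ℕ, a ≤ b → ((a : ℕ) : ZMod K) = ((b : ℕ) : ZMod K) →
      (X ^ K - 1 : R[X]) ∣ X ^ b - X ^ a := by
    intro a b hab he
    have h1 : K ∣ b - a := (Nat.modEq_iff_dvd' hab).mp ((ZMod.natCast_eq_natCast_iff _ _ _).mp he)
    obtain ⟨q, hq⟩ := h1
    have hb : b = a + K * q := by omega
    have h2 : (X ^ K - 1 : R[X]) ∣ (X ^ K) ^ q - 1 ^ q := sub_dvd_pow_sub_pow _ _ _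
    rw [one_pow] at h2
    have h3 : (X ^ b - X ^ a : R[X]) = X ^ a * ((X ^ K) ^ q - 1) := by
      rw [hb, pow_add, pow_mul]
      ring
    rw [h3]
    exact Dvd.dvd.mul_left h2 _
  rcases le_total u v with h1 | h1
  · have := key u v h1 h
    have h3 : (X ^ u - X ^ v : R[X]) = -(X ^ v - X ^ u) := by ring
    rw [h3]
    exact (dvd_neg).mpr this
  · exact key v u h1 h.symm

/-- If `(X - 1) ^ (2 q)` divides `f * G` and `G` agrees with the twist of `f` modulo a high power of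
`X - 1`, then `(X - 1) ^ q` divides `f`. -/
theorem mult_transfer [CharP F 2] {f G : F[X]} (σ : F →+* F) {m q N₀ : ℕ} (hm : Odd m)
    (hN : 2 * q ≤ N₀)
    (h1 : (X - 1 : F[X]) ^ (2 * q) ∣ f * G)
    (h2 : (X - 1 : F[X]) ^ N₀ ∣ G - (f.map σ).comp (X ^ m)) :
    (X - 1 : F[X]) ^ q ∣ f := by
  by_cases hf : f = 0
  · rw [hf]; exact dvd_zero _
  obtain ⟨f₁, hf₁, hnd⟩ := exists_eq_pow_rootMultiplicity_mul_and_not_dvd f hf 1
  set j := f.rootMultiplicity 1 with hj
  rw [map_one] at hf₁ hnd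
  have hf₁1 : f₁.eval 1 ≠ 0 := by
    intro h0
    apply hnd
    have := (dvd_iff_isRoot (p := f₁) (a := 1)).mpr h0
    simpa using this
  by_contra hcon
  have hjq : j < q := by
    by_contra hle
    push Not at hle
    apply hcon
    rw [hf₁]
    exact Dvd.dvd.mul_right (pow_dvd_pow _ hle) _
  set T : F[X] := X - 1 with hT
  have hT0 : T ≠ 0 := X_sub_C_ne_zero (1 : F)
  -- the twist of the cofactor
  set U : F[X] := ∑ i ∈ Finset.range m, X ^ i with hU
  have hXm : (X ^ m - 1 : F[X]) = T * U := by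
    rw [hT, hU, mul_comm]
    exact (geom_sum_mul (X : F[X]) m).symm
  have hU1 : U.eval 1 = 1 := by
    simp only [hU, eval_finsetSum, eval_pow, eval_X, one_pow, Finset.sum_const, Finset.card_range,
      nsmul_eq_mul, mul_one]
    obtain ⟨k, rfl⟩ := hm
    push_cast
    have h2' : (2 : F) = 0 := by exact_mod_cast CharP.cast_eq_zero F 2
    rw [h2']; ring
  set f₂ : F[X] := (f₁.map σ).comp (X ^ m) with hf₂
  have hf₂1 : f₂.eval 1 = σ (f₁.eval 1) := by
    rw [hf₂, eval_comp]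
    simp [eval_map, eval₂_at_one]
  have htw : (f.map σ).comp (X ^ m) = T ^ j * (U ^ j * f₂) := by
    rw [hf₁, Polynomial.map_mul, mul_comp, Polynomial.map_pow, pow_comp]
    have : ((X - 1 : F[X]).map σ).comp (X ^ m) = T * U := by
      rw [← hXm]
      simp
    rw [this, mul_pow, mul_assoc]
  obtain ⟨W, hW⟩ := h2
  have hG : G = T ^ j * (U ^ j * f₂) + T ^ N₀ * W := by
    rw [← hW, ← htw]; ring
  have hj1 : 2 * j + 1 ≤ 2 * q := by omega
  have h3 : T ^ (2 * j + 1) ∣ f * G := (pow_dvd_pow _ hj1).trans h1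
  have h4 : f * G = T ^ (2 * j) * (f₁ * (U ^ j * f₂)) + T ^ (j + N₀) * (f₁ * W) := by
    rw [hG, hf₁, pow_add, two_mul, pow_add]
    ring
  have h5 : T ^ (2 * j + 1) ∣ T ^ (j + N₀) * (f₁ * W) :=
    Dvd.dvd.mul_right (pow_dvd_pow _ (by omega)) _
  have h6 : T ^ (2 * j + 1) ∣ T ^ (2 * j) * (f₁ * (U ^ j * f₂)) := by
    have := (dvd_sub h3 h5)
    rw [h4] at this
    simpa using this
  rw [pow_succ] at h6
  have h7 : T ∣ f₁ * (U ^ j * f₂) := (mul_dvd_mul_iff_left (pow_ne_zero _ hT0)).mp h6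
  have h8 : (f₁ * (U ^ j * f₂)).eval 1 = 0 := by
    have := (dvd_iff_isRoot (p := f₁ * (U ^ j * f₂)) (a := 1)).mp (by simpa [hT] using h7)
    exact this
  rw [eval_mul, eval_mul, eval_pow, hU1, hf₂1, one_pow, one_mul] at h8
  rcases mul_eq_zero.mp h8 with h9 | h9
  · exact hf₁1 h9
  · exact hf₁1 ((map_eq_zero σ).mp h9)

/-- coefficient sums over a residue class -/
noncomputable def clF (F : Type*) [Field F] (K : ℕ) (m : ZMod K) : F[X] →ₗ[F] F :=
  Polynomial.lsum (fun j => if ((j : ℕ) : ZMod K) = m then LinearMap.id else 0)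

lemma clF_monomial (K : ℕ) (m : ZMod K) (j : ℕ) (a : F) :
    clF F K m (monomial j a) = if ((j : ℕ) : ZMod K) = m then a else 0 := by
  unfold clF
  rw [Polynomial.lsum_apply, Polynomial.sum_monomial_index]
  · split_ifs <;> simp
  · split_ifs <;> simp

lemma clF_mul (K : ℕ) (m : ZMod K) (H : F[X]) : clF F K m ((X ^ K - 1) * H) = 0 := by
  induction H using Polynomial.induction_on' with
  | add p q hp hq => rw [mul_add, map_add, hp, hq, add_zero]
  | monomial j a =>
    have : (X ^ K - 1 : F[X]) * monomial j a = monomial (j + K) a - monomial j a := by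
      rw [sub_mul, X_pow_mul_monomial, one_mul]
    rw [this, map_sub, clF_monomial, clF_monomial]
    have h2 : (((j + K : ℕ)) : ZMod K) = ((j : ℕ) : ZMod K) := by
      push_cast
      simp
    rw [h2, sub_self]

end General

section Main

variable {s c : ℕ}

lemma cast_emod (n K : ℕ) (hn : 0 < n) (hKn : K ∣ n) (x : ℤ) :
    (((x % n).toNat : ℕ) : ZMod K) = ((x : ℤ) : ZMod K) := by
  have hnz : (n : ℤ) ≠ 0 := by exact_mod_cast hn.ne'
  have h1 : 0 ≤ x % n := Int.emod_nonneg _ hnz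
  have h2 : (((x % n).toNat : ℕ) : ℤ) = x % n := Int.toNat_of_nonneg h1
  have h3 : (((x % n).toNat : ℕ) : ZMod K) = ((((x % n).toNat : ℕ) : ℤ) : ZMod K) := by
    push_cast; rfl
  rw [h3, h2, ZMod.intCast_eq_intCast_iff_dvd_sub]
  have h4 : ((K : ℕ) : ℤ) ∣ (n : ℤ) := by exact_mod_cast hKn
  have h5 : (n : ℤ) ∣ x - x % n := Int.dvd_self_sub_emod
  exact h4.trans h5

/-- The vanishing of the class sums at a primitive `3 ^ (c + 1)`-th root of unity in a field of
characteristic 2. -/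
theorem class_vanish {F : Type*} [Field F] [CharP F 2] {n : ℕ}
    (hn : n = 2 ^ (s + 4) * 3 ^ (c + 1)) {ζ : ℂ} (hζ : IsPrimitiveRoot ζ n) (e : Fin 6 → ℤ) (A : ℤ)
    (hA : Even A) (h : (∑ l, ζ ^ (e l)) * (∑ l, ζ ^ (-e l)) = (A : ℂ))
    {η : F} (hη : IsPrimitiveRoot η (3 ^ (c + 1))) (r : ZMod (2 ^ (s + 2))) :
    ∑ l ∈ Finset.univ.filter (fun l => ((e l : ℤ) : ZMod (2 ^ (s + 2))) = r),
      η ^ (e l % n).toNat = 0 := by
  classical
  have hnpos : 0 < n := by rw [hn]; positivity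
  have h2K : ¬ 2 ∣ 3 ^ (c + 1) := by
    intro h
    have := (Nat.prime_two.dvd_of_dvd_pow h)
    omega
  set K := 3 ^ (c + 1) with hK
  set a : Fin 6 → ℕ := fun l => (e l % n).toNat with ha
  set a' : Fin 6 → ℕ := fun l => (-e l % n).toNat with ha'
  -- the integer polynomial
  set Q : ℤ[X] := (∑ l, X ^ a l) * (∑ l, X ^ a' l) - Polynomial.C A with hQ
  have h1 : aeval ζ Q = 0 := by
    simp only [hQ, map_sub, map_mul, map_sum, map_pow, aeval_X, aeval_C]
    have e1 : ∀ l, ζ ^ a l = ζ ^ (e l) := fun l =>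
      (zpow_eq_pow_emod hnpos hζ.pow_eq_one (e l)).symm
    have e2 : ∀ l, ζ ^ a' l = ζ ^ (-e l) := fun l =>
      (zpow_eq_pow_emod hnpos hζ.pow_eq_one (-e l)).symm
    simp only [e1, e2]
    rw [h]
    simp
  have hdvd : cyclotomic n ℤ ∣ Q := by
    rw [cyclotomic_eq_minpoly hζ hnpos]
    exact minpoly.isIntegrallyClosed_dvd (hζ.isIntegral hnpos) h1
  have hfact : Fact (Nat.Prime 2) := ⟨Nat.prime_two⟩
  -- the polynomial over `F`
  have hA0 : ((A : ℤ) : F) = 0 := by
    obtain ⟨k, rfl⟩ := hA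
    push_cast
    rw [← two_mul]
    have : (2 : F) = 0 := by exact_mod_cast CharP.cast_eq_zero F 2
    rw [this, zero_mul]
  set Y : F[X] := C η * X with hY
  have hpow : ∀ j : ℕ, ((X : F[X]) ^ j).comp Y = C (η ^ j) * X ^ j := by
    intro j
    rw [pow_comp, X_comp, hY, mul_pow, C_pow]
  set f : F[X] := ∑ l, C (η ^ a l) * X ^ a l with hf
  set g : F[X] := ∑ l, C (η ^ a' l) * X ^ a' l with hg
  have hmapQ : (Q.map (Int.castRingHom F)).comp Y = f * g := by
    have h0 : (Polynomial.map (Int.castRingHom F) (C A)) = 0 := by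
      rw [Polynomial.map_C, eq_intCast, hA0, map_zero]
    rw [hQ, Polynomial.map_sub, h0, sub_zero, Polynomial.map_mul, mul_comp, Polynomial.map_sum,
      Polynomial.map_sum, Polynomial.sum_comp, Polynomial.sum_comp, hf, hg]
    simp only [Polynomial.map_pow, Polynomial.map_X, hpow]
  have hcyc : (cyclotomic n F).comp Y ∣ f * g := by
    rw [← hmapQ, ← map_cyclotomic_int n F]
    obtain ⟨H, hH⟩ := hdvd
    rw [hH, Polynomial.map_mul, mul_comp]
    exact dvd_mul_right _ _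
  have hcyc2 : cyclotomic n F = cyclotomic K F ^ (2 ^ (s + 3)) := by
    rw [hn]
    have := cyclotomic_mul_prime_pow_eq F (p := 2) (m := K) h2K (k := s + 4) (by omega)
    rw [this]
    congr 1
    have h5 : s + 4 - 1 = s + 3 := by omega
    rw [h5, pow_succ 2 (s + 3)]
    omega
  have hneK : NeZero ((K : ℕ) : F) := by
    constructor
    intro h0
    rw [CharP.cast_eq_zero_iff F 2] at h0
    exact h2K h0
  have hroot : (X - 1 : F[X]) ∣ (cyclotomic K F).comp Y := by
    have h0 : IsRoot ((cyclotomic K F).comp Y) 1 := by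
      rw [IsRoot.def, eval_comp]
      have h6 : eval 1 Y = η := by simp [hY]
      rw [h6]
      exact (isRoot_cyclotomic_iff).mpr hη
    have := (dvd_iff_isRoot).mpr h0
    simpa using this
  have h8 : (X - 1 : F[X]) ^ (2 * 2 ^ (s + 2)) ∣ f * g := by
    have h9 : (cyclotomic n F).comp Y = ((cyclotomic K F).comp Y) ^ (2 ^ (s + 3)) := by
      rw [hcyc2, pow_comp]
    rw [h9] at hcyc
    have h10 : 2 * 2 ^ (s + 2) = 2 ^ (s + 3) := by ring
    rw [h10]
    exact (pow_dvd_pow_of_dvd hroot _).trans hcyc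
  -- the twist
  set σ : F →+* F := iterateFrobenius F 2 (3 ^ c) with hσ
  have hση : ∀ x : F, σ x = x ^ (2 ^ (3 ^ c)) := fun x => iterateFrobenius_def 2 (3 ^ c) x
  have hKn : K ∣ n := ⟨2 ^ (s + 4), by rw [hn]; ring⟩
  have hnn : n ∣ n := dvd_rfl
  have hη1 : η ^ K = 1 := hη.pow_eq_one
  -- residues
  have hexpK : ∀ l, ((a l * 2 ^ (3 ^ c) : ℕ) : ZMod K) = ((a' l : ℕ) : ZMod K) := by
    intro l
    have h3 := two_pow_three_pow c
    have h4 : ((2 ^ (3 ^ c) : ℕ) : ZMod K) = -1 := by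
      have : (((2 ^ (3 ^ c) + 1 : ℤ)) : ZMod K) = 0 := by
        rw [ZMod.intCast_zmod_eq_zero_iff_dvd]
        have hK' : ((K : ℕ) : ℤ) = 3 ^ (c + 1) := by rw [hK]; norm_cast
        rw [hK']
        exact h3
      push_cast at this ⊢
      exact eq_neg_of_add_eq_zero_left this
    rw [Nat.cast_mul, h4, ha, ha', cast_emod n K hnpos hKn, cast_emod n K hnpos hKn]
    push_cast
    ring
  have hpowK : ∀ u v : ℕ, ((u : ℕ) : ZMod K) = ((v : ℕ) : ZMod K) → η ^ u = η ^ v := by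
    intro u v huv
    rw [pow_eq_pow_mod u hη1, pow_eq_pow_mod v hη1]
    rw [(ZMod.natCast_eq_natCast_iff' u v K).mp huv]
  have htwist : ∀ l, σ (η ^ a l) = η ^ a' l := by
    intro l
    rw [hση, ← pow_mul]
    exact hpowK _ _ (hexpK l)
  have hoddn : Odd (n - 1) := by
    have h1n : 1 ≤ n := hnpos
    have hev : Even n := by
      rw [hn, pow_succ 2 (s + 3)]
      exact ⟨2 ^ (s + 3) * 3 ^ (c + 1), by ring⟩
    exact Nat.Even.sub_odd h1n hev odd_one
  have hexpn : ∀ l, ((a l * (n - 1) : ℕ) : ZMod n) = ((a' l : ℕ) : ZMod n) := by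
    intro l
    have h4 : ((n - 1 : ℕ) : ZMod n) = -1 := by
      rw [Nat.cast_sub hnpos]
      simp
    rw [Nat.cast_mul, h4, ha, ha', cast_emod n n hnpos dvd_rfl, cast_emod n n hnpos dvd_rfl]
    push_cast
    ring
  have hXn : (X - 1 : F[X]) ^ (2 ^ (s + 4)) ∣ X ^ n - 1 := by
    have h5 : (X ^ n - 1 : F[X]) = (X ^ K - 1) ^ (2 ^ (s + 4)) := by
      have : (X ^ K - 1 : F[X]) ^ (2 ^ (s + 4)) = (X ^ K) ^ (2 ^ (s + 4)) - 1 ^ (2 ^ (s + 4)) :=
        sub_pow_char_pow (X ^ K) 1 (s + 4)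
      rw [this, one_pow, ← pow_mul, hn, mul_comm]
    rw [h5]
    apply pow_dvd_pow_of_dvd
    have : (X - 1 : F[X]) ∣ X ^ K - 1 := by
      have := sub_dvd_pow_sub_pow (X : F[X]) 1 K
      simpa using this
    exact this
  have h2tw : (X - 1 : F[X]) ^ (2 ^ (s + 4)) ∣ g - (f.map σ).comp (X ^ (n - 1)) := by
    have h6 : g - (f.map σ).comp (X ^ (n - 1))
        = ∑ l, C (η ^ a' l) * (X ^ a' l - X ^ (a l * (n - 1))) := by
      rw [hg, hf, Polynomial.map_sum, Polynomial.sum_comp, ← Finset.sum_sub_distrib]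
      refine Finset.sum_congr rfl fun l _ => ?_
      simp only [Polynomial.map_mul, Polynomial.map_C, Polynomial.map_pow, Polynomial.map_X,
        mul_comp, C_comp, pow_comp, X_comp, htwist]
      rw [pow_mul]
      ring
    rw [h6]
    apply Finset.dvd_sum
    intro l _
    apply Dvd.dvd.mul_left
    exact hXn.trans (X_pow_congr' n _ _ (hexpn l).symm)
  have hq := mult_transfer σ hoddn (N₀ := 2 ^ (s + 4)) (q := 2 ^ (s + 2)) (by
    have : 2 ^ (s + 4) = 4 * 2 ^ (s + 2) := by ring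
    omega) h8 h2tw
  have hXq : (X - 1 : F[X]) ^ (2 ^ (s + 2)) = X ^ (2 ^ (s + 2)) - 1 := by
    have := sub_pow_char_pow (p := 2) (X : F[X]) 1 (s + 2)
    rw [one_pow] at this
    exact this
  rw [hXq] at hq
  obtain ⟨H, hH⟩ := hq
  have hcl := clF_mul (F := F) (2 ^ (s + 2)) r H
  rw [← hH, hf, map_sum] at hcl
  have hq' : (2 ^ (s + 2)) ∣ n := ⟨4 * K, by rw [hn]; ring⟩
  have hterm : ∀ l, clF F (2 ^ (s + 2)) r (C (η ^ a l) * X ^ a l)
      = if ((e l : ℤ) : ZMod (2 ^ (s + 2))) = r then η ^ a l else 0 := by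
    intro l
    rw [C_mul_X_pow_eq_monomial, clF_monomial, ha, cast_emod n _ hnpos hq']
  simp only [hterm] at hcl
  rw [Finset.sum_filter]
  exact hcl

/-- The parity statement for a residue class modulo `2 ^ (s + 2)`. -/
theorem parity_class {n K N : ℕ} (hK : K = 3 ^ (c + 1)) (hN : N = 3 ^ c)
    (hn : n = 2 ^ (s + 4) * K) {ζ : ℂ}
    (hζ : IsPrimitiveRoot ζ n) (e : Fin 6 → ℤ) (A : ℤ)
    (hA : Even A) (h : (∑ l, ζ ^ (e l)) * (∑ l, ζ ^ (-e l)) = (A : ℂ))
    (r : ZMod (2 ^ (s + 2))) (m : ZMod K) :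
    (((Finset.univ.filter (fun l => ((e l : ℤ) : ZMod (2 ^ (s + 2))) = r)).filter
        (fun l => ((e l : ℤ) : ZMod K) + ((N : ℕ) : ZMod K) = m)).card : ZMod 2)
      = (((Finset.univ.filter (fun l => ((e l : ℤ) : ZMod (2 ^ (s + 2))) = r)).filter
        (fun l => ((e l : ℤ) : ZMod K) = m)).card : ZMod 2) := by
  classical
  have hnpos : 0 < n := by rw [hn, hK]; positivity
  have h2K : ¬ 2 ∣ K := by
    intro h
    rw [hK] at h
    have := (Nat.prime_two.dvd_of_dvd_pow h)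
    omega
  have hKpos : 0 < K := by rw [hK]; positivity
  have hKn : K ∣ n := ⟨2 ^ (s + 4), by rw [hn]; ring⟩
  set I := Finset.univ.filter (fun l => ((e l : ℤ) : ZMod (2 ^ (s + 2))) = r) with hI
  set a : Fin 6 → ℕ := fun l => (e l % n).toNat with ha
  set P : (ZMod 2)[X] := ∑ l ∈ I, X ^ a l with hP
  let F := AlgebraicClosure (ZMod 2)
  have hfact : Fact (Nat.Prime 2) := ⟨Nat.prime_two⟩
  have hneK : NeZero ((K : ℕ) : F) := by
    constructor
    intro h0
    rw [CharP.cast_eq_zero_iff F 2] at h0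
    exact h2K h0
  have hdeg : (cyclotomic K F).degree ≠ 0 := by
    rw [degree_cyclotomic]
    have := Nat.totient_pos.mpr hKpos
    exact_mod_cast this.ne'
  obtain ⟨η₀, hη₀⟩ := IsAlgClosed.exists_root (cyclotomic K F) hdeg
  have hprim₀ : IsPrimitiveRoot η₀ K := isRoot_cyclotomic_iff.mp hη₀
  have hmapdvd : (cyclotomic K (ZMod 2)).map (algebraMap (ZMod 2) F) ∣ P.map (algebraMap (ZMod 2) F) := by
    rw [map_cyclotomic, cyclotomic_eq_prod_X_sub_primitiveRoots hprim₀]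
    apply Finset.prod_dvd_of_coprime
    · intro x _ y _ hxy
      exact isCoprime_X_sub_C_of_isUnit_sub (sub_ne_zero.mpr hxy).isUnit
    · intro μ hμ
      have hμ' : IsPrimitiveRoot μ K := (mem_primitiveRoots hKpos).mp hμ
      rw [dvd_iff_isRoot, IsRoot.def, hP, Polynomial.map_sum, eval_finsetSum]
      simp only [Polynomial.map_pow, Polynomial.map_X, eval_pow, eval_X]
      subst hK
      subst hn
      exact class_vanish rfl hζ e A hA h hμ' r
  have hdiv : cyclotomic K (ZMod 2) ∣ P := (Polynomial.map_dvd_map' _).mp hmapdvd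
  have hXK : cyclotomic K (ZMod 2) * (X ^ N - 1) = X ^ K - 1 := by
    have := cyclotomic_prime_pow_mul_X_pow_sub_one (ZMod 2) 3 c
    rw [hK, hN]
    exact this
  obtain ⟨H, hH⟩ := hdiv
  have hmain : P * (X ^ N - 1) = (X ^ K - 1) * H := by
    rw [← hXK, hH]
    ring
  have hcl := clSum_mul K m H
  rw [← hmain, hP, Finset.sum_mul, map_sum] at hcl
  have hterm : ∀ l, clSum K m (X ^ a l * (X ^ N - 1))
      = (if ((e l : ℤ) : ZMod K) + ((N : ℕ) : ZMod K) = m then 1 else 0)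
        - (if ((e l : ℤ) : ZMod K) = m then 1 else 0) := by
    intro l
    have : (X ^ a l * (X ^ N - 1) : (ZMod 2)[X]) = X ^ (a l + N) - X ^ a l := by
      rw [pow_add]; ring
    rw [this, map_sub, clSum_X_pow, clSum_X_pow, Nat.cast_add]
    simp only [ha, cast_emod n K hnpos hKn]
  simp only [hterm] at hcl
  rw [Finset.sum_sub_distrib, Finset.sum_boole, Finset.sum_boole] at hcl
  exact sub_eq_zero.mp hcl

/-- The parity statement with integer divisibility conditions: the number of exponents in a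
residue class modulo `3 M` and in the next one have the same parity, where
`M = q * N`, `q = 2 ^ (s + 2)`, `N = 3 ^ c`. -/
theorem parity_int2 {n q K N : ℕ} (hq : q = 2 ^ (s + 2)) (hK : K = 3 ^ (c + 1)) (hN : N = 3 ^ c)
    (hn : n = 2 ^ (s + 4) * K) {ζ : ℂ}
    (hζ : IsPrimitiveRoot ζ n) (e : Fin 6 → ℤ) (A : ℤ)
    (hA : Even A) (h : (∑ l, ζ ^ (e l)) * (∑ l, ζ ^ (-e l)) = (A : ℂ)) (m : ℤ) :
    ((Finset.univ.filter (fun l => ((q * K : ℕ) : ℤ) ∣ e l - m)).card : ZMod 2)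
      = ((Finset.univ.filter (fun l => ((q * K : ℕ) : ℤ) ∣
          e l - (m + ((q * N : ℕ) : ℤ)))).card : ZMod 2) := by
  classical
  subst hq
  set r : ZMod (2 ^ (s + 2)) := ((m : ℤ) : ZMod (2 ^ (s + 2))) with hr
  -- the count function
  let C : ZMod K → ZMod 2 := fun x =>
    (((Finset.univ.filter (fun l => ((e l : ℤ) : ZMod (2 ^ (s + 2))) = r)).filter
        (fun l => ((e l : ℤ) : ZMod K) = x)).card : ZMod 2)
  have hstep : ∀ x : ZMod K, C x = C (x + ((N : ℕ) : ZMod K)) := by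
    intro x
    have h1 := parity_class hK hN hn hζ e A hA h r (x + ((N : ℕ) : ZMod K))
    have h2 : ∀ l, ((e l : ℤ) : ZMod K) + ((N : ℕ) : ZMod K) = x + ((N : ℕ) : ZMod K)
        ↔ ((e l : ℤ) : ZMod K) = x := by
      intro l
      exact add_left_inj _
    simp only [h2] at h1
    exact h1
  have hiter : ∀ (j : ℕ) (x : ZMod K), C x = C (x + ((j : ℕ) : ZMod K) * ((N : ℕ) : ZMod K)) := by
    intro j
    induction j with
    | zero => intro x; simp
    | succ j ih =>
      intro x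
      rw [ih x, hstep]
      congr 1
      push_cast
      ring
  have hcop : IsCoprime ((2 ^ (s + 2) : ℕ) : ℤ) ((K : ℕ) : ℤ) := by
    rw [Nat.isCoprime_iff_coprime, hK]
    exact Nat.Coprime.pow _ _ (by norm_num)
  have hset : ∀ m' : ℤ, ((m' : ℤ) : ZMod (2 ^ (s + 2))) = r →
      (Finset.univ.filter (fun l => ((2 ^ (s + 2) * K : ℕ) : ℤ) ∣ e l - m'))
        = ((Finset.univ.filter (fun l => ((e l : ℤ) : ZMod (2 ^ (s + 2))) = r)).filter
          (fun l => ((e l : ℤ) : ZMod K) = ((m' : ℤ) : ZMod K))) := by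
    intro m' hm'
    ext l
    simp only [Finset.mem_filter, Finset.mem_univ, true_and]
    rw [← hm', ZMod.intCast_eq_intCast_iff_dvd_sub, ZMod.intCast_eq_intCast_iff_dvd_sub]
    have n1 : ∀ D : ℤ, D ∣ m' - e l ↔ D ∣ e l - m' := by
      intro D
      rw [← dvd_neg, neg_sub]
    rw [n1, n1, Nat.cast_mul]
    constructor
    · intro hd
      exact ⟨(Dvd.intro _ rfl).trans hd, (Dvd.intro_left _ rfl).trans hd⟩
    · rintro ⟨h1, h2⟩
      exact IsCoprime.mul_dvd hcop h1 h2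
  have hqm : ((((2 ^ (s + 2) * N : ℕ) : ℤ) : ℤ) : ZMod (2 ^ (s + 2))) = 0 := by
    rw [ZMod.intCast_zmod_eq_zero_iff_dvd]
    exact_mod_cast Dvd.intro _ rfl
  have e1 := hset m rfl
  have e2 := hset (m + ((2 ^ (s + 2) * N : ℕ) : ℤ)) (by
    rw [Int.cast_add, hqm, add_zero])
  rw [e1, e2]
  have h3 := hiter (2 ^ (s + 2)) ((m : ℤ) : ZMod K)
  have h4 : ((m : ℤ) : ZMod K) + ((2 ^ (s + 2) : ℕ) : ZMod K) * ((N : ℕ) : ZMod K)
      = ((m + ((2 ^ (s + 2) * N : ℕ) : ℤ) : ℤ) : ZMod K) := by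
    push_cast
    ring
  rw [h4] at h3
  exact h3

end Main

end Vale.Agent.Lib.P355
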