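import Mathlib
import Vale.Agent.Lib.P355.Parity2

/-!
Reduction modulo 2 at a root of unity of order `240 * H`, `H = 2 ^ s * 3 ^ b * 5 ^ c`: in a field of
characteristic 2 with an element `θ` with `θ ^ 4 = θ + 1`, each residue class modulo `4 * H` of the
exponents of a tuple unbiased to zero gives a vanishing sum of powers of `θ` or of `θ⁻¹`.
-/

open Polynomial

namespace Vale.Agent.Lib.P355

section Alt

variable {F : Type*} [Field F] [CharP F 2]

/-- a factor of a product with high multiplicity divides one of the factors to half of it -/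
lemma pow_dvd_or {f g : F[X]} {q : ℕ} (h : (X - 1 : F[X]) ^ (2 * q) ∣ f * g) :
    (X - 1 : F[X]) ^ q ∣ f ∨ (X - 1 : F[X]) ^ q ∣ g := by
  by_contra hcon
  push Not at hcon
  obtain ⟨h1, h2⟩ := hcon
  have hp : Prime (X - 1 : F[X]) := by
    have := prime_X_sub_C (1 : F)
    simpa using this
  have e1 := emultiplicity_lt_iff_not_dvd.mpr h1
  have e2 := emultiplicity_lt_iff_not_dvd.mpr h2
  have e3 := pow_dvd_iff_le_emultiplicity.mp h
  rw [emultiplicity_mul hp] at e3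
  have hne1 : emultiplicity (X - 1 : F[X]) f ≠ ⊤ := ne_top_of_lt e1
  have hne2 : emultiplicity (X - 1 : F[X]) g ≠ ⊤ := ne_top_of_lt e2
  obtain ⟨m1, hm1⟩ := ENat.ne_top_iff_exists.mp hne1
  obtain ⟨m2, hm2⟩ := ENat.ne_top_iff_exists.mp hne2
  rw [← hm1] at e1 e3
  rw [← hm2] at e2 e3
  have a1 : m1 < q := by exact_mod_cast e1
  have a2 : m2 < q := by exact_mod_cast e2
  have a3 : 2 * q ≤ m1 + m2 := by exact_mod_cast e3
  omega

/-- a polynomial with the factor `X ^ q - 1` has vanishing class sums -/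
lemma class_of_dvd {q : ℕ} (hq : 0 < q) {η : F} (b : Fin 6 → ℕ)
    (h : (X ^ q - 1 : F[X]) ∣ ∑ l, C (η ^ b l) * X ^ b l) (r : ZMod q) :
    ∑ l ∈ Finset.univ.filter (fun l => ((b l : ℕ) : ZMod q) = r), η ^ b l = 0 := by
  classical
  obtain ⟨H, hH⟩ := h
  have hcl := clF_mul (F := F) q r H
  rw [← hH, map_sum] at hcl
  have hterm : ∀ l, clF F q r (C (η ^ b l) * X ^ b l)
      = if ((b l : ℕ) : ZMod q) = r then η ^ b l else 0 := by
    intro l
    rw [C_mul_X_pow_eq_monomial, clF_monomial]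
  simp only [hterm] at hcl
  rw [Finset.sum_filter]
  exact hcl

lemma zpow_emod_field {x : F} {n : ℕ} (hn : 0 < n) (hx : x ^ n = 1) (E : ℤ) :
    x ^ E = x ^ (E % n).toNat := by
  have hx0 : x ≠ 0 := by
    rintro rfl
    rw [zero_pow hn.ne'] at hx
    exact zero_ne_one hx
  have hnz : (n : ℤ) ≠ 0 := by exact_mod_cast hn.ne'
  have h1 : 0 ≤ E % n := Int.emod_nonneg _ hnz
  have h2 : (((E % n).toNat : ℕ) : ℤ) = E % n := Int.toNat_of_nonneg h1
  rw [← zpow_natCast, h2]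
  conv_lhs => rw [← Int.mul_ediv_add_emod E n]
  rw [zpow_add₀ hx0, zpow_mul]
  rw [zpow_natCast, hx, one_zpow, one_mul]

/-- The sums over residue classes modulo `2 ^ (s + 2)` vanish at a primitive `K`th root of unity or
at its inverse. -/
theorem class_vanish_alt {s n K : ℕ} (hn : n = 2 ^ (s + 4) * K) (h2K : ¬ 2 ∣ K) {ζ : ℂ}
    (hζ : IsPrimitiveRoot ζ n) (e : Fin 6 → ℤ) (A : ℤ) (hA : Even A)
    (h : (∑ l, ζ ^ (e l)) * (∑ l, ζ ^ (-e l)) = (A : ℂ))
    {η : F} (hη : IsPrimitiveRoot η K) :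
    (∀ r : ZMod (2 ^ (s + 2)),
      ∑ l ∈ Finset.univ.filter (fun l => ((e l : ℤ) : ZMod (2 ^ (s + 2))) = r), η ^ (e l) = 0) ∨
    (∀ r : ZMod (2 ^ (s + 2)),
      ∑ l ∈ Finset.univ.filter (fun l => ((e l : ℤ) : ZMod (2 ^ (s + 2))) = r), (η⁻¹) ^ (e l) = 0) := by
  classical
  have hKpos : 0 < K := by
    rcases Nat.eq_zero_or_pos K with h0 | h0
    · subst h0; exact absurd (dvd_zero 2) h2K
    · exact h0
  have hnpos : 0 < n := by rw [hn]; positivity
  set a : Fin 6 → ℕ := fun l => (e l % n).toNat with ha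
  set a' : Fin 6 → ℕ := fun l => (-e l % n).toNat with ha'
  set Q : ℤ[X] := (∑ l, X ^ a l) * (∑ l, X ^ a' l) - Polynomial.C A with hQ
  have h1 : aeval ζ Q = 0 := by
    simp only [hQ, map_sub, map_mul, map_sum, map_pow, aeval_X, aeval_C]
    have e1 : ∀ l, ζ ^ a l = ζ ^ (e l) := fun l =>
      (zpow_eq_pow_emod hnpos hζ.pow_eq_one (e l)).symm
    have e2 : ∀ l, ζ ^ a' l = ζ ^ (-e l) := fun l =>
      (zpow_eq_pow_emod hnpos hζ.pow_eq_one (-e l)).symm
    simp only [e1, e2]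
    rw [h]
    simp
  have hdvd : cyclotomic n ℤ ∣ Q := by
    rw [cyclotomic_eq_minpoly hζ hnpos]
    exact minpoly.isIntegrallyClosed_dvd (hζ.isIntegral hnpos) h1
  have hfact : Fact (Nat.Prime 2) := ⟨Nat.prime_two⟩
  have hA0 : ((A : ℤ) : F) = 0 := by
    obtain ⟨k, rfl⟩ := hA
    push_cast
    rw [← two_mul]
    have : (2 : F) = 0 := by exact_mod_cast CharP.cast_eq_zero F 2
    rw [this, zero_mul]
  set Y : F[X] := C η * X with hY
  have hpow : ∀ j : ℕ, ((X : F[X]) ^ j).comp Y = C (η ^ j) * X ^ j := by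
    intro j
    rw [pow_comp, X_comp, hY, mul_pow, C_pow]
  set f : F[X] := ∑ l, C (η ^ a l) * X ^ a l with hf
  set g : F[X] := ∑ l, C (η ^ a' l) * X ^ a' l with hg
  have hmapQ : (Q.map (Int.castRingHom F)).comp Y = f * g := by
    have h0 : (Polynomial.map (Int.castRingHom F) (C A)) = 0 := by
      rw [Polynomial.map_C, eq_intCast, hA0, map_zero]
    rw [hQ, Polynomial.map_sub, h0, sub_zero, Polynomial.map_mul, mul_comp, Polynomial.map_sum,
      Polynomial.map_sum, Polynomial.sum_comp, Polynomial.sum_comp, hf, hg]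
    simp only [Polynomial.map_pow, Polynomial.map_X, hpow]
  have hcyc : (cyclotomic n F).comp Y ∣ f * g := by
    rw [← hmapQ, ← map_cyclotomic_int n F]
    obtain ⟨H, hH⟩ := hdvd
    rw [hH, Polynomial.map_mul, mul_comp]
    exact dvd_mul_right _ _
  have hcyc2 : cyclotomic n F = cyclotomic K F ^ (2 ^ (s + 3)) := by
    rw [hn]
    have := cyclotomic_mul_prime_pow_eq F (p := 2) (m := K) h2K (k := s + 4) (by omega)
    rw [this]
    congr 1
    have h5 : s + 4 - 1 = s + 3 := by omega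
    rw [h5, pow_succ 2 (s + 3)]
    omega
  have hneK : NeZero ((K : ℕ) : F) := by
    constructor
    intro h0
    rw [CharP.cast_eq_zero_iff F 2] at h0
    exact h2K h0
  have hroot : (X - 1 : F[X]) ∣ (cyclotomic K F).comp Y := by
    have h0 : IsRoot ((cyclotomic K F).comp Y) 1 := by
      rw [IsRoot.def, eval_comp]
      have h6 : eval 1 Y = η := by simp [hY]
      rw [h6]
      exact (isRoot_cyclotomic_iff).mpr hη
    have := (dvd_iff_isRoot).mpr h0
    simpa using this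
  have h8 : (X - 1 : F[X]) ^ (2 * 2 ^ (s + 2)) ∣ f * g := by
    have h9 : (cyclotomic n F).comp Y = ((cyclotomic K F).comp Y) ^ (2 ^ (s + 3)) := by
      rw [hcyc2, pow_comp]
    rw [h9] at hcyc
    have h10 : 2 * 2 ^ (s + 2) = 2 ^ (s + 3) := by ring
    rw [h10]
    exact (pow_dvd_pow_of_dvd hroot _).trans hcyc
  have hXq : (X - 1 : F[X]) ^ (2 ^ (s + 2)) = X ^ (2 ^ (s + 2)) - 1 := by
    have := sub_pow_char_pow (p := 2) (X : F[X]) 1 (s + 2)
    rw [one_pow] at this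
    exact this
  have hqn : (2 ^ (s + 2)) ∣ n := ⟨4 * K, by rw [hn]; ring⟩
  have hqpos : 0 < 2 ^ (s + 2) := by positivity
  have hKn : K ∣ n := ⟨2 ^ (s + 4), by rw [hn]; ring⟩
  have hηn : η ^ n = 1 := by
    obtain ⟨m, hm⟩ := hKn
    rw [hm, pow_mul, hη.pow_eq_one, one_pow]
  have hη0 : η ≠ 0 := by
    rintro rfl
    rw [zero_pow hnpos.ne'] at hηn
    exact zero_ne_one hηn
  rcases pow_dvd_or h8 with hd | hd
  · left
    rw [hXq] at hd
    intro r
    have hc := class_of_dvd hqpos a hd r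
    have hs : Finset.univ.filter (fun l => ((a l : ℕ) : ZMod (2 ^ (s + 2))) = r)
        = Finset.univ.filter (fun l => ((e l : ℤ) : ZMod (2 ^ (s + 2))) = r) := by
      apply Finset.filter_congr
      intro l _
      rw [ha]
      simp only
      rw [cast_emod n _ hnpos hqn]
    rw [hs] at hc
    rw [← hc]
    refine Finset.sum_congr rfl fun l _ => ?_
    exact zpow_emod_field hnpos hηn (e l)
  · right
    rw [hXq] at hd
    intro r
    have hc := class_of_dvd hqpos a' hd (-r)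
    have hs : Finset.univ.filter (fun l => ((a' l : ℕ) : ZMod (2 ^ (s + 2))) = -r)
        = Finset.univ.filter (fun l => ((e l : ℤ) : ZMod (2 ^ (s + 2))) = r) := by
      apply Finset.filter_congr
      intro l _
      rw [ha']
      simp only
      rw [cast_emod n _ hnpos hqn]
      push_cast
      exact neg_inj
    rw [hs] at hc
    rw [← hc]
    refine Finset.sum_congr rfl fun l _ => ?_
    have := zpow_emod_field hnpos hηn (-e l)
    rw [← this, inv_zpow', ]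

/-- the Frobenius powers: vanishing sums stay vanishing -/
lemma vanish_frob {η : F} {I : Finset (Fin 6)} {e : Fin 6 → ℤ} (h : ∑ l ∈ I, η ^ (e l) = 0) (i : ℕ) :
    ∑ l ∈ I, (η ^ (16 ^ i)) ^ (e l) = 0 := by
  haveI : Fact (Nat.Prime 2) := ⟨Nat.prime_two⟩
  have h1 : (∑ l ∈ I, η ^ (e l)) ^ (2 ^ (4 * i)) = ∑ l ∈ I, (η ^ (e l)) ^ (2 ^ (4 * i)) :=
    sum_pow_char_pow (p := 2) (n := 4 * i) I (fun l => η ^ (e l))
  rw [h, zero_pow (by positivity)] at h1
  have h2 : (16 : ℕ) ^ i = 2 ^ (4 * i) := by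
    rw [pow_mul]; norm_num
  rw [h2]
  rw [h1]
  refine Finset.sum_congr rfl fun l _ => ?_
  rw [← zpow_natCast, ← zpow_natCast, ← zpow_mul, ← zpow_mul, mul_comm]

/-- geometric sums of an `N`th root of unity in a field -/
lemma geom_zpow_field {χ : F} {N : ℕ} (hχ : IsPrimitiveRoot χ N) (d : ℤ) :
    ∑ s ∈ Finset.range N, (χ ^ d) ^ s = if (N : ℤ) ∣ d then (N : F) else 0 := by
  split_ifs with h
  · have : χ ^ d = 1 := (hχ.zpow_eq_one_iff_dvd d).mpr h
    simp [this]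
  · have h1 : χ ^ d ≠ 1 := fun h' => h ((hχ.zpow_eq_one_iff_dvd d).mp h')
    have h2 : (χ ^ d) ^ N = 1 := by
      rw [← zpow_natCast, ← zpow_mul, mul_comm, zpow_mul, zpow_natCast, hχ.pow_eq_one, one_zpow]
    have h3 := mul_neg_geom_sum (χ ^ d) N
    rw [h2, sub_self] at h3
    rcases mul_eq_zero.mp h3 with h4 | h4
    · exact absurd (sub_eq_zero.mp h4).symm h1
    · exact h4

/-- the finite Fourier transform along the powers of `ω` -/
lemma fourier_class {η ω : F} {N : ℕ} (hN : ¬ 2 ∣ N) (hω : IsPrimitiveRoot ω N) (hη : η ≠ 0)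
    (hω0 : ω ≠ 0) {I : Finset (Fin 6)} {e : Fin 6 → ℤ}
    (h : ∀ t ∈ Finset.range N, ∑ l ∈ I, (η * ω ^ t) ^ (e l) = 0) (j : ℤ) :
    ∑ l ∈ I.filter (fun l => (N : ℤ) ∣ e l - j), η ^ (e l) = 0 := by
  classical
  have hNF : (N : F) ≠ 0 := by
    intro h0
    rw [CharP.cast_eq_zero_iff F 2] at h0
    exact hN h0
  have h1 : ∑ t ∈ Finset.range N, ω ^ (-(t : ℤ) * j) * ∑ l ∈ I, (η * ω ^ t) ^ (e l) = 0 :=
    Finset.sum_eq_zero fun t ht => by rw [h t ht, mul_zero]
  have h2 : ∀ t ∈ Finset.range N, ω ^ (-(t : ℤ) * j) * ∑ l ∈ I, (η * ω ^ t) ^ (e l)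
      = ∑ l ∈ I, η ^ (e l) * (ω ^ (e l - j)) ^ t := by
    intro t _
    rw [Finset.mul_sum]
    refine Finset.sum_congr rfl fun l _ => ?_
    rw [mul_zpow, ← zpow_natCast ω t, ← zpow_mul, ← zpow_natCast (ω ^ (e l - j)) t, ← zpow_mul]
    have : ω ^ (-(t : ℤ) * j) * (η ^ e l * ω ^ ((t : ℤ) * e l))
        = η ^ e l * (ω ^ (-(t : ℤ) * j) * ω ^ ((t : ℤ) * e l)) := by ring
    rw [this, ← zpow_add₀ hω0]
    congr 2
    ring
  rw [Finset.sum_congr rfl h2, Finset.sum_comm] at h1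
  have h3 : ∀ l ∈ I, ∑ t ∈ Finset.range N, η ^ (e l) * (ω ^ (e l - j)) ^ t
      = η ^ (e l) * (if (N : ℤ) ∣ e l - j then (N : F) else 0) := by
    intro l _
    rw [← Finset.mul_sum, geom_zpow_field hω]
  rw [Finset.sum_congr rfl h3] at h1
  rw [Finset.sum_filter]
  have h4 : (∑ l ∈ I, if (N : ℤ) ∣ e l - j then η ^ e l else 0) * (N : F)
      = ∑ l ∈ I, η ^ (e l) * (if (N : ℤ) ∣ e l - j then (N : F) else 0) := by
    rw [Finset.sum_mul]
    refine Finset.sum_congr rfl fun l _ => ?_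
    split_ifs <;> simp
  rw [h1] at h4
  exact (mul_eq_zero.mp h4).resolve_right hNF

end Alt

/-- The order of `16` modulo `3 ^ (b + 1) * 5 ^ (c + 1)` is a multiple of `3 ^ b * 5 ^ c`. -/
lemma order_sixteen {b c m : ℕ} (hm : 3 ^ (b + 1) * 5 ^ (c + 1) ∣ 16 ^ m - 1) : 3 ^ b * 5 ^ c ∣ m := by
  have key : ∀ {p : ℕ}, p.Prime → Odd p → p ∣ 16 - 1 → ¬ p ∣ 16 → ¬ p ^ 2 ∣ 16 - 1 → ∀ {d : ℕ},
      p ^ (d + 1) ∣ 16 ^ m - 1 → p ^ d ∣ m := by
    intro p hp hodd h1 h2 h3 d hd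
    have e := Nat.emultiplicity_pow_sub_pow hp hodd (x := 16) (y := 1) h1 h2 m
    simp only [one_pow] at e
    have m1 : emultiplicity p (16 - 1) = ((1 : ℕ) : ℕ∞) :=
      emultiplicity_eq_of_dvd_of_not_dvd (by simpa using h1) (by simpa using h3)
    rw [m1] at e
    have h4 := pow_dvd_iff_le_emultiplicity.mp hd
    rw [e] at h4
    rw [pow_dvd_iff_le_emultiplicity]
    by_contra hlt
    push Not at hlt
    have hne : emultiplicity p m ≠ ⊤ := ne_top_of_lt hlt
    obtain ⟨k, hk⟩ := ENat.ne_top_iff_exists.mp hne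
    rw [← hk] at hlt h4
    have a1 : k < d := by exact_mod_cast hlt
    have a2 : d + 1 ≤ 1 + k := by exact_mod_cast h4
    omega
  have h3 : 3 ^ b ∣ m := key (by norm_num) (by decide) (by norm_num) (by norm_num) (by norm_num)
    ((Dvd.intro _ rfl).trans hm)
  have h5 : 5 ^ c ∣ m := key (by norm_num) (by decide) (by norm_num) (by norm_num) (by norm_num)
    ((Dvd.intro_left _ rfl).trans hm)
  exact Nat.Coprime.mul_dvd_of_dvd_of_dvd (Nat.Coprime.pow _ _ (by norm_num)) h3 h5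

/-- the powers of `16` fill the residues congruent to 1 modulo 15 -/
lemma exists_pow_sixteen {b c t : ℕ} (ht : t < 3 ^ b * 5 ^ c) :
    ∃ i : ℕ, ((15 * (3 ^ b * 5 ^ c) : ℕ) : ℤ) ∣ (16 : ℤ) ^ i - (1 + 15 * t) := by
  classical
  set N := 3 ^ b * 5 ^ c with hN
  have hNpos : 0 < N := by rw [hN]; positivity
  have hK : 3 ^ (b + 1) * 5 ^ (c + 1) = 15 * N := by rw [hN]; ring
  have hdv : ∀ i : ℕ, 15 ∣ 16 ^ i - 1 := by
    intro i
    have := Nat.sub_dvd_pow_sub_pow 16 1 i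
    simpa using this
  set v : ℕ → ℕ := fun i => (16 ^ i - 1) / 15 with hv
  have hv1 : ∀ i, 16 ^ i = 1 + 15 * v i := by
    intro i
    have h1 := Nat.mul_div_cancel' (hdv i)
    have h2 : 0 < 16 ^ i := by positivity
    simp only [hv]
    omega
  set φ : ℕ → ℕ := fun i => v i % N with hφ
  have hmaps : Set.MapsTo φ (Finset.range N : Finset ℕ) (Finset.range N : Finset ℕ) := by
    intro i _
    simp only [Finset.coe_range, Set.mem_Iio]
    exact Nat.mod_lt _ hNpos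
  have hinj : Set.InjOn φ (Finset.range N : Finset ℕ) := by
    have key : ∀ i j : ℕ, i ≤ j → j < N → φ i = φ j → i = j := by
      intro i j hij hj he
      have h1 : v i ≡ v j [MOD N] := he
      have h2 : N ∣ v j - v i := (Nat.modEq_iff_dvd' (by
        have a1 := hv1 i
        have a2 := hv1 j
        have a3 : 16 ^ i ≤ 16 ^ j := Nat.pow_le_pow_right (by norm_num) hij
        omega)).mp h1
      have h3 : 15 * N ∣ 16 ^ j - 16 ^ i := by
        have a1 := hv1 i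
        have a2 := hv1 j
        have a3 : 16 ^ j - 16 ^ i = 15 * (v j - v i) := by
          rw [a1, a2, Nat.mul_sub]
          omega
        rw [a3]
        exact Nat.mul_dvd_mul_left 15 h2
      have e0 : 16 ^ j - 16 ^ i = 16 ^ i * (16 ^ (j - i) - 1) := by
        rw [Nat.mul_sub, mul_one, ← pow_add, Nat.add_sub_cancel' hij]
      rw [e0] at h3
      have hco : Nat.Coprime (15 * N) (16 ^ i) := by
        rw [← hK]
        apply Nat.Coprime.pow_right
        apply Nat.Coprime.mul_left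
        · exact Nat.Coprime.pow_left _ (by norm_num)
        · exact Nat.Coprime.pow_left _ (by norm_num)
      have h4 : 15 * N ∣ 16 ^ (j - i) - 1 := hco.dvd_of_dvd_mul_left h3
      rw [← hK] at h4
      have h5 := order_sixteen h4
      rw [← hN] at h5
      have h6 : j - i < N := by omega
      have h7 := Nat.eq_zero_of_dvd_of_lt h5 h6
      omega
    intro i hi j hj he
    simp only [Finset.coe_range, Set.mem_Iio] at hi hj
    rcases le_total i j with h | h
    · exact key i j h hj he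
    · exact (key j i h hi he.symm).symm
  have hsurj := Finset.surjOn_of_injOn_of_card_le φ hmaps hinj (le_refl _)
  have ht' : t ∈ (Finset.range N : Finset ℕ) := Finset.mem_range.mpr ht
  obtain ⟨i, -, hi⟩ := hsurj (Finset.mem_coe.mpr ht')
  refine ⟨i, ?_⟩
  have h1 : (16 : ℤ) ^ i = 1 + 15 * (v i : ℤ) := by
    exact_mod_cast hv1 i
  have h2 : (N : ℤ) ∣ (v i : ℤ) - t := by
    have : v i % N = t := hi
    have h3 := Nat.div_add_mod (v i) N
    refine ⟨((v i / N : ℕ) : ℤ), ?_⟩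
    rw [this] at h3
    have h4 : ((N * (v i / N) + t : ℕ) : ℤ) = (v i : ℤ) := by rw [h3]
    push_cast at h4 ⊢
    linarith
  rw [h1]
  obtain ⟨k, hk⟩ := h2
  refine ⟨k, ?_⟩
  push_cast
  linear_combination 15 * hk

section Final

variable {F : Type*} [Field F] [CharP F 2]

/-- the class sums modulo `2 ^ (s + 2) * 3 ^ b * 5 ^ c` vanish -/
theorem class_full {s b c : ℕ} {η : F} (hη : IsPrimitiveRoot η (15 * (3 ^ b * 5 ^ c))) (e : Fin 6 → ℤ)
    (hV : ∀ r : ZMod (2 ^ (s + 2)),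
      ∑ l ∈ Finset.univ.filter (fun l => ((e l : ℤ) : ZMod (2 ^ (s + 2))) = r), η ^ (e l) = 0)
    (g : ℤ) :
    ∑ l ∈ Finset.univ.filter (fun l => ((2 ^ (s + 2) * (3 ^ b * 5 ^ c) : ℕ) : ℤ) ∣ e l - g),
      (η ^ (3 ^ b * 5 ^ c)) ^ ((e l - g) / ((2 ^ (s + 2) * (3 ^ b * 5 ^ c) : ℕ) : ℤ)) = 0 := by
  classical
  set N := 3 ^ b * 5 ^ c with hN
  have hNpos : 0 < N := by rw [hN]; positivity
  set q := 2 ^ (s + 2) with hq
  have hqpos : 0 < q := by rw [hq]; positivity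
  have hNodd : ¬ 2 ∣ N := by
    rw [hN]
    intro h
    rcases (Nat.Prime.dvd_mul Nat.prime_two).mp h with h | h
    · have := Nat.prime_two.dvd_of_dvd_pow h
      omega
    · have := Nat.prime_two.dvd_of_dvd_pow h
      omega
  have hKpos : 0 < 15 * N := by omega
  have hη1 : η ^ (15 * N) = 1 := hη.pow_eq_one
  have hη0 : η ≠ 0 := by
    rintro rfl
    rw [zero_pow hKpos.ne'] at hη1
    exact zero_ne_one hη1
  set ω := η ^ 15 with hω
  have hωp : IsPrimitiveRoot ω N := hη.pow hKpos rfl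
  have hω0 : ω ≠ 0 := pow_ne_zero _ hη0
  set I := Finset.univ.filter (fun l => ((e l : ℤ) : ZMod q) = ((g : ℤ) : ZMod q)) with hI
  have hFrob : ∀ t ∈ Finset.range N, ∑ l ∈ I, (η * ω ^ t) ^ (e l) = 0 := by
    intro t ht
    obtain ⟨i, hi⟩ := exists_pow_sixteen (b := b) (c := c) (t := t) (Finset.mem_range.mp ht)
    have h1 := vanish_frob (hV ((g : ℤ) : ZMod q)) i
    rw [← h1]
    refine Finset.sum_congr rfl fun l _ => ?_
    congr 1
    rw [hω, ← pow_mul, ← pow_succ', ← zpow_natCast, ← zpow_natCast]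
    have hz : η ^ ((15 * N : ℕ) : ℤ) = 1 := by
      rw [zpow_natCast]; exact hη1
    obtain ⟨k, hk⟩ := hi
    have hk' : (16 : ℤ) ^ i - (1 + 15 * (t : ℤ)) = ((15 * N : ℕ) : ℤ) * k := hk
    have : (((16 ^ i : ℕ)) : ℤ) = ((15 * t + 1 : ℕ) : ℤ) + ((15 * N : ℕ) : ℤ) * k := by
      rw [← hk']
      push_cast
      ring
    rw [this, zpow_add₀ hη0, zpow_mul, hz, one_zpow, mul_one]
  have hfour := fourier_class hNodd hωp hη0 hω0 hFrob g
  have hset : I.filter (fun l => (N : ℤ) ∣ e l - g)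
      = Finset.univ.filter (fun l => ((q * N : ℕ) : ℤ) ∣ e l - g) := by
    ext l
    simp only [hI, Finset.mem_filter, Finset.mem_univ, true_and]
    rw [ZMod.intCast_eq_intCast_iff_dvd_sub]
    have n1 : ∀ D : ℤ, D ∣ g - e l ↔ D ∣ e l - g := by
      intro D
      rw [← dvd_neg, neg_sub]
    have hcast : ((q * N : ℕ) : ℤ) = (q : ℤ) * (N : ℤ) := Nat.cast_mul q N
    rw [n1, hcast]
    constructor
    · rintro ⟨h1, h2⟩
      have hcop : IsCoprime ((q : ℕ) : ℤ) ((N : ℕ) : ℤ) := by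
        rw [Nat.isCoprime_iff_coprime, hq]
        refine Nat.Coprime.pow_left _ ?_
        exact (Nat.Prime.coprime_iff_not_dvd Nat.prime_two).mpr hNodd
      exact IsCoprime.mul_dvd hcop h1 h2
    · intro hd
      exact ⟨(Dvd.intro _ rfl).trans hd, (Dvd.intro_left _ rfl).trans hd⟩
  rw [hset] at hfour
  -- the powers
  haveI : Fact (Nat.Prime 2) := ⟨Nat.prime_two⟩
  set J := Finset.univ.filter (fun l => ((q * N : ℕ) : ℤ) ∣ e l - g) with hJ
  have hterm : ∀ l ∈ J, η ^ (e l)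
      = η ^ g * ((η ^ N) ^ ((e l - g) / ((q * N : ℕ) : ℤ))) ^ q := by
    intro l hl
    obtain ⟨w, hw⟩ := (Finset.mem_filter.mp hl).2
    have hne : ((q * N : ℕ) : ℤ) ≠ 0 := by
      have : 0 < q * N := Nat.mul_pos hqpos hNpos
      exact_mod_cast this.ne'
    rw [hw, Int.mul_ediv_cancel_left _ hne]
    rw [← zpow_natCast η N, ← zpow_natCast _ q, ← zpow_mul, ← zpow_mul, ← zpow_add₀ hη0]
    congr 1
    have : e l = g + ((q * N : ℕ) : ℤ) * w := by linarith
    rw [this]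
    push_cast
    ring
  rw [Finset.sum_congr rfl hterm, ← Finset.mul_sum] at hfour
  have h5 := (mul_eq_zero.mp hfour).resolve_left (zpow_ne_zero _ hη0)
  have h6 : (∑ l ∈ J, (η ^ N) ^ ((e l - g) / ((q * N : ℕ) : ℤ))) ^ 2 ^ (s + 2)
      = ∑ l ∈ J, ((η ^ N) ^ ((e l - g) / ((q * N : ℕ) : ℤ))) ^ 2 ^ (s + 2) :=
    sum_pow_char_pow (p := 2) (n := s + 2) J (fun l => (η ^ N) ^ ((e l - g) / ((q * N : ℕ) : ℤ)))
  rw [← hq, h5] at h6
  exact pow_eq_zero_iff (hqpos.ne') |>.mp h6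

/-- powers of an element with `θ ^ 4 = θ + 1` -/
lemma theta_facts {θ : F} (hθ : θ ^ 4 = θ + 1) :
    θ ^ 15 = 1 ∧ θ ^ 3 ≠ 1 ∧ θ ^ 5 ≠ 1 ∧ θ ≠ 0 := by
  have h2 : (2 : F) = 0 := by exact_mod_cast CharP.cast_eq_zero F 2
  have h15 : θ ^ 15 = 1 := by
    linear_combination (3 + 3 * θ + θ ^ 2 + θ ^ 3 + 2 * θ ^ 4 + θ ^ 5 + θ ^ 7 + θ ^ 8 + θ ^ 11) * hθ
      + (1 + 3 * θ + 2 * θ ^ 2 + θ ^ 3) * h2
  have h3 : θ ^ 3 ≠ 1 := by
    intro h
    have : (1 : F) = 0 := by
      linear_combination θ * h - hθ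
    exact one_ne_zero this
  have h5 : θ ^ 5 ≠ 1 := by
    intro h
    apply h3
    have e1 : θ ^ 2 + θ + 1 = 0 := by
      linear_combination h - θ * hθ + h2
    linear_combination (θ - 1) * e1
  refine ⟨h15, h3, h5, ?_⟩
  rintro rfl
  norm_num at hθ

/-- the primitive root over `θ` -/
lemma primitive_over {b c : ℕ} {θ ρ : F} (hθ : θ ^ 4 = θ + 1) (hρ : ρ ^ (3 ^ b * 5 ^ c) = θ) :
    IsPrimitiveRoot ρ (15 * (3 ^ b * 5 ^ c)) := by
  obtain ⟨h15, h3, h5, -⟩ := theta_facts hθ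
  set N := 3 ^ b * 5 ^ c with hN
  have hNpos : 0 < N := by rw [hN]; positivity
  have hK : 0 < 15 * N := by omega
  have h1 : ρ ^ (15 * N) = 1 := by
    rw [mul_comm, pow_mul, hρ, h15]
  have hord : orderOf ρ = 15 * N := by
    apply orderOf_eq_of_pow_and_pow_div_prime hK h1
    intro p hp hd
    have hp' : p ∣ 3 ^ (b + 1) * 5 ^ (c + 1) := by
      have : 3 ^ (b + 1) * 5 ^ (c + 1) = 15 * N := by rw [hN]; ring
      rw [this]; exact hd
    have hp3or5 : p = 3 ∨ p = 5 := by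
      rcases (Nat.Prime.dvd_mul hp).mp hp' with h | h
      · left
        exact (Nat.prime_dvd_prime_iff_eq hp (by norm_num)).mp (hp.dvd_of_dvd_pow h)
      · right
        exact (Nat.prime_dvd_prime_iff_eq hp (by norm_num)).mp (hp.dvd_of_dvd_pow h)
    rcases hp3or5 with rfl | rfl
    · have : 15 * N / 3 = N * 5 := by omega
      rw [this, pow_mul, hρ]
      exact h5
    · have : 15 * N / 5 = N * 3 := by omega
      rw [this, pow_mul, hρ]
      exact h3
  rw [← hord]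
  exact IsPrimitiveRoot.orderOf ρ

end Final

/-- The parity statement at a primitive root of order `240 * (2 ^ s * (3 ^ b * 5 ^ c))`. -/
theorem parity3 {F : Type*} [Field F] [CharP F 2] [IsAlgClosed F] {θ : F} (hθ : θ ^ 4 = θ + 1)
    {s b c : ℕ} {ζ : ℂ} (hζ : IsPrimitiveRoot ζ (240 * (2 ^ s * (3 ^ b * 5 ^ c)))) (e : Fin 6 → ℤ)
    (h : (∑ l, ζ ^ (e l)) * (∑ l, ζ ^ (-e l)) = 6) :
    ∃ τ : F, (τ = θ ∨ τ = θ⁻¹) ∧ ∀ g : ℤ,
      ∑ l ∈ Finset.univ.filter (fun l => ((4 * (2 ^ s * (3 ^ b * 5 ^ c)) : ℕ) : ℤ) ∣ e l - g),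
        τ ^ ((e l - g) / ((4 * (2 ^ s * (3 ^ b * 5 ^ c)) : ℕ) : ℤ)) = 0 := by
  classical
  set N := 3 ^ b * 5 ^ c with hN
  have hNpos : 0 < N := by rw [hN]; positivity
  obtain ⟨ρ, hρ⟩ := IsAlgClosed.exists_pow_nat_eq θ hNpos
  have hp := primitive_over hθ hρ
  have hn : 240 * (2 ^ s * N) = 2 ^ (s + 4) * (15 * N) := by ring
  rw [hn] at hζ
  have h2K : ¬ 2 ∣ 15 * N := by
    rw [hN]
    intro h
    rcases (Nat.Prime.dvd_mul Nat.prime_two).mp h with h | h
    · omega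
    · rcases (Nat.Prime.dvd_mul Nat.prime_two).mp h with h | h
      · have := Nat.prime_two.dvd_of_dvd_pow h
        omega
      · have := Nat.prime_two.dvd_of_dvd_pow h
        omega
  have e4 : ((4 * (2 ^ s * N) : ℕ) : ℤ) = ((2 ^ (s + 2) * N : ℕ) : ℤ) := by
    push_cast; ring
  rw [e4]
  rcases class_vanish_alt rfl h2K hζ e 6 (by decide) (by rw [h]; norm_num) hp with hV | hV
  · refine ⟨θ, Or.inl rfl, fun g => ?_⟩
    have := class_full (s := s) (b := b) (c := c) hp e hV g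
    rw [← hN, hρ] at this
    exact this
  · refine ⟨θ⁻¹, Or.inr rfl, fun g => ?_⟩
    have := class_full (s := s) (b := b) (c := c) hp.inv e hV g
    rw [← hN, inv_pow, hρ] at this
    exact this

end Vale.Agent.Lib.P355
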