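import Mathlib
import Vale.Agent.Lib.P355.Check240

/-!
Transfer of identities among 240th roots of unity in `ℂ` to `ZMod p`, and from there
to the Boolean tests of `Check240`.
-/

open Polynomial

namespace Vale.Agent.Lib.P355

open C240

/-- the ring in which the finite tests take place -/
abbrev Rq : Type := ZMod C240.p

/-- the image of the root of unity -/
noncomputable def rho : Rq := 2

lemma rho_rel : rho ^ 64 + rho ^ 56 - rho ^ 40 - rho ^ 32 - rho ^ 24 + rho ^ 8 + 1 = 0 := by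
  have h : ((2 ^ 64 + 2 ^ 56 + 2 ^ 8 + 1 : ℕ) : Rq) = ((2 ^ 40 + 2 ^ 32 + 2 ^ 24 : ℕ) : Rq) := by
    rw [ZMod.natCast_eq_natCast_iff']
    exact C240.root_two
  have h2 : rho ^ 64 + rho ^ 56 + rho ^ 8 + 1 = rho ^ 40 + rho ^ 32 + rho ^ 24 := by
    unfold rho
    exact_mod_cast h
  linear_combination h2

lemma aeval_rel240 {ζ : ℂ} (hζ : IsPrimitiveRoot ζ 240) :
    ζ ^ 64 + ζ ^ 56 - ζ ^ 40 - ζ ^ 32 - ζ ^ 24 + ζ ^ 8 + 1 = 0 := by
  have hY : IsPrimitiveRoot (ζ ^ 8) 30 := hζ.pow (by norm_num) (by norm_num)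
  set Y := ζ ^ 8 with hYdef
  have h30 := hY.pow_eq_one
  have h15 : Y ^ 15 ≠ 1 := hY.pow_ne_one_of_pos_of_lt (by norm_num) (by norm_num)
  have h10 : Y ^ 10 ≠ 1 := hY.pow_ne_one_of_pos_of_lt (by norm_num) (by norm_num)
  have h6 : Y ^ 6 ≠ 1 := hY.pow_ne_one_of_pos_of_lt (by norm_num) (by norm_num)
  have h2 : Y ^ 2 ≠ 1 := hY.pow_ne_one_of_pos_of_lt (by norm_num) (by norm_num)
  have h15' : Y ^ 15 + 1 = 0 := by
    have : (Y ^ 15 - 1) * (Y ^ 15 + 1) = 0 := by linear_combination h30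
    rcases mul_eq_zero.mp this with h | h
    · exact absurd (sub_eq_zero.mp h) h15
    · exact h
  have n1 : Y + 1 ≠ 0 := by
    intro h
    apply h2
    have : Y = -1 := by linear_combination h
    rw [this]; norm_num
  have n2 : Y ^ 2 - Y + 1 ≠ 0 := by
    intro h
    apply h6
    linear_combination (Y ^ 4 + Y ^ 3 - Y - 1) * h
  have n3 : Y ^ 4 - Y ^ 3 + Y ^ 2 - Y + 1 ≠ 0 := by
    intro h
    apply h10
    linear_combination (Y ^ 6 + Y ^ 5 - Y - 1) * h
  have hprod : (Y + 1) * (Y ^ 2 - Y + 1) * (Y ^ 4 - Y ^ 3 + Y ^ 2 - Y + 1) *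
      (Y ^ 8 + Y ^ 7 - Y ^ 5 - Y ^ 4 - Y ^ 3 + Y + 1) = 0 := by
    linear_combination h15'
  have h3 := (mul_eq_zero.mp hprod).resolve_left (mul_ne_zero (mul_ne_zero n1 n2) n3)
  have e : ζ ^ 64 + ζ ^ 56 - ζ ^ 40 - ζ ^ 32 - ζ ^ 24 + ζ ^ 8 + 1
      = Y ^ 8 + Y ^ 7 - Y ^ 5 - Y ^ 4 - Y ^ 3 + Y + 1 := by
    rw [hYdef]; ring
  rw [e]; exact h3

lemma cyc240 {ζ : ℂ} (hζ : IsPrimitiveRoot ζ 240) :
    (X ^ 64 + X ^ 56 - X ^ 40 - X ^ 32 - X ^ 24 + X ^ 8 + 1 : ℤ[X]) = cyclotomic 240 ℤ := by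
  have hmon : (X ^ 64 + X ^ 56 - X ^ 40 - X ^ 32 - X ^ 24 + X ^ 8 + 1 : ℤ[X]).Monic := by monicity!
  have hdvd : cyclotomic 240 ℤ ∣ (X ^ 64 + X ^ 56 - X ^ 40 - X ^ 32 - X ^ 24 + X ^ 8 + 1 : ℤ[X]) := by
    rw [cyclotomic_eq_minpoly hζ (by norm_num)]
    apply minpoly.isIntegrallyClosed_dvd (hζ.isIntegral (by norm_num))
    simpa using aeval_rel240 hζ
  apply eq_of_monic_of_dvd_of_natDegree_le (cyclotomic.monic 240 ℤ) hmon hdvd
  rw [natDegree_cyclotomic]
  have : (X ^ 64 + X ^ 56 - X ^ 40 - X ^ 32 - X ^ 24 + X ^ 8 + 1 : ℤ[X]).natDegree ≤ 64 := by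
    compute_degree
  refine this.trans ?_
  decide +kernel

/-- Identities at a primitive 240th root of unity hold at `rho`. -/
theorem transfer240 {ζ : ℂ} (hζ : IsPrimitiveRoot ζ 240) (Q : ℤ[X]) (h : aeval ζ Q = 0) :
    eval₂ (Int.castRingHom Rq) rho Q = 0 := by
  have hdvd : cyclotomic 240 ℤ ∣ Q := by
    rw [cyclotomic_eq_minpoly hζ (by norm_num)]
    exact minpoly.isIntegrallyClosed_dvd (hζ.isIntegral (by norm_num)) h
  obtain ⟨H, rfl⟩ := hdvd
  rw [← cyc240 hζ, eval₂_mul]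
  have : eval₂ (Int.castRingHom Rq) rho (X ^ 64 + X ^ 56 - X ^ 40 - X ^ 32 - X ^ 24 + X ^ 8 + 1 : ℤ[X])
      = 0 := by
    have := rho_rel
    simpa [eval₂_sub, eval₂_add, eval₂_pow] using this
  rw [this, zero_mul]

lemma allN_lt {f : ℕ → Bool} {i n : ℕ} (h : allN f n = true) (hi : i < n) : f i = true := by
  induction n with
  | zero => omega
  | succ n ih =>
    have hs : allN f (n + 1) = allS f n (allN f n) := rfl
    rw [hs] at h
    unfold allS at h
    cases hb : f n with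
    | false => rw [hb] at h; cases h
    | true =>
      rw [hb] at h
      rcases Nat.lt_succ_iff_lt_or_eq.mp hi with h' | rfl
      · exact ih h h'
      · exact hb

lemma okB_of {m x : Bool} (h : okB m x = true) (hm : m = true) : x = true := by
  subst hm; exact h

lemma not_beq_of_ne {a b : ℕ} (h : a ≠ b) : Bool.not (Nat.beq a b) = true := by
  have : Nat.beq a b = false := by
    cases hb : Nat.beq a b with
    | false => rfl
    | true => exact absurd (Nat.eq_of_beq_eq_true hb) h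
  rw [this]; rfl

/-- Identities at a primitive 60th root of unity hold at `rho ^ 4`. -/
theorem transfer60 {ξ : ℂ} (hξ : IsPrimitiveRoot ξ 60) (Q : ℤ[X]) (h : aeval ξ Q = 0) :
    eval₂ (Int.castRingHom Rq) (rho ^ 4) Q = 0 := by
  have hz := Complex.isPrimitiveRoot_exp 240 (by norm_num)
  set z := Complex.exp (2 * Real.pi * Complex.I / ((240 : ℕ) : ℂ))
  have hz4 : IsPrimitiveRoot (z ^ 4) 60 := hz.pow (by norm_num) (by norm_num)
  have hdvd : cyclotomic 60 ℤ ∣ Q := by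
    rw [cyclotomic_eq_minpoly hξ (by norm_num)]
    exact minpoly.isIntegrallyClosed_dvd (hξ.isIntegral (by norm_num)) h
  have h2 : aeval (z ^ 4) Q = 0 := by
    obtain ⟨H, hH⟩ := hdvd
    rw [hH, map_mul, cyclotomic_eq_minpoly hz4 (by norm_num), minpoly.aeval, zero_mul]
  have h3 : aeval z (Q.comp (X ^ 4)) = 0 := by
    rw [aeval_comp]
    simpa using h2
  have h4 := transfer240 hz _ h3
  rw [eval₂_comp] at h4
  simpa using h4

/-- three pairs of 60th roots of unity do not satisfy the relation -/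
theorem tri_ne60 {ξ : ℂ} (hξ : IsPrimitiveRoot ξ 60) {t1 t2 t3 b c : ℕ} (h1 : t1 < 4) (h2 : t2 < 4)
    (h3 : t3 < 4) (h1' : t1 ≠ 2) (h2' : t2 ≠ 2) (h3' : t3 ≠ 2) (hb : b < 60) (hc : c < 60)
    (hbc : (b + c) % 3 ≠ 0)
    (h : (1 + ξ ^ (15 * t2)) * (1 + ξ ^ (60 - 15 * t1))
      + ξ ^ b * ((1 + ξ ^ (15 * t3)) * (1 + ξ ^ (60 - 15 * t2)))
      + ξ ^ c * ((1 + ξ ^ (15 * t1)) * (1 + ξ ^ (60 - 15 * t3))) = 0) : False := by
  have hchk : triChk t1 = true := tri_all t1 h1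
  have a1 := okB_of hchk (not_beq_of_ne h1')
  have a2 := okB_of (allN_lt a1 h2) (not_beq_of_ne h2')
  have a3 := okB_of (allN_lt a2 h3) (not_beq_of_ne h3')
  have a4a := allN_lt a3 hb
  have a4 : triOK t1 t2 t3 b c = true := allN_lt a4a hc
  have a5 : Bool.not (Nat.beq (Nat.mod (triV t1 t2 t3 b c) p) 0) = true :=
    okB_of a4 (not_beq_of_ne hbc)
  have ht := transfer60 hξ ((1 + X ^ (15 * t2)) * (1 + X ^ (60 - 15 * t1))
      + X ^ b * ((1 + X ^ (15 * t3)) * (1 + X ^ (60 - 15 * t2)))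
      + X ^ c * ((1 + X ^ (15 * t1)) * (1 + X ^ (60 - 15 * t3)))) (by
    simpa using h)
  have hV : triV t1 t2 t3 b c = (1 + 16 ^ (15 * t2)) * (1 + 16 ^ (60 - 15 * t1))
      + 16 ^ b * ((1 + 16 ^ (15 * t3)) * (1 + 16 ^ (60 - 15 * t2)))
      + 16 ^ c * ((1 + 16 ^ (15 * t1)) * (1 + 16 ^ (60 - 15 * t3))) := by
    unfold triV
    rfl
  have h16 : rho ^ 4 = 16 := by
    unfold rho; norm_num
  have hz : ((triV t1 t2 t3 b c : ℕ) : Rq) = 0 := by
    rw [hV]
    simp only [eval₂_add, eval₂_mul, eval₂_pow, eval₂_X, eval₂_one, h16] at ht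
    push_cast
    exact ht
  rw [ZMod.natCast_eq_zero_iff] at hz
  have hm : Nat.mod (triV t1 t2 t3 b c) p = 0 := Nat.mod_eq_zero_of_dvd hz
  rw [hm] at a5
  exact absurd a5 (by decide)

/-- three 60th roots of unity never have a sum of squared modulus 6 -/
theorem thr_ne60 {ξ : ℂ} (hξ : IsPrimitiveRoot ξ 60) {a b : ℕ} (ha : a < 60) (hb : b < 60)
    (h : (1 + ξ ^ a + ξ ^ b) * (1 + ξ ^ (60 - a) + ξ ^ (60 - b)) = 6) : False := by
  have a1a := allN_lt thr_all ha
  have a1 : thrChk a b = true := allN_lt a1a hb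
  have ht := transfer60 hξ ((1 + X ^ a + X ^ b) * (1 + X ^ (60 - a) + X ^ (60 - b)) - 6) (by
    have h66 : (6 : ℤ[X]) = Polynomial.C 6 := rfl
    rw [h66]
    simp only [map_sub, map_mul, map_add, map_one, map_pow, aeval_X, aeval_C, h]
    norm_num)
  have h6 : eval₂ (Int.castRingHom Rq) (rho ^ 4) (6 : ℤ[X]) = 6 := by
    have h66 : (6 : ℤ[X]) = Polynomial.C 6 := rfl
    rw [h66, eval₂_C]; norm_num
  have h16 : rho ^ 4 = 16 := by
    unfold rho; norm_num
  rw [eval₂_sub, h6] at ht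
  simp only [eval₂_add, eval₂_mul, eval₂_pow, eval₂_X, eval₂_one, h16] at ht
  have hV : (((1 + 16 ^ a + 16 ^ b) * (1 + 16 ^ (60 - a) + 16 ^ (60 - b)) : ℕ) : Rq)
      = ((6 : ℕ) : Rq) := by
    push_cast
    exact sub_eq_zero.mp ht
  rw [ZMod.natCast_eq_natCast_iff'] at hV
  have h6p : (6 : ℕ) % C240.p = 6 := by decide +kernel
  rw [h6p] at hV
  have a2 : thrChk a b = Bool.not (Nat.beq ((1 + 16 ^ a + 16 ^ b) *
      (1 + 16 ^ (60 - a) + 16 ^ (60 - b)) % C240.p) 6) := rfl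
  rw [a2, hV] at a1
  exact absurd a1 (by decide)

/-- the power of `2` -/
def pw240 (k : ℕ) : ℕ := 2 ^ k

/-- base 512 digit extraction -/
def dg240 (w i : ℕ) : ℕ := (w / i) % 512

lemma SS240_eq (w : ℕ) : C240.SS w = pw240 (dg240 w 1) + pw240 (dg240 w 512) + pw240 (dg240 w 262144)
    + pw240 (dg240 w 134217728) + pw240 (dg240 w 68719476736) + pw240 (dg240 w 35184372088832) := rfl

lemma pw240_cast (k : ℕ) : ((pw240 k : ℕ) : Rq) = rho ^ k := by
  unfold pw240 rho
  push_cast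
  rfl

/-- six entries as a list -/
def tL240 (f : Fin 6 → ℕ) : List ℕ := [f 0, f 1, f 2, f 3, f 4, f 5]

/-- the encoding of a six entry function -/
def eF240 (f : Fin 6 → ℕ) : ℕ := C240.enc (tL240 f)

lemma eF240_eq (f : Fin 6 → ℕ) :
    eF240 f = f 0 + 512 * (f 1 + 512 * (f 2 + 512 * (f 3 + 512 * (f 4 + 512 * (f 5 + 512 * 0))))) := rfl

lemma SS240_eF (f : Fin 6 → ℕ) (hf : ∀ l, f l < 512) :
    C240.SS (eF240 f) = pw240 (f 0) + pw240 (f 1) + pw240 (f 2) + pw240 (f 3) + pw240 (f 4) + pw240 (f 5) := by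
  have h0 := hf 0
  have h1 := hf 1
  have h2 := hf 2
  have h3 := hf 3
  have h4 := hf 4
  have h5 := hf 5
  have d0 : dg240 (eF240 f) 1 = f 0 := by
    show (eF240 f / 1) % 512 = f 0
    rw [eF240_eq]; omega
  have d1 : dg240 (eF240 f) 512 = f 1 := by
    show (eF240 f / 512) % 512 = f 1
    rw [eF240_eq]; omega
  have d2 : dg240 (eF240 f) 262144 = f 2 := by
    show (eF240 f / 262144) % 512 = f 2
    rw [eF240_eq]; omega
  have d3 : dg240 (eF240 f) 134217728 = f 3 := by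
    show (eF240 f / 134217728) % 512 = f 3
    rw [eF240_eq]; omega
  have d4 : dg240 (eF240 f) 68719476736 = f 4 := by
    show (eF240 f / 68719476736) % 512 = f 4
    rw [eF240_eq]; omega
  have d5 : dg240 (eF240 f) 35184372088832 = f 5 := by
    show (eF240 f / 35184372088832) % 512 = f 5
    rw [eF240_eq]; omega
  rw [SS240_eq, d0, d1, d2, d3, d4, d5]

lemma SS240_cast (f : Fin 6 → ℕ) (hf : ∀ l, f l < 512) :
    ((C240.SS (eF240 f) : ℕ) : Rq) = ∑ l, rho ^ f l := by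
  rw [SS240_eF f hf, Fin.sum_univ_six]
  push_cast
  simp only [pw240_cast]

/-- the constant tuple 240 -/
def CC240 : ℕ := 240 * (1 + 512 * (1 + 512 * (1 + 512 * (1 + 512 * (1 + 512 * 1)))))

lemma diff240_eF (u v : Fin 6 → ℕ) (hu : ∀ l, u l < 240) (hv : ∀ l, v l < 240) :
    eF240 u + CC240 - eF240 v = eF240 (fun l => u l + 240 - v l) := by
  have a0 := hu 0
  have a1 := hu 1
  have a2 := hu 2
  have a3 := hu 3
  have a4 := hu 4
  have a5 := hu 5
  have b0 := hv 0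
  have b1 := hv 1
  have b2 := hv 2
  have b3 := hv 3
  have b4 := hv 4
  have b5 := hv 5
  rw [eF240_eq, eF240_eq, eF240_eq]
  unfold CC240
  omega

lemma orth240_eq (u v : ℕ) : C240.orth u v = Nat.beq (C240.SS (u + CC240 - v) % C240.p) 0 := rfl

lemma mu240_eq (u v : ℕ) : C240.mu u v =
    Nat.beq ((C240.SS (u + CC240 - v) * C240.SS (v + CC240 - u)) % C240.p) 6 := rfl

lemma orth240_of (u v : Fin 6 → ℕ) (hu : ∀ l, u l < 240) (hv : ∀ l, v l < 240)
    (h : ∑ l, rho ^ (u l + 240 - v l) = 0) : C240.orth (eF240 u) (eF240 v) = true := by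
  have hf : ∀ l, u l + 240 - v l < 512 := fun l => by
    have := hu l; have := hv l; omega
  have h1 : ((C240.SS (eF240 fun l => u l + 240 - v l) : ℕ) : Rq) = 0 := by
    rw [SS240_cast _ hf]; exact h
  rw [orth240_eq, diff240_eF u v hu hv]
  rw [ZMod.natCast_eq_zero_iff] at h1
  rw [Nat.mod_eq_zero_of_dvd h1]
  rfl

lemma mu240_of (u v : Fin 6 → ℕ) (hu : ∀ l, u l < 240) (hv : ∀ l, v l < 240)
    (h : (∑ l, rho ^ (u l + 240 - v l)) * (∑ l, rho ^ (v l + 240 - u l)) = 6) :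
    C240.mu (eF240 u) (eF240 v) = true := by
  have hf : ∀ l, u l + 240 - v l < 512 := fun l => by
    have := hu l; have := hv l; omega
  have hf' : ∀ l, v l + 240 - u l < 512 := fun l => by
    have := hu l; have := hv l; omega
  have h1 : (((C240.SS (eF240 fun l => u l + 240 - v l)) * (C240.SS (eF240 fun l => v l + 240 - u l)) : ℕ)
      : Rq) = ((6 : ℕ) : Rq) := by
    rw [Nat.cast_mul, SS240_cast _ hf, SS240_cast _ hf']
    rw [h]; norm_num
  rw [ZMod.natCast_eq_natCast_iff'] at h1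
  rw [mu240_eq, diff240_eF u v hu hv, diff240_eF v u hv hu, h1]
  decide +kernel

/-- the residue modulo 240 of an integer as a natural number -/
def dgt240 (t : ℤ) : ℕ := (t % 240).toNat

lemma dgt240_lt (t : ℤ) : dgt240 t < 240 := by
  unfold dgt240; omega

lemma dgt240_cast (t : ℤ) : ((dgt240 t : ℕ) : ℤ) = t % 240 := by
  unfold dgt240; omega

lemma zpow_congr240 {ζ : ℂ} (h240 : ζ ^ 240 = 1) {m m' : ℤ} (h : (240 : ℤ) ∣ m - m') :
    ζ ^ m = ζ ^ m' := by
  obtain ⟨c, hc⟩ := h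
  have hζ0 : ζ ≠ 0 := by
    intro h0
    rw [h0] at h240
    norm_num at h240
  have : m = m' + 240 * c := by omega
  rw [this, zpow_add₀ hζ0, zpow_mul]
  have h240' : ζ ^ (240 : ℤ) = 1 := by exact_mod_cast h240
  rw [h240', one_zpow, mul_one]

/-- the power with the natural exponent in the tests agrees with the integer power -/
lemma pow240_digit {ζ : ℂ} (h240 : ζ ^ 240 = 1) (a b : ℤ) :
    ζ ^ (dgt240 a + 240 - dgt240 b) = ζ ^ (a - b) := by
  rw [← zpow_natCast]
  apply zpow_congr240 h240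
  have h1 := dgt240_lt a
  have h2 := dgt240_lt b
  have h3 := dgt240_cast a
  have h4 := dgt240_cast b
  omega

/-- orthogonality at a primitive 240th root passes to the Boolean test -/
theorem bridge240_orth {ζ : ℂ} (hζ : IsPrimitiveRoot ζ 240) (x y : Fin 6 → ℤ)
    (h : ∑ l, ζ ^ (x l - y l) = 0) :
    C240.orth (eF240 fun l => dgt240 (x l)) (eF240 fun l => dgt240 (y l)) = true := by
  apply orth240_of _ _ (fun l => dgt240_lt _) (fun l => dgt240_lt _)
  have h240 := hζ.pow_eq_one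
  have := transfer240 hζ (∑ l, X ^ (dgt240 (x l) + 240 - dgt240 (y l))) (by
    simp only [map_sum, map_pow, aeval_X]
    simp only [pow240_digit h240]
    exact h)
  simpa [eval₂_finsetSum, eval₂_pow] using this

/-- unbiasedness at a primitive 240th root passes to the Boolean test -/
theorem bridge240_mu {ζ : ℂ} (hζ : IsPrimitiveRoot ζ 240) (x y : Fin 6 → ℤ)
    (h : (∑ l, ζ ^ (x l - y l)) * (∑ l, ζ ^ (y l - x l)) = 6) :
    C240.mu (eF240 fun l => dgt240 (x l)) (eF240 fun l => dgt240 (y l)) = true := by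
  apply mu240_of _ _ (fun l => dgt240_lt _) (fun l => dgt240_lt _)
  have h240 := hζ.pow_eq_one
  have := transfer240 hζ ((∑ l, X ^ (dgt240 (x l) + 240 - dgt240 (y l))) *
      (∑ l, X ^ (dgt240 (y l) + 240 - dgt240 (x l))) - 6) (by
    rw [map_sub, map_mul, map_sum, map_sum]
    simp only [map_pow, aeval_X]
    simp only [pow240_digit h240]
    rw [h]
    have h66 : (6 : ℤ[X]) = Polynomial.C 6 := rfl
    rw [h66, aeval_C]
    norm_num)
  have h6 : eval₂ (Int.castRingHom Rq) rho (6 : ℤ[X]) = 6 := by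
    have h66 : (6 : ℤ[X]) = Polynomial.C 6 := rfl
    rw [h66, eval₂_C]; norm_num
  rw [eval₂_sub, eval₂_mul, h6] at this
  simp only [eval₂_finsetSum, eval₂_pow, eval₂_X] at this
  exact sub_eq_zero.mp this


/-- the sum of the powers of `ζ` over a list -/
noncomputable def zS (ζ : ℂ) (l : List ℕ) : ℂ := (l.map fun x => ζ ^ x).sum

/-- the sum of the powers of `ζ` with exponents `240 - x` over a list -/
noncomputable def zN (ζ : ℂ) (l : List ℕ) : ℂ := (l.map fun x => ζ ^ (240 - x)).sum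

/-- the polynomial of a list -/
noncomputable def pS (l : List ℕ) : ℤ[X] := (l.map fun x => X ^ x).sum

/-- the polynomial of a list with exponents `240 - x` -/
noncomputable def pN (l : List ℕ) : ℤ[X] := (l.map fun x => X ^ (240 - x)).sum

lemma aeval_pS (ζ : ℂ) (l : List ℕ) : aeval ζ (pS l) = zS ζ l := by
  induction l with
  | nil => simp [pS, zS]
  | cons a l ih =>
    simp only [pS, zS, List.map_cons, List.sum_cons, map_add, map_pow, aeval_X] at ih ⊢
    rw [ih]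

lemma aeval_pN (ζ : ℂ) (l : List ℕ) : aeval ζ (pN l) = zN ζ l := by
  induction l with
  | nil => simp [pN, zN]
  | cons a l ih =>
    simp only [pN, zN, List.map_cons, List.sum_cons, map_add, map_pow, aeval_X] at ih ⊢
    rw [ih]

lemma eval_pS (l : List ℕ) : eval₂ (Int.castRingHom Rq) rho (pS l) = ((C240.SL l : ℕ) : Rq) := by
  induction l with
  | nil => simp [pS]; rfl
  | cons a l ih =>
    have hs : C240.SL (a :: l) = 2 ^ a + C240.SL l := rfl
    rw [hs]
    simp only [pS, List.map_cons, List.sum_cons, eval₂_add, eval₂_pow, eval₂_X] at ih ⊢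
    rw [ih]
    push_cast
    rfl

lemma eval_pN (l : List ℕ) : eval₂ (Int.castRingHom Rq) rho (pN l) = ((C240.SN l : ℕ) : Rq) := by
  induction l with
  | nil => simp [pN]; rfl
  | cons a l ih =>
    have hs : C240.SN (a :: l) = 2 ^ (240 - a) + C240.SN l := rfl
    rw [hs]
    simp only [pN, List.map_cons, List.sum_cons, eval₂_add, eval₂_pow, eval₂_X] at ih ⊢
    rw [ih]
    push_cast
    rfl

/-- the relation of two lists passes to the Boolean test -/
theorem bridge_two {ζ : ℂ} (hζ : IsPrimitiveRoot ζ 240) {L M : List ℕ}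
    (h : zS ζ L * zN ζ L + zS ζ M * zN ζ M = 6) :
    Nat.beq (Nat.mod (Nat.add (C240.nrV L) (C240.nrV M)) C240.p) 6 = true := by
  have ht := transfer240 hζ (pS L * pN L + pS M * pN M - 6) (by
    have h66 : (6 : ℤ[X]) = Polynomial.C 6 := rfl
    rw [h66, map_sub, map_add, map_mul, map_mul, aeval_pS, aeval_pN, aeval_pS, aeval_pN, h, aeval_C]
    norm_num)
  have h6 : eval₂ (Int.castRingHom Rq) rho (6 : ℤ[X]) = 6 := by
    have h66 : (6 : ℤ[X]) = Polynomial.C 6 := rfl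
    rw [h66, eval₂_C]; norm_num
  rw [eval₂_sub, h6, eval₂_add, eval₂_mul, eval₂_mul, eval_pS, eval_pS, eval_pN, eval_pN] at ht
  have h1 : ((C240.SL L * C240.SN L + C240.SL M * C240.SN M : ℕ) : Rq) = ((6 : ℕ) : Rq) := by
    push_cast
    exact sub_eq_zero.mp ht
  rw [ZMod.natCast_eq_natCast_iff'] at h1
  have h6p : (6 : ℕ) % C240.p = 6 := by decide +kernel
  rw [h6p] at h1
  have e : Nat.mod (Nat.add (C240.nrV L) (C240.nrV M)) C240.p
      = (C240.SL L * C240.SN L + C240.SL M * C240.SN M) % C240.p := rfl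
  rw [e, h1]
  rfl

/-- the relation of one list passes to the Boolean test -/
theorem bridge_one {ζ : ℂ} (hζ : IsPrimitiveRoot ζ 240) {L : List ℕ}
    (h : zS ζ L * zN ζ L = 6) :
    Nat.beq (Nat.mod (C240.nrV L) C240.p) 6 = true := by
  have h0 : zS ζ L * zN ζ L + zS ζ [] * zN ζ [] = 6 := by
    rw [h]
    simp [zS, zN]
  have := bridge_two hζ h0
  have e : Nat.add (C240.nrV L) (C240.nrV []) = C240.nrV L := rfl
  rw [e] at this
  exact this

end Vale.Agent.Lib.P355
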