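import Mathlib
import Vale.Agent.Lib.P355.Parity3
import Vale.Agent.Lib.P355.Classes
import Vale.Agent.Lib.P355.Trans240

/-!
An exponent tuple unbiased to zero at a primitive root of unity of order `240 * H`, where
`H = 2 ^ s * 3 ^ b * 5 ^ c`, has exactly one residue class modulo `2 * H` with a nonzero sum, and
that class has at least four elements.
-/

namespace Vale.Agent.Lib.P355

open Finset

/-- the residue modulo 60 as a natural number -/
def dgt60 (t : ℤ) : ℕ := (t % 60).toNat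

lemma dgt60_lt (t : ℤ) : dgt60 t < 60 := by unfold dgt60; omega

lemma dgt60_cast (t : ℤ) : ((dgt60 t : ℕ) : ℤ) = t % 60 := by unfold dgt60; omega

lemma zpow_congr60 {ξ : ℂ} (h60 : ξ ^ 60 = 1) {m m' : ℤ} (h : (60 : ℤ) ∣ m - m') :
    ξ ^ m = ξ ^ m' := by
  obtain ⟨c, hc⟩ := h
  have hξ0 : ξ ≠ 0 := by
    intro h0
    rw [h0] at h60
    norm_num at h60
  have : m = m' + 60 * c := by omega
  rw [this, zpow_add₀ hξ0, zpow_mul]
  have h60' : ξ ^ (60 : ℤ) = 1 := by exact_mod_cast h60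
  rw [h60', one_zpow, mul_one]

lemma xi60_d {ξ : ℂ} (hξ : IsPrimitiveRoot ξ 60) (s : ℤ) : ξ ^ s = ξ ^ dgt60 s := by
  rw [← zpow_natCast]
  apply zpow_congr60 hξ.pow_eq_one
  have := dgt60_cast s
  omega

lemma xi60_d' {ξ : ℂ} (hξ : IsPrimitiveRoot ξ 60) (s : ℤ) : ξ ^ (-s) = ξ ^ (60 - dgt60 s) := by
  rw [← zpow_natCast]
  apply zpow_congr60 hξ.pow_eq_one
  have h1 := dgt60_cast s
  have h2 := dgt60_lt s
  rw [Nat.cast_sub (by omega)]
  push_cast
  omega

/-- the sum of the powers over a residue class modulo `M` -/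
noncomputable def xg (M : ℕ) (ζ : ℂ) (E : Fin 6 → ℤ) (g : ZMod M) : ℂ :=
  ∑ l ∈ univ.filter (fun l => ((E l : ℤ) : ZMod M) = g), ζ ^ (E l)

/-- the sum of the inverse powers over a residue class modulo `M` -/
noncomputable def xgb (M : ℕ) (ζ : ℂ) (E : Fin 6 → ℤ) (g : ZMod M) : ℂ :=
  ∑ l ∈ univ.filter (fun l => ((E l : ℤ) : ZMod M) = g), ζ ^ (-E l)

/-- the residue class modulo `M` -/
def clg (M : ℕ) (E : Fin 6 → ℤ) (g : ZMod M) : Finset (Fin 6) :=
  univ.filter (fun l => ((E l : ℤ) : ZMod M) = g)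

section General

variable {M : ℕ} {ζ : ℂ} {E : Fin 6 → ℤ}

lemma mem_clg {g : ZMod M} {l : Fin 6} : l ∈ clg M E g ↔ ((E l : ℤ) : ZMod M) = g := by
  simp [clg]

lemma xgb_eq_conj (hn : ‖ζ‖ = 1) (g : ZMod M) :
    xgb M ζ E g = (starRingEnd ℂ) (xg M ζ E g) := by
  unfold xgb xg
  rw [map_sum]
  refine Finset.sum_congr rfl fun l _ => ?_
  rw [conj_zpow hn]

lemma xgb_ne_zero (hn : ‖ζ‖ = 1) {g : ZMod M} (h : xg M ζ E g ≠ 0) : xgb M ζ E g ≠ 0 := by
  rw [xgb_eq_conj hn]
  simpa using h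

lemma xgb_eq_zero (hn : ‖ζ‖ = 1) {g : ZMod M} (h : xg M ζ E g = 0) : xgb M ζ E g = 0 := by
  rw [xgb_eq_conj hn, h, map_zero]

lemma lev_iff (a b : ℤ) : (((a : ℤ) : ZMod M) = ((b : ℤ) : ZMod M)) ↔ (M : ℤ) ∣ a - b := by
  rw [ZMod.intCast_eq_intCast_iff_dvd_sub, show b - a = -(a - b) by ring, dvd_neg]

/-- the correlations of the residue class sums -/
theorem corrG [NeZero M] {m : ℕ} (hm : 0 < m) (hco : ∀ s : ℕ, (1 + m * s).Coprime (m * M))
    (hζ : IsPrimitiveRoot ζ (m * M))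
    (hmu : (∑ l, ζ ^ (E l)) * (∑ l, ζ ^ (-E l)) = 6) (d : ZMod M) :
    ∑ g, xg M ζ E (g + d) * xgb M ζ E g = if d = 0 then 6 else 0 := by
  classical
  have hMpos : 0 < M := Nat.pos_of_ne_zero (NeZero.ne M)
  have hζ0 : ζ ≠ 0 := ne_zero_of_pow_eq_one (Nat.mul_pos hm hMpos) hζ.pow_eq_one
  have hsum : ∑ p : Fin 6 × Fin 6, ζ ^ (E p.1 - E p.2) = ((6 : ℤ) : ℂ) := by
    rw [Fintype.sum_prod_type]
    have : ((6 : ℤ) : ℂ) = (∑ l, ζ ^ (E l)) * (∑ l, ζ ^ (-E l)) := by rw [hmu]; norm_num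
    rw [this, Finset.sum_mul_sum]
    refine Finset.sum_congr rfl fun l _ => Finset.sum_congr rfl fun m _ => ?_
    rw [sub_eq_add_neg, zpow_add₀ hζ0]
  have h1 := class_sum_zmod (m := m) (N := M) hm hco hζ univ
    (fun p : Fin 6 × Fin 6 => E p.1 - E p.2) 6 hsum d
  have hS : ((6 : ℤ) : ℂ) = 6 := by norm_num
  rw [hS] at h1
  rw [← h1]
  rw [← Finset.sum_fiberwise (univ.filter fun p : Fin 6 × Fin 6 =>
    (((E p.1 - E p.2 : ℤ)) : ZMod M) = d) (fun p => ((E p.2 : ℤ) : ZMod M))]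
  refine Finset.sum_congr rfl fun g _ => ?_
  unfold xg xgb
  rw [Finset.sum_mul_sum, ← Finset.sum_product']
  have hset : (univ.filter (fun l => ((E l : ℤ) : ZMod M) = g + d)) ×ˢ
      (univ.filter (fun l => ((E l : ℤ) : ZMod M) = g))
      = ((univ.filter fun p : Fin 6 × Fin 6 =>
        (((E p.1 - E p.2 : ℤ)) : ZMod M) = d).filter
          fun p => ((E p.2 : ℤ) : ZMod M) = g) := by
    ext ⟨l, m⟩
    simp only [mem_product, mem_filter, mem_univ, true_and, Int.cast_sub]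
    constructor
    · rintro ⟨h1, h2⟩
      refine ⟨?_, h2⟩
      rw [h1, h2]; ring
    · rintro ⟨h1, h2⟩
      refine ⟨?_, h2⟩
      rw [← h2, ← h1]; ring
  rw [hset]
  refine Finset.sum_congr rfl fun p _ => ?_
  rw [sub_eq_add_neg, zpow_add₀ hζ0]

end General

/-- The hypotheses of the classification: a tuple unbiased to zero at a primitive root of order
`240 * H`, with the arithmetic conditions satisfied by `H = 2 ^ s * 3 ^ b * 5 ^ c`: no singleton
residue classes modulo `4 * H`, and two element classes with difference a multiple of `60 * H`. -/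
structure Ctx (H : ℕ) (ζ : ℂ) (E : Fin 6 → ℤ) : Prop where
  prim : IsPrimitiveRoot ζ (240 * H)
  hco : ∀ x : ℕ, (1 + 60 * x).Coprime (240 * H)
  mu : (∑ l, ζ ^ (E l)) * (∑ l, ζ ^ (-E l)) = 6
  two : ∀ l, ∃ k, k ≠ l ∧ ((E k : ℤ) : ZMod (4 * H)) = ((E l : ℤ) : ZMod (4 * H))
  pair : ∀ {x y : Fin 6}, x ≠ y → ((E y : ℤ) : ZMod (4 * H)) = ((E x : ℤ) : ZMod (4 * H)) →
    (∀ k, ((E k : ℤ) : ZMod (4 * H)) = ((E x : ℤ) : ZMod (4 * H)) → k = x ∨ k = y) →
    ((15 : ℤ) * (4 * H : ℕ)) ∣ E y - E x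

section Classify

variable {H : ℕ} [NeZero H] {ζ : ℂ} {E : Fin 6 → ℤ}

lemma Hpos : 0 < H := Nat.pos_of_ne_zero (NeZero.ne H)

instance : NeZero (4 * H) := ⟨by have := Hpos (H := H); omega⟩
instance : NeZero (2 * H) := ⟨by have := Hpos (H := H); omega⟩

lemma Ctx.prim60 (C : Ctx H ζ E) : IsPrimitiveRoot ζ (60 * (4 * H)) := by
  have : 60 * (4 * H) = 240 * H := by ring
  rw [this]; exact C.prim

lemma Ctx.coprime60 (C : Ctx H ζ E) (x : ℕ) : (1 + 60 * x).Coprime (60 * (4 * H)) := by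
  have : 60 * (4 * H) = 240 * H := by ring
  rw [this]; exact C.hco x

lemma Ctx.prim120 (C : Ctx H ζ E) : IsPrimitiveRoot ζ (120 * (2 * H)) := by
  have : 120 * (2 * H) = 240 * H := by ring
  rw [this]; exact C.prim

lemma Ctx.coprime120 (C : Ctx H ζ E) (x : ℕ) : (1 + 120 * x).Coprime (120 * (2 * H)) := by
  have e1 : 120 * (2 * H) = 240 * H := by ring
  have e2 : 1 + 120 * x = 1 + 60 * (2 * x) := by ring
  rw [e1, e2]; exact C.hco _

lemma Ctx.norm (C : Ctx H ζ E) : ‖ζ‖ = 1 :=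
  IsPrimitiveRoot.norm'_eq_one C.prim (by have := Hpos (H := H); omega)

lemma Ctx.ne_zero (C : Ctx H ζ E) : ζ ≠ 0 :=
  ne_zero_of_pow_eq_one (by have := Hpos (H := H); omega) C.prim.pow_eq_one

lemma Ctx.corr (C : Ctx H ζ E) (d : ZMod (4 * H)) :
    ∑ g, xg (4 * H) ζ E (g + d) * xgb (4 * H) ζ E g = if d = 0 then 6 else 0 :=
  corrG (m := 60) (by norm_num) C.coprime60 C.prim60 C.mu d

lemma Ctx.exists_ne (C : Ctx H ζ E) : ∃ g, xg (4 * H) ζ E g ≠ 0 := by
  by_contra hall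
  push Not at hall
  have h := C.corr 0
  simp only [add_zero, if_true] at h
  rw [Finset.sum_eq_zero (fun g _ => by rw [hall g, zero_mul])] at h
  norm_num at h

/-- a correlation cannot consist of a single nonzero term -/
lemma Ctx.fact (C : Ctx H ζ E) {d g2 : ZMod (4 * H)} (hd : d ≠ 0)
    (h1 : xg (4 * H) ζ E (g2 + d) ≠ 0) (h2 : xg (4 * H) ζ E g2 ≠ 0) :
    ∃ g3, g3 ≠ g2 ∧ xg (4 * H) ζ E g3 ≠ 0 ∧ xg (4 * H) ζ E (g3 + d) ≠ 0 := by
  by_contra hall
  push Not at hall
  have h := C.corr d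
  rw [if_neg hd, Finset.sum_eq_single g2] at h
  · exact mul_ne_zero h1 (xgb_ne_zero C.norm h2) h
  · intro g _ hg
    by_cases hx : xg (4 * H) ζ E g = 0
    · rw [xgb_eq_zero C.norm hx, mul_zero]
    · rw [hall g hg hx, zero_mul]
  · intro hh
    exact absurd (mem_univ g2) hh

lemma Ctx.card_two (C : Ctx H ζ E) {g : ZMod (4 * H)} (h : xg (4 * H) ζ E g ≠ 0) :
    2 ≤ (clg (4 * H) E g).card := by
  have hne : (clg (4 * H) E g).Nonempty := by
    by_contra h0
    rw [Finset.not_nonempty_iff_eq_empty] at h0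
    apply h
    show ∑ l ∈ clg (4 * H) E g, ζ ^ (E l) = 0
    rw [h0, Finset.sum_empty]
  obtain ⟨l, hl⟩ := hne
  obtain ⟨k, hk, hke⟩ := C.two l
  have : 1 < (clg (4 * H) E g).card := Finset.one_lt_card.mpr
    ⟨l, hl, k, mem_clg.mpr (hke.trans (mem_clg.mp hl)), hk.symm⟩
  omega

/-- three classes with nonzero sums fill up the coordinates in pairs -/
lemma Ctx.three_struct (C : Ctx H ζ E) {g1 g2 g3 : ZMod (4 * H)}
    (h12 : g1 ≠ g2) (h13 : g1 ≠ g3) (h23 : g2 ≠ g3)
    (x1 : xg (4 * H) ζ E g1 ≠ 0) (x2 : xg (4 * H) ζ E g2 ≠ 0) (x3 : xg (4 * H) ζ E g3 ≠ 0) :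
    (∀ l, ((E l : ℤ) : ZMod (4 * H)) = g1 ∨ ((E l : ℤ) : ZMod (4 * H)) = g2
        ∨ ((E l : ℤ) : ZMod (4 * H)) = g3) ∧
      (clg (4 * H) E g1).card = 2 ∧ (clg (4 * H) E g2).card = 2 ∧ (clg (4 * H) E g3).card = 2 := by
  have c1 := C.card_two x1
  have c2 := C.card_two x2
  have c3 := C.card_two x3
  have d12 : Disjoint (clg (4 * H) E g1) (clg (4 * H) E g2) := by
    rw [Finset.disjoint_left]
    intro l h1 h2
    exact h12 ((mem_clg.mp h1).symm.trans (mem_clg.mp h2))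
  have d123 : Disjoint (clg (4 * H) E g1 ∪ clg (4 * H) E g2) (clg (4 * H) E g3) := by
    rw [Finset.disjoint_left]
    intro l h1 h2
    rcases Finset.mem_union.mp h1 with h1 | h1
    · exact h13 ((mem_clg.mp h1).symm.trans (mem_clg.mp h2))
    · exact h23 ((mem_clg.mp h1).symm.trans (mem_clg.mp h2))
  have hcard : ((clg (4 * H) E g1 ∪ clg (4 * H) E g2) ∪ clg (4 * H) E g3).card
      = (clg (4 * H) E g1).card + (clg (4 * H) E g2).card + (clg (4 * H) E g3).card := by
    rw [Finset.card_union_of_disjoint d123, Finset.card_union_of_disjoint d12]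
  have hle : ((clg (4 * H) E g1 ∪ clg (4 * H) E g2) ∪ clg (4 * H) E g3).card ≤ 6 := by
    have := Finset.card_le_univ ((clg (4 * H) E g1 ∪ clg (4 * H) E g2) ∪ clg (4 * H) E g3)
    simpa using this
  have huniv : (clg (4 * H) E g1 ∪ clg (4 * H) E g2) ∪ clg (4 * H) E g3 = univ := by
    apply Finset.eq_univ_of_card
    simp only [Fintype.card_fin]
    omega
  refine ⟨?_, by omega, by omega, by omega⟩
  intro l
  have : l ∈ (clg (4 * H) E g1 ∪ clg (4 * H) E g2) ∪ clg (4 * H) E g3 := by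
    rw [huniv]; exact mem_univ l
  rcases Finset.mem_union.mp this with h | h
  · rcases Finset.mem_union.mp h with h | h
    · exact Or.inl (mem_clg.mp h)
    · exact Or.inr (Or.inl (mem_clg.mp h))
  · exact Or.inr (Or.inr (mem_clg.mp h))

/-- the correlation when the support has three elements -/
lemma Ctx.corr3 (C : Ctx H ζ E) {u v w : ZMod (4 * H)} (huv : u ≠ v) (huw : u ≠ w) (hvw : v ≠ w)
    (hsupp : ∀ g, xg (4 * H) ζ E g ≠ 0 → g = u ∨ g = v ∨ g = w) (d : ZMod (4 * H)) :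
    xg (4 * H) ζ E (u + d) * xgb (4 * H) ζ E u + xg (4 * H) ζ E (v + d) * xgb (4 * H) ζ E v
      + xg (4 * H) ζ E (w + d) * xgb (4 * H) ζ E w = if d = 0 then 6 else 0 := by
  classical
  have h := C.corr d
  rw [← Finset.sum_subset (Finset.subset_univ ({u, v, w} : Finset (ZMod (4 * H))))] at h
  · rw [Finset.sum_insert (by simp [huv, huw]), Finset.sum_insert (by simp [hvw]),
      Finset.sum_singleton] at h
    rw [← h]
    ring
  · intro g _ hg
    have hg0 : xg (4 * H) ζ E g = 0 := by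
      by_contra hne
      rcases hsupp g hne with rfl | rfl | rfl <;> simp at hg
    rw [xgb_eq_zero C.norm hg0, mul_zero]

/-- the step lemma: a difference occurs twice or is an involution -/
lemma Ctx.step (C : Ctx H ζ E) {u v w : ZMod (4 * H)} (huv : u ≠ v) (huw : u ≠ w) (hvw : v ≠ w)
    (xu : xg (4 * H) ζ E u ≠ 0) (xv : xg (4 * H) ζ E v ≠ 0)
    (hsupp : ∀ g, xg (4 * H) ζ E g ≠ 0 → g = u ∨ g = v ∨ g = w) :
    v + (v - u) = w ∨ w + (v - u) = u ∨ 2 * (v - u) = 0 := by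
  set d := v - u with hd
  have hd0 : d ≠ 0 := fun h0 => huv (sub_eq_zero.mp h0).symm
  have hR := C.corr3 huv huw hvw hsupp d
  rw [if_neg hd0] at hR
  have e1 : u + d = v := by rw [hd]; ring
  rw [e1] at hR
  have hnz : xg (4 * H) ζ E v * xgb (4 * H) ζ E u ≠ 0 := mul_ne_zero xv (xgb_ne_zero C.norm xu)
  by_contra hcon
  push Not at hcon
  obtain ⟨c1, c2, c3⟩ := hcon
  have hz1 : xg (4 * H) ζ E (v + d) = 0 := by
    by_contra hne
    rcases hsupp _ hne with h | h | h
    · apply c3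
      have : 2 * d = (v + d) - u := by rw [hd]; ring
      rw [this, h, sub_self]
    · have : d = 0 := by linear_combination h
      exact hd0 this
    · exact c1 h
  have hz2 : xg (4 * H) ζ E (w + d) = 0 := by
    by_contra hne
    rcases hsupp _ hne with h | h | h
    · exact c2 h
    · have : w = u := by
        have : w = (w + d) - d := by ring
        rw [this, h, hd]; ring
      exact huw this.symm
    · have : d = 0 := by linear_combination h
      exact hd0 this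
  rw [hz1, hz2, zero_mul, zero_mul, add_zero, add_zero] at hR
  exact hnz hR

/-- the primitive root of order 60 -/
lemma Ctx.xi (C : Ctx H ζ E) : IsPrimitiveRoot (ζ ^ (4 * H)) 60 :=
  C.prim.pow (by have := Hpos (H := H); omega) (by ring)

lemma Ctx.zeta_mul (C : Ctx H ζ E) (k : ℤ) :
    ζ ^ (((4 * H : ℕ) : ℤ) * k) = (ζ ^ (4 * H)) ^ k := by
  rw [zpow_mul, zpow_natCast]

/-- the fourth root of unity -/
lemma Ctx.I_sq (C : Ctx H ζ E) : (ζ ^ (60 * H)) ^ 2 = -1 := by
  have hH := Hpos (H := H)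
  have h1 : (ζ ^ (120 * H)) ^ 2 = 1 := by
    rw [← pow_mul, show 120 * H * 2 = 240 * H by ring]
    exact C.prim.pow_eq_one
  have h2 : ζ ^ (120 * H) ≠ 1 :=
    C.prim.pow_ne_one_of_pos_of_lt (by omega) (by omega)
  have h3 : (ζ ^ (120 * H) - 1) * (ζ ^ (120 * H) + 1) = 0 := by linear_combination h1
  have h4 : ζ ^ (120 * H) + 1 = 0 := by
    rcases mul_eq_zero.mp h3 with h | h
    · exact absurd (sub_eq_zero.mp h) h2
    · exact h
  rw [← pow_mul, show 60 * H * 2 = 120 * H by ring]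
  linear_combination h4

lemma Ctx.I_eq (C : Ctx H ζ E) : ζ ^ (60 * H) = (ζ ^ (4 * H)) ^ 15 := by
  rw [← pow_mul]
  congr 1
  ring

/-- the data of a two element class with nonzero sum -/
lemma Ctx.pair_data (C : Ctx H ζ E) {g : ZMod (4 * H)}
    (hc : (clg (4 * H) E g).card = 2) (hx : xg (4 * H) ζ E g ≠ 0) :
    ∃ (f : ℤ) (s : ℕ), s < 4 ∧ s ≠ 2 ∧ ((f : ℤ) : ZMod (4 * H)) = g ∧
      xg (4 * H) ζ E g = ζ ^ f * (1 + (ζ ^ (60 * H)) ^ s) ∧
      xgb (4 * H) ζ E g = ζ ^ (-f) * (1 + (ζ ^ (60 * H)) ^ (4 - s)) := by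
  classical
  have hζ0 := C.ne_zero
  have hI2 := C.I_sq
  set I := ζ ^ (60 * H) with hI
  have hI0 : I ≠ 0 := pow_ne_zero _ hζ0
  have hI4 : I ^ 4 = 1 := by
    calc I ^ 4 = (I ^ 2) ^ 2 := by ring
      _ = 1 := by rw [hI2]; norm_num
  obtain ⟨x, y, hxy, hA⟩ := Finset.card_eq_two.mp hc
  have hxm : ((E x : ℤ) : ZMod (4 * H)) = g := mem_clg.mp (by rw [hA]; simp)
  have hym : ((E y : ℤ) : ZMod (4 * H)) = g := mem_clg.mp (by rw [hA]; simp)
  have hall : ∀ k, ((E k : ℤ) : ZMod (4 * H)) = ((E x : ℤ) : ZMod (4 * H)) → k = x ∨ k = y := by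
    intro k hk
    have : k ∈ clg (4 * H) E g := mem_clg.mpr (hk.trans hxm)
    rw [hA] at this
    simpa using this
  obtain ⟨s, hs⟩ := C.pair hxy (hym.trans hxm.symm) hall
  have ey : E y = E x + ((60 * H : ℕ) : ℤ) * s := by
    push_cast at hs ⊢
    linear_combination hs
  have hsd : (s % 4).toNat < 4 := by omega
  have hscast : (((s % 4).toNat : ℕ) : ℤ) = s % 4 := by omega
  set t := (s % 4).toNat with ht
  have hIs : I ^ s = I ^ t := by
    rw [← zpow_natCast I t, hscast]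
    conv_lhs => rw [← Int.mul_ediv_add_emod s 4]
    rw [zpow_add₀ hI0, zpow_mul]
    have : I ^ (4 : ℤ) = 1 := by exact_mod_cast hI4
    rw [this, one_zpow, one_mul]
  have hIs' : I ^ (-s) = I ^ (4 - t) := by
    have h1 : I ^ t * I ^ (4 - t) = 1 := by
      rw [← pow_add, Nat.add_sub_cancel' hsd.le, hI4]
    rw [zpow_neg, hIs]
    exact inv_eq_of_mul_eq_one_right h1
  have ezy : ζ ^ (E y) = ζ ^ (E x) * I ^ t := by
    rw [ey, zpow_add₀ hζ0, zpow_mul, zpow_natCast, ← hI, hIs]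
  have ezy' : ζ ^ (-E y) = ζ ^ (-E x) * I ^ (4 - t) := by
    rw [ey, neg_add, zpow_add₀ hζ0, ← mul_neg, zpow_mul, zpow_natCast, ← hI, hIs']
  have hxs : xg (4 * H) ζ E g = ζ ^ (E x) * (1 + I ^ t) := by
    show ∑ l ∈ clg (4 * H) E g, ζ ^ (E l) = _
    rw [hA, Finset.sum_pair hxy, ezy]
    ring
  have hxsb : xgb (4 * H) ζ E g = ζ ^ (-E x) * (1 + I ^ (4 - t)) := by
    show ∑ l ∈ clg (4 * H) E g, ζ ^ (-E l) = _
    rw [hA, Finset.sum_pair hxy, ezy']
    ring
  refine ⟨E x, t, hsd, ?_, hxm, hxs, hxsb⟩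
  intro h2
  apply hx
  rw [hxs, h2, hI2]
  ring

/-- two involutions of `ZMod (4 * H)` agree -/
lemma two_invol {x y : ZMod (4 * H)} (hx : 2 * x = 0) (hy : 2 * y = 0) (hx0 : x ≠ 0) (hy0 : y ≠ 0) :
    x = y := by
  have key : ∀ z : ZMod (4 * H), 2 * z = 0 → z ≠ 0 → z.val = 2 * H := by
    intro z hz hz0
    have h1 : z.val < 4 * H := ZMod.val_lt z
    have h2 : (((2 * z.val : ℕ)) : ZMod (4 * H)) = 0 := by
      push_cast
      rw [ZMod.natCast_zmod_val, hz]
    rw [ZMod.natCast_eq_zero_iff] at h2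
    obtain ⟨k, hk⟩ := h2
    have h3 : z.val ≠ 0 := by
      intro h0
      exact hz0 ((ZMod.val_eq_zero z).mp h0)
    have hH := Hpos (H := H)
    have hk1 : k = 1 := by
      have h4 : 2 * z.val < 2 * (4 * H) := by omega
      have h5 : (4 * H) * k < (4 * H) * 2 := by
        rw [← hk]; linarith
      have h6 : k < 2 := Nat.lt_of_mul_lt_mul_left h5
      have h7 : k ≠ 0 := by
        rintro rfl
        omega
      omega
    subst hk1
    omega
  apply ZMod.val_injective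
  rw [key x hx hx0, key y hy hy0]

/-- the support of three nonzero classes -/
lemma Ctx.supp3 (C : Ctx H ζ E) {u v w : ZMod (4 * H)}
    (hcov : ∀ l, ((E l : ℤ) : ZMod (4 * H)) = u ∨ ((E l : ℤ) : ZMod (4 * H)) = v
        ∨ ((E l : ℤ) : ZMod (4 * H)) = w) :
    ∀ g, xg (4 * H) ζ E g ≠ 0 → g = u ∨ g = v ∨ g = w := by
  intro g hg
  by_contra hne
  push Not at hne
  apply hg
  show ∑ l ∈ clg (4 * H) E g, ζ ^ (E l) = 0
  have : clg (4 * H) E g = ∅ := by
    rw [Finset.eq_empty_iff_forall_notMem]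
    intro l hl
    rw [mem_clg] at hl
    rcases hcov l with h | h | h
    · exact hne.1 (hl.symm.trans h)
    · exact hne.2.1 (hl.symm.trans h)
    · exact hne.2.2 (hl.symm.trans h)
  rw [this, Finset.sum_empty]

/-- three classes in a coset of the subgroup of order 3 are impossible -/
lemma Ctx.case_c1 (C : Ctx H ζ E) {a p : ZMod (4 * H)} (h3 : 3 * p = 0) (hp : p ≠ 0)
    (x1 : xg (4 * H) ζ E a ≠ 0) (x2 : xg (4 * H) ζ E (a + p) ≠ 0)
    (x3 : xg (4 * H) ζ E (a + 2 * p) ≠ 0) : False := by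
  classical
  have hζ0 := C.ne_zero
  have hξ := C.xi
  have h2p : 2 * p ≠ 0 := by
    intro h
    apply hp
    linear_combination h3 - h
  have h12 : a ≠ a + p := by
    intro h; exact hp (by linear_combination -h)
  have h13 : a ≠ a + 2 * p := by
    intro h; exact h2p (by linear_combination -h)
  have h23 : a + p ≠ a + 2 * p := by
    intro h; exact hp (by linear_combination -h)
  obtain ⟨hcov, c1, c2, c3⟩ := C.three_struct h12 h13 h23 x1 x2 x3
  have hsupp := C.supp3 hcov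
  have hR := C.corr3 h12 h13 h23 hsupp p
  rw [if_neg hp] at hR
  have e2 : a + p + p = a + 2 * p := by ring
  have e3 : a + 2 * p + p = a := by linear_combination h3
  rw [e2, e3] at hR
  obtain ⟨f1, t1, ht1, ht1', hf1, hx1, hb1⟩ := C.pair_data c1 x1
  obtain ⟨f2, t2, ht2, ht2', hf2, hx2, hb2⟩ := C.pair_data c2 x2
  obtain ⟨f3, t3, ht3, ht3', hf3, hx3, hb3⟩ := C.pair_data c3 x3
  set F : ℤ := f2 - f1 with hF
  have hFl : ((F : ℤ) : ZMod (4 * H)) = p := by
    rw [hF]; push_cast; rw [hf1, hf2]; ring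
  obtain ⟨β, hβ⟩ := (lev_iff (f3 - f2) F).mp (by
    rw [hFl]; push_cast; rw [hf2, hf3]; ring)
  obtain ⟨γ, hγ⟩ := (lev_iff (f1 - f3) F).mp (by
    rw [hFl]; push_cast; rw [hf1, hf3]; linear_combination -h3)
  set M : ℤ := ((4 * H : ℕ) : ℤ) with hM
  have hsum3 : 3 * F + M * (β + γ) = 0 := by
    linear_combination -hβ - hγ + hF * 3
  have hMc : ((M : ℤ) : ZMod (4 * H)) = 0 := by
    rw [ZMod.intCast_zmod_eq_zero_iff_dvd]
  have h3βγ : ¬ (3 : ℤ) ∣ β + γ := by
    rintro ⟨k, hk⟩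
    apply hp
    rw [← hFl]
    rw [hk] at hsum3
    have hFe : F = -(M * k) := by
      have : 3 * (F + M * k) = 0 := by linear_combination hsum3
      have h0 : F + M * k = 0 := by omega
      linear_combination h0
    rw [hFe]
    push_cast
    push_cast at hMc
    rw [hMc]
    ring
  set ξ := ζ ^ (4 * H) with hξdef
  have hI : ζ ^ (60 * H) = ξ ^ 15 := C.I_eq
  have hMξ : ∀ x : ℤ, ζ ^ (M * x) = ξ ^ x := by
    intro x
    rw [hM, C.zeta_mul]
  have ez1 : ζ ^ (f3 - f2) = ζ ^ F * ξ ^ (dgt60 β) := by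
    have : f3 - f2 = F + M * β := by linear_combination hβ
    rw [this, zpow_add₀ hζ0, hMξ, xi60_d hξ]
  have ez2 : ζ ^ (f1 - f3) = ζ ^ F * ξ ^ (dgt60 γ) := by
    have : f1 - f3 = F + M * γ := by linear_combination hγ
    rw [this, zpow_add₀ hζ0, hMξ, xi60_d hξ]
  have ez3 : ∀ a b : ℤ, ζ ^ a * ζ ^ (-b) = ζ ^ (a - b) := by
    intro a b
    rw [← zpow_add₀ hζ0, sub_eq_add_neg]
  have hpsi : ∀ t : ℕ, t < 4 → (ζ ^ (60 * H)) ^ t = ξ ^ (15 * t) := by
    intro t _
    rw [hI, ← pow_mul]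
  have hpsi' : ∀ t : ℕ, t < 4 → (ζ ^ (60 * H)) ^ (4 - t) = ξ ^ (60 - 15 * t) := by
    intro t ht
    rw [hI, ← pow_mul]
    congr 1
    omega
  have hmain : ζ ^ F * ((1 + ξ ^ (15 * t2)) * (1 + ξ ^ (60 - 15 * t1))
      + ξ ^ (dgt60 β) * ((1 + ξ ^ (15 * t3)) * (1 + ξ ^ (60 - 15 * t2)))
      + ξ ^ (dgt60 γ) * ((1 + ξ ^ (15 * t1)) * (1 + ξ ^ (60 - 15 * t3)))) = 0 := by
    rw [hx1, hx2, hx3, hb1, hb2, hb3, hpsi t1 ht1, hpsi t2 ht2, hpsi t3 ht3, hpsi' t1 ht1,
      hpsi' t2 ht2, hpsi' t3 ht3] at hR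
    rw [← hR]
    have a1 : ζ ^ f2 * ζ ^ (-f1) = ζ ^ F := ez3 f2 f1
    have a2 : ζ ^ f3 * ζ ^ (-f2) = ζ ^ F * ξ ^ (dgt60 β) := (ez3 f3 f2).trans ez1
    have a3 : ζ ^ f1 * ζ ^ (-f3) = ζ ^ F * ξ ^ (dgt60 γ) := (ez3 f1 f3).trans ez2
    linear_combination
      -(1 + ξ ^ (15 * t2)) * (1 + ξ ^ (60 - 15 * t1)) * a1
      - (1 + ξ ^ (15 * t3)) * (1 + ξ ^ (60 - 15 * t2)) * a2
      - (1 + ξ ^ (15 * t1)) * (1 + ξ ^ (60 - 15 * t3)) * a3
  have hbr := (mul_eq_zero.mp hmain).resolve_left (zpow_ne_zero _ hζ0)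
  refine tri_ne60 hξ ht1 ht2 ht3 ht1' ht2' ht3' (dgt60_lt _) (dgt60_lt _) ?_ hbr
  have hb' := dgt60_cast β
  have hc' := dgt60_cast γ
  intro h0
  apply h3βγ
  apply Int.dvd_of_emod_eq_zero
  omega

/-- the value of `ψ * conj ψ` for a two element class -/
lemma I_value {I : ℂ} (hI : I ^ 2 = -1) {t : ℕ} (ht : t < 4) (ht' : t ≠ 2) :
    (t = 0 ∧ (1 + I ^ t) * (1 + I ^ (4 - t)) = 4) ∨ ((t = 1 ∨ t = 3) ∧ (1 + I ^ t) * (1 + I ^ (4 - t)) = 2) := by
  interval_cases t
  · left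
    refine ⟨rfl, ?_⟩
    have : I ^ 4 = 1 := by
      calc I ^ 4 = (I ^ 2) ^ 2 := by ring
        _ = 1 := by rw [hI]; norm_num
    simp only [pow_zero, Nat.sub_zero, this]
    norm_num
  · right
    refine ⟨Or.inl rfl, ?_⟩
    show (1 + I ^ 1) * (1 + I ^ 3) = 2
    linear_combination (I ^ 2 + I - 1) * hI
  · exact absurd rfl ht'
  · right
    refine ⟨Or.inr rfl, ?_⟩
    show (1 + I ^ 3) * (1 + I ^ 1) = 2
    linear_combination (I ^ 2 + I - 1) * hI

/-- a progression of length three with difference of order four is impossible -/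
lemma Ctx.case_c2 (C : Ctx H ζ E) {a p : ZMod (4 * H)} (h4 : 4 * p = 0) (h2 : 2 * p ≠ 0)
    (x1 : xg (4 * H) ζ E a ≠ 0) (x2 : xg (4 * H) ζ E (a + p) ≠ 0)
    (x3 : xg (4 * H) ζ E (a + 2 * p) ≠ 0) : False := by
  classical
  have hζ0 := C.ne_zero
  have hn := C.norm
  have hp : p ≠ 0 := by
    rintro rfl
    simp at h2
  have h3p : 3 * p ≠ 0 := by
    intro h
    apply hp
    linear_combination h4 - h
  have h12 : a ≠ a + p := by
    intro h; exact hp (by linear_combination -h)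
  have h13 : a ≠ a + 2 * p := by
    intro h; exact h2 (by linear_combination -h)
  have h23 : a + p ≠ a + 2 * p := by
    intro h; exact hp (by linear_combination -h)
  obtain ⟨hcov, c1, c2, c3⟩ := C.three_struct h12 h13 h23 x1 x2 x3
  have hsupp := C.supp3 hcov
  obtain ⟨f1, t1, ht1, ht1', hf1, hx1, hb1⟩ := C.pair_data c1 x1
  obtain ⟨f2, t2, ht2, ht2', hf2, hx2, hb2⟩ := C.pair_data c2 x2
  obtain ⟨f3, t3, ht3, ht3', hf3, hx3, hb3⟩ := C.pair_data c3 x3
  set xa := xg (4 * H) ζ E a with hxa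
  set xb := xg (4 * H) ζ E (a + p) with hxb
  set xc := xg (4 * H) ζ E (a + 2 * p) with hxc
  set ya := xgb (4 * H) ζ E a with hya
  set yb := xgb (4 * H) ζ E (a + p) with hyb
  set yc := xgb (4 * H) ζ E (a + 2 * p) with hyc
  have hout : xg (4 * H) ζ E (a + 3 * p) = 0 := by
    by_contra hne
    rcases hsupp _ hne with h | h | h
    · exact h3p (by linear_combination h)
    · exact h2 (by linear_combination h)
    · exact hp (by linear_combination h)
  -- the three correlations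
  have hR1 : xb * ya + xc * yb = 0 := by
    have h := C.corr3 h12 h13 h23 hsupp p
    rw [if_neg hp] at h
    have e2 : a + p + p = a + 2 * p := by ring
    have e3 : a + 2 * p + p = a + 3 * p := by ring
    rw [e2, e3, hout, zero_mul, add_zero] at h
    exact h
  have hR2 : xc * ya + xa * yc = 0 := by
    have h := C.corr3 h12 h13 h23 hsupp (2 * p)
    rw [if_neg h2] at h
    have e2 : a + p + 2 * p = a + 3 * p := by ring
    have e3 : a + 2 * p + 2 * p = a := by linear_combination h4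
    rw [e2, e3, hout, zero_mul, add_zero] at h
    exact h
  have hR0 : xa * ya + xb * yb + xc * yc = 6 := by
    have h := C.corr3 h12 h13 h23 hsupp 0
    simp only [add_zero, if_true] at h
    exact h
  have hI2 := C.I_sq
  set I := ζ ^ (60 * H) with hI
  have hI4 : I ^ 4 = 1 := by
    calc I ^ 4 = (I ^ 2) ^ 2 := by ring
      _ = 1 := by rw [hI2]; norm_num
  have hself : ∀ f : ℤ, ζ ^ f * ζ ^ (-f) = 1 := fun f => by
    rw [← zpow_add₀ hζ0]; simp
  have hA1 : xa * ya = (1 + I ^ t1) * (1 + I ^ (4 - t1)) := by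
    rw [hx1, hb1]
    linear_combination (1 + I ^ t1) * (1 + I ^ (4 - t1)) * hself f1
  have hA2 : xb * yb = (1 + I ^ t2) * (1 + I ^ (4 - t2)) := by
    rw [hx2, hb2]
    linear_combination (1 + I ^ t2) * (1 + I ^ (4 - t2)) * hself f2
  have hA3 : xc * yc = (1 + I ^ t3) * (1 + I ^ (4 - t3)) := by
    rw [hx3, hb3]
    linear_combination (1 + I ^ t3) * (1 + I ^ (4 - t3)) * hself f3
  -- the moduli at `a` and `a + 2 p` agree
  have hconj : yb * xa + yc * xb = 0 := by
    have hcxb : (starRingEnd ℂ) xb = yb := (xgb_eq_conj hn _).symm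
    have hcxc : (starRingEnd ℂ) xc = yc := (xgb_eq_conj hn _).symm
    have hcya : (starRingEnd ℂ) ya = xa := by rw [hya, xgb_eq_conj hn, Complex.conj_conj]
    have hcyb : (starRingEnd ℂ) yb = xb := by rw [hyb, xgb_eq_conj hn, Complex.conj_conj]
    have := congrArg (starRingEnd ℂ) hR1
    rw [map_add, map_mul, map_mul, map_zero, hcxb, hcxc, hcya, hcyb] at this
    exact this
  have hb0 : xb * yb ≠ 0 := mul_ne_zero x2 (xgb_ne_zero hn x2)
  have heqA : xa * ya = xc * yc := by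
    have h1 : (xb * ya) * (yb * xa) = (xc * yb) * (yc * xb) := by
      linear_combination (yb * xa) * hR1 - (xc * yb) * hconj
    have h2' : (xb * yb) * (xa * ya - xc * yc) = 0 := by
      linear_combination h1
    exact sub_eq_zero.mp ((mul_eq_zero.mp h2').resolve_left hb0)
  rcases I_value hI2 ht1 ht1' with ⟨h10, v1⟩ | ⟨h11, v1⟩ <;>
    rcases I_value hI2 ht2 ht2' with ⟨h20, v2⟩ | ⟨h21, v2⟩ <;>
    rcases I_value hI2 ht3 ht3' with ⟨h30, v3⟩ | ⟨h31, v3⟩
  · rw [hA1, hA3, v1, v3] at heqA; rw [hA1, hA2, hA3, v1, v2, v3] at hR0; norm_num at hR0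
  · rw [hA1, hA3, v1, v3] at heqA; norm_num at heqA
  · rw [hA1, hA2, hA3, v1, v2, v3] at hR0; norm_num at hR0
  · rw [hA1, hA3, v1, v3] at heqA; norm_num at heqA
  · rw [hA1, hA3, v1, v3] at heqA; norm_num at heqA
  · -- all three moduli would be too big
    rw [hA1, hA2, hA3, v1, v2, v3] at hR0; norm_num at hR0
  · rw [hA1, hA3, v1, v3] at heqA; norm_num at heqA
  · -- the main case
    have hFl : ((f3 - f1 : ℤ) : ZMod (4 * H)) = 2 * p := by
      push_cast; rw [hf1, hf3]; ring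
    have hw : (ζ ^ (f3 - f1)) ^ 4 = 1 := by
      have hmain : ζ ^ (f3 - f1) * ((1 + I ^ t3) * (1 + I ^ (4 - t1)))
          + ζ ^ (-(f3 - f1)) * ((1 + I ^ t1) * (1 + I ^ (4 - t3))) = 0 := by
        have e1 : ζ ^ (f3 - f1) = ζ ^ f3 * ζ ^ (-f1) := by
          rw [sub_eq_add_neg, zpow_add₀ hζ0]
        have e2 : ζ ^ (-(f3 - f1)) = ζ ^ f1 * ζ ^ (-f3) := by
          rw [neg_sub, sub_eq_add_neg, zpow_add₀ hζ0]
        rw [e1, e2, ← hR2, hx1, hx3, hb1, hb3]
        ring
      set u := ζ ^ (f3 - f1) with hu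
      have hui : u * ζ ^ (-(f3 - f1)) = 1 := hself _
      have h3I : I ^ 3 = -I := by
        calc I ^ 3 = I ^ 2 * I := by ring
          _ = -I := by rw [hI2]; ring
      have hu2 : u ^ 2 = 1 ∨ u ^ 2 = -1 := by
        rcases h11 with rfl | rfl <;> rcases h31 with rfl | rfl
        · right
          have h4' : (4 - 1 : ℕ) = 3 := rfl
          rw [h4', h3I] at hmain
          have e : (1 + I ^ 1) * (1 + -I) = 2 := by linear_combination -hI2
          rw [e] at hmain
          linear_combination (1 / 2) * u * hmain - hui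
        · left
          have h4' : (4 - 1 : ℕ) = 3 := rfl
          have h5' : (4 - 3 : ℕ) = 1 := rfl
          rw [h4', h5', h3I] at hmain
          have e1 : (1 + -I) * (1 + -I) = -2 * I := by linear_combination hI2
          have e2 : (1 + I ^ 1) * (1 + I ^ 1) = 2 * I := by linear_combination hI2
          rw [e1, e2] at hmain
          -- `-2 I u + 2 I u⁻¹ = 0`
          have hI0 : (2 * I) ≠ 0 := by
            intro h0
            have : I = 0 := by simpa using h0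
            rw [this] at hI2
            norm_num at hI2
          have h6 : (2 * I) * (u * u - 1) = 0 := by
            linear_combination (-u) * hmain + (2 * I) * hui
          have h7 := (mul_eq_zero.mp h6).resolve_left hI0
          linear_combination h7
        · left
          have h4' : (4 - 1 : ℕ) = 3 := rfl
          have h5' : (4 - 3 : ℕ) = 1 := rfl
          rw [h4', h5', h3I] at hmain
          have e1 : (1 + -I) * (1 + -I) = -2 * I := by linear_combination hI2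
          have e2 : (1 + I ^ 1) * (1 + I ^ 1) = 2 * I := by linear_combination hI2
          rw [e2, e1] at hmain
          have hI0 : (2 * I) ≠ 0 := by
            intro h0
            have : I = 0 := by simpa using h0
            rw [this] at hI2
            norm_num at hI2
          have h6 : (2 * I) * (u * u - 1) = 0 := by
            linear_combination (u) * hmain + (2 * I) * hui
          have h7 := (mul_eq_zero.mp h6).resolve_left hI0
          linear_combination h7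
        · right
          have h5' : (4 - 3 : ℕ) = 1 := rfl
          rw [h5', h3I] at hmain
          have e : (1 + -I) * (1 + I ^ 1) = 2 := by linear_combination -hI2
          rw [e] at hmain
          linear_combination (1 / 2) * u * hmain - hui
      rcases hu2 with h | h
      · calc u ^ 4 = (u ^ 2) ^ 2 := by ring
          _ = 1 := by rw [h]; norm_num
      · calc u ^ 4 = (u ^ 2) ^ 2 := by ring
          _ = 1 := by rw [h]; norm_num
    have h48 : ((240 * H : ℕ) : ℤ) ∣ (f3 - f1) * 4 := by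
      have h5 : ζ ^ ((f3 - f1) * 4) = 1 := by
        rw [zpow_mul]
        exact_mod_cast hw
      exact (C.prim.zpow_eq_one_iff_dvd _).mp h5
    have hdvd : ((4 * H : ℕ) : ℤ) ∣ f3 - f1 := by
      obtain ⟨k, hk⟩ := h48
      refine ⟨15 * k, ?_⟩
      push_cast at hk ⊢
      linarith
    apply h2
    rw [← hFl]
    exact (ZMod.intCast_zmod_eq_zero_iff_dvd _ _).mpr hdvd

/-- no three residue classes have nonzero sums -/
theorem Ctx.no_three (C : Ctx H ζ E) {g1 g2 g3 : ZMod (4 * H)}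
    (h12 : g1 ≠ g2) (h13 : g1 ≠ g3) (h23 : g2 ≠ g3)
    (x1 : xg (4 * H) ζ E g1 ≠ 0) (x2 : xg (4 * H) ζ E g2 ≠ 0) (x3 : xg (4 * H) ζ E g3 ≠ 0) : False := by
  obtain ⟨hcov, -, -, -⟩ := C.three_struct h12 h13 h23 x1 x2 x3
  have hsupp := C.supp3 hcov
  have hperm : ∀ g, xg (4 * H) ζ E g ≠ 0 → g = g1 ∨ g = g3 ∨ g = g2 := by
    intro g hg
    rcases hsupp g hg with h | h | h
    · exact Or.inl h
    · exact Or.inr (Or.inr h)
    · exact Or.inr (Or.inl h)
  have hperm2 : ∀ g, xg (4 * H) ζ E g ≠ 0 → g = g2 ∨ g = g3 ∨ g = g1 := by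
    intro g hg
    rcases hsupp g hg with h | h | h
    · exact Or.inr (Or.inr h)
    · exact Or.inl h
    · exact Or.inr (Or.inl h)
  have s1 := C.step h12 h13 h23 x1 x2 hsupp
  have s2 := C.step h13 h12 h23.symm x1 x3 hperm
  have s3 := C.step h23 h12.symm h13.symm x2 x3 hperm2
  set x := g2 - g1 with hx
  set y := g3 - g1 with hy
  have hx0 : x ≠ 0 := fun h => h12 (sub_eq_zero.mp h).symm
  have hy0 : y ≠ 0 := fun h => h13 (sub_eq_zero.mp h).symm
  have hxy : x ≠ y := by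
    intro h
    apply h23
    have : g2 = g1 + x := by rw [hx]; ring
    rw [this, h, hy]; ring
  have e2 : g2 = g1 + x := by rw [hx]; ring
  have e3 : g3 = g1 + y := by rw [hy]; ring
  have ex2 : xg (4 * H) ζ E (g1 + x) ≠ 0 := by rw [← e2]; exact x2
  have ey3 : xg (4 * H) ζ E (g1 + y) ≠ 0 := by rw [← e3]; exact x3
  have s1' : 2 * x = y ∨ y + x = 0 ∨ 2 * x = 0 := by
    rcases s1 with h | h | h
    · left; rw [e3, e2] at h; linear_combination h
    · right; left; rw [e3] at h; linear_combination h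
    · right; right; exact h
  have s2' : 2 * y = x ∨ x + y = 0 ∨ 2 * y = 0 := by
    rcases s2 with h | h | h
    · left; rw [e3, e2] at h; linear_combination h
    · right; left; rw [e2] at h; linear_combination h
    · right; right; exact h
  have s3' : 2 * y = x ∨ y = 2 * x ∨ 2 * (y - x) = 0 := by
    have ed : g3 - g2 = y - x := by rw [hx, hy]; ring
    rw [ed] at s3
    rcases s3 with h | h | h
    · left; rw [e3] at h; linear_combination h
    · right; left; rw [e2] at h; linear_combination h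
    · right; right; exact h
  have c1 : ∀ {z w : ZMod (4 * H)}, 3 * z = 0 → z ≠ 0 → xg (4 * H) ζ E (g1 + z) ≠ 0 →
      g1 + 2 * z = g1 + w → xg (4 * H) ζ E (g1 + w) ≠ 0 → False := by
    intro z w h3 hz hxz hw hxw
    exact C.case_c1 h3 hz x1 hxz (by rw [hw]; exact hxw)
  rcases s1' with h | h | h
  · -- `y = 2 x`
    rcases s2' with h' | h' | h'
    · exact c1 (z := x) (w := y) (by linear_combination h' + 2 * h) hx0 ex2 (by rw [h]) ey3
    · exact c1 (z := x) (w := y) (by linear_combination h' + h) hx0 ex2 (by rw [h]) ey3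
    · have h4 : 4 * x = 0 := by linear_combination 2 * h + h'
      have h2' : 2 * x ≠ 0 := by rw [h]; exact hy0
      exact C.case_c2 h4 h2' x1 ex2 (by rw [h]; exact ey3)
  · -- `y = - x`
    have hyx : y = -x := by linear_combination h
    rcases s3' with h' | h' | h'
    · exact c1 (z := x) (w := y) (by rw [hyx] at h'; linear_combination -h')
        hx0 ex2 (by rw [hyx]; rw [hyx] at h'; linear_combination -h') ey3
    · exact c1 (z := x) (w := y) (by rw [hyx] at h'; linear_combination -h')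
        hx0 ex2 (by rw [h']) ey3
    · have h4 : 4 * x = 0 := by
        rw [hyx] at h'
        linear_combination -h'
      have h2' : 2 * x ≠ 0 := by
        intro h0
        apply hxy
        rw [hyx]
        linear_combination h0
      -- the progression starts at `g1 + y`
      have e4 : g1 + y + x = g1 := by rw [hyx]; ring
      have e5 : g1 + y + 2 * x = g1 + x := by rw [hyx]; ring
      exact C.case_c2 h4 h2' ey3 (by rw [e4]; exact x1) (by rw [e5]; exact ex2)
  · -- `x` is an involution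
    rcases s2' with h' | h' | h'
    · have h4 : 4 * y = 0 := by linear_combination 2 * h' + h
      have h2' : 2 * y ≠ 0 := by rw [h']; exact hx0
      exact C.case_c2 h4 h2' x1 ey3 (by rw [h']; exact ex2)
    · apply hxy
      linear_combination h - h'
    · exact hxy (two_invol h h' hx0 hy0)

/-- two classes with nonzero sums differ by the involution -/
theorem Ctx.two_diff (C : Ctx H ζ E) {u v : ZMod (4 * H)} (huv : u ≠ v)
    (xu : xg (4 * H) ζ E u ≠ 0) (xv : xg (4 * H) ζ E v ≠ 0) : 2 * (v - u) = 0 := by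
  set d := v - u with hd
  have hd0 : d ≠ 0 := fun h0 => huv (sub_eq_zero.mp h0).symm
  have e1 : u + d = v := by rw [hd]; ring
  obtain ⟨g3, h3, x3, x4⟩ := C.fact hd0 (by rw [e1]; exact xv) xu
  by_cases hg3 : g3 = v
  · subst hg3
    by_contra hne
    have h5 : g3 + d ≠ g3 := fun h' => hd0 (by linear_combination h')
    have h6 : g3 + d ≠ u := by
      intro h'
      apply hne
      rw [hd] at h' ⊢
      linear_combination h'
    exact C.no_three huv (Ne.symm h6) (Ne.symm h5) xu x3 x4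
  · exact absurd (C.no_three huv (Ne.symm h3) (Ne.symm hg3) xu xv x3) id

lemma cast_two {x : ℤ} (h : ((x : ℤ) : ZMod (2 * H)) = 0) (y : ℤ) (hy : ((y : ℤ) : ZMod (4 * H)) = x) :
    ((y : ℤ) : ZMod (2 * H)) = 0 := by
  have h1 := (lev_iff (M := 4 * H) y x).mp hy
  have h2 : ((2 * H : ℕ) : ℤ) ∣ x := (ZMod.intCast_zmod_eq_zero_iff_dvd _ _).mp h
  have h3 : ((2 * H : ℕ) : ℤ) ∣ ((4 * H : ℕ) : ℤ) := ⟨2, by push_cast; ring⟩
  have h4 : ((2 * H : ℕ) : ℤ) ∣ y := by
    have : y = (y - x) + x := by ring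
    rw [this]
    exact dvd_add (h3.trans h1) h2
  exact (ZMod.intCast_zmod_eq_zero_iff_dvd _ _).mpr h4

/-- equal residues modulo `4 H` give equal residues modulo `2 H` -/
lemma lev_down {a b : ℤ} (h : ((a : ℤ) : ZMod (4 * H)) = ((b : ℤ) : ZMod (4 * H))) :
    ((a : ℤ) : ZMod (2 * H)) = ((b : ℤ) : ZMod (2 * H)) := by
  rw [lev_iff] at h ⊢
  have h3 : ((2 * H : ℕ) : ℤ) ∣ ((4 * H : ℕ) : ℤ) := ⟨2, by push_cast; ring⟩
  exact h3.trans h

/-- an involution in `ZMod (4 * H)` of two integers gives equal residues modulo `2 H` -/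
lemma lev_invol {a b : ℤ} (h : 2 * (((b : ℤ) : ZMod (4 * H)) - ((a : ℤ) : ZMod (4 * H))) = 0) :
    ((a : ℤ) : ZMod (2 * H)) = ((b : ℤ) : ZMod (2 * H)) := by
  have h1 : ((2 * (b - a) : ℤ) : ZMod (4 * H)) = 0 := by
    push_cast; exact h
  rw [ZMod.intCast_zmod_eq_zero_iff_dvd] at h1
  obtain ⟨k, hk⟩ := h1
  have hH := Hpos (H := H)
  have hH' : (H : ℤ) ≠ 0 := by exact_mod_cast hH.ne'
  rw [lev_iff]
  refine ⟨-k, ?_⟩
  push_cast at hk ⊢
  linarith

end Classify

end Vale.Agent.Lib.P355
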