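import Mathlib
import Vale.Agent.Lib.P355.Cls

/-!
The final form of the classification of tuples unbiased to zero at a primitive root of order
`240 * H`, `H = 2 ^ s * 3 ^ b * 5 ^ c`: one residue class modulo `2 * H` carries the whole sum and it
has at least four elements, and at most one further residue class occurs.
-/

namespace Vale.Agent.Lib.P355

open Finset

section

variable {H : ℕ} [NeZero H] {ζ : ℂ} {E : Fin 6 → ℤ}

/-- residue classes with a nonzero sum all lie over one residue modulo `2 * H` -/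
lemma Ctx.lies_over (C : Ctx H ζ E) {a : ℤ} (ha : xg (4 * H) ζ E ((a : ℤ) : ZMod (4 * H)) ≠ 0)
    {b : ℤ} (hb : xg (4 * H) ζ E ((b : ℤ) : ZMod (4 * H)) ≠ 0) :
    ((b : ℤ) : ZMod (2 * H)) = ((a : ℤ) : ZMod (2 * H)) := by
  by_cases h : ((b : ℤ) : ZMod (4 * H)) = ((a : ℤ) : ZMod (4 * H))
  · exact lev_down h
  · have := C.two_diff (Ne.symm h) ha hb
    exact (lev_invol this).symm

/-- the sums over residue classes modulo `2 * H` vanish away from the class of a nonzero sum -/
lemma Ctx.vanish (C : Ctx H ζ E) {a : ℤ} (ha : xg (4 * H) ζ E ((a : ℤ) : ZMod (4 * H)) ≠ 0)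
    {g : ZMod (2 * H)} (hg : g ≠ ((a : ℤ) : ZMod (2 * H))) : xg (2 * H) ζ E g = 0 := by
  classical
  unfold xg
  rw [← Finset.sum_fiberwise (univ.filter fun l => ((E l : ℤ) : ZMod (2 * H)) = g)
    (fun l => ((E l : ℤ) : ZMod (4 * H)))]
  refine Finset.sum_eq_zero fun g' _ => ?_
  by_cases hne : ((univ.filter fun l => ((E l : ℤ) : ZMod (2 * H)) = g).filter
      fun l => ((E l : ℤ) : ZMod (4 * H)) = g').Nonempty
  · obtain ⟨l1, hl1⟩ := hne
    simp only [mem_filter, mem_univ, true_and] at hl1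
    have hset : ((univ.filter fun l => ((E l : ℤ) : ZMod (2 * H)) = g).filter
        fun l => ((E l : ℤ) : ZMod (4 * H)) = g') = clg (4 * H) E g' := by
      ext l
      simp only [mem_filter, mem_univ, true_and, mem_clg]
      constructor
      · exact fun h => h.2
      · intro h
        refine ⟨?_, h⟩
        rw [← hl1.1]
        exact lev_down (h.trans hl1.2.symm)
    rw [hset]
    by_contra hnz
    have hnz' : xg (4 * H) ζ E ((E l1 : ℤ) : ZMod (4 * H)) ≠ 0 := by
      rw [hl1.2]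
      exact hnz
    apply hg
    rw [← hl1.1]
    exact C.lies_over ha hnz'
  · rw [Finset.not_nonempty_iff_eq_empty] at hne
    rw [hne, Finset.sum_empty]

lemma clg_sub {a : ℤ} {g : ZMod (4 * H)} (hg : g = ((a : ℤ) : ZMod (4 * H)))  :
    clg (4 * H) E g ⊆ clg (2 * H) E ((a : ℤ) : ZMod (2 * H)) := by
  intro l hl
  rw [mem_clg] at hl ⊢
  exact lev_down (hl.trans hg)

/-- a class modulo `4 H` carrying the whole sum has at least four elements -/
lemma Ctx.card_single (C : Ctx H ζ E) {u : ZMod (4 * H)} (hu : xg (4 * H) ζ E u ≠ 0)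
    (honly : ∀ v, v ≠ u → xg (4 * H) ζ E v = 0) : 4 ≤ (clg (4 * H) E u).card := by
  classical
  have hζ0 := C.ne_zero
  have hξ := C.xi
  have hn := C.norm
  have h6 : xg (4 * H) ζ E u * xgb (4 * H) ζ E u = 6 := by
    have h := C.corr 0
    simp only [add_zero, if_true] at h
    rw [Finset.sum_eq_single u] at h
    · exact h
    · intro g _ hg
      rw [honly g hg, zero_mul]
    · intro hh
      exact absurd (mem_univ u) hh
  have hnorm : ‖xg (4 * H) ζ E u‖ ^ 2 = 6 := by
    rw [xgb_eq_conj hn, Complex.mul_conj, Complex.normSq_eq_norm_sq] at h6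
    exact_mod_cast h6
  have hnle : ‖xg (4 * H) ζ E u‖ ≤ (clg (4 * H) E u).card := by
    show ‖∑ l ∈ clg (4 * H) E u, ζ ^ (E l)‖ ≤ _
    refine (norm_sum_le _ _).trans ?_
    have : ∀ l ∈ clg (4 * H) E u, ‖ζ ^ (E l)‖ = 1 := by
      intro l _
      rw [norm_zpow, hn, one_zpow]
    rw [Finset.sum_congr rfl this]
    simp
  by_contra hlt
  push Not at hlt
  have hc3 : (clg (4 * H) E u).card = 3 := by
    by_contra hne
    have hle : (clg (4 * H) E u).card ≤ 2 := by omega
    have h1 : ‖xg (4 * H) ζ E u‖ ≤ 2 := hnle.trans (by exact_mod_cast hle)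
    have h2 : ‖xg (4 * H) ζ E u‖ ^ 2 ≤ 2 ^ 2 := pow_le_pow_left₀ (norm_nonneg _) h1 2
    rw [hnorm] at h2
    norm_num at h2
  obtain ⟨x, y, z, hxy, hxz, hyz, hA⟩ := Finset.card_eq_three.mp hc3
  have hxm : ((E x : ℤ) : ZMod (4 * H)) = u := mem_clg.mp (by rw [hA]; simp)
  have hym : ((E y : ℤ) : ZMod (4 * H)) = u := mem_clg.mp (by rw [hA]; simp)
  have hzm : ((E z : ℤ) : ZMod (4 * H)) = u := mem_clg.mp (by rw [hA]; simp)
  obtain ⟨a, ha⟩ := (lev_iff _ _).mp (hym.trans hxm.symm)
  obtain ⟨b, hb⟩ := (lev_iff _ _).mp (hzm.trans hxm.symm)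
  have ey : E y = E x + ((4 * H : ℕ) : ℤ) * a := by
    linear_combination ha
  have ez : E z = E x + ((4 * H : ℕ) : ℤ) * b := by
    linear_combination hb
  have hxs : xg (4 * H) ζ E u = ζ ^ (E x) * (1 + (ζ ^ (4 * H)) ^ (dgt60 a)
      + (ζ ^ (4 * H)) ^ (dgt60 b)) := by
    show ∑ l ∈ clg (4 * H) E u, ζ ^ (E l) = _
    rw [hA, Finset.sum_insert (by simp [hxy, hxz]), Finset.sum_insert (by simp [hyz]),
      Finset.sum_singleton, ey, ez, zpow_add₀ hζ0, zpow_add₀ hζ0, C.zeta_mul, C.zeta_mul,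
      xi60_d hξ a, xi60_d hξ b]
    ring
  have hxsb : xgb (4 * H) ζ E u = ζ ^ (-E x) * (1 + (ζ ^ (4 * H)) ^ (60 - dgt60 a)
      + (ζ ^ (4 * H)) ^ (60 - dgt60 b)) := by
    show ∑ l ∈ clg (4 * H) E u, ζ ^ (-E l) = _
    rw [hA, Finset.sum_insert (by simp [hxy, hxz]), Finset.sum_insert (by simp [hyz]),
      Finset.sum_singleton, ey, ez, neg_add, neg_add, zpow_add₀ hζ0, zpow_add₀ hζ0,
      ← mul_neg _ a, ← mul_neg _ b, C.zeta_mul, C.zeta_mul, xi60_d' hξ a,
      xi60_d' hξ b]
    ring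
  rw [hxs, hxsb] at h6
  have hcancel : ζ ^ (E x) * ζ ^ (-E x) = 1 := by
    rw [← zpow_add₀ hζ0, add_neg_cancel, zpow_zero]
  apply thr_ne60 hξ (dgt60_lt a) (dgt60_lt b)
  linear_combination h6 - (1 + (ζ ^ (4 * H)) ^ (dgt60 a) + (ζ ^ (4 * H)) ^ (dgt60 b)) *
    (1 + (ζ ^ (4 * H)) ^ (60 - dgt60 a) + (ζ ^ (4 * H)) ^ (60 - dgt60 b)) * hcancel

/-- the classification: one residue class modulo `2 * H` carries the sum, with at least four
elements -/
theorem Ctx.classify2 (C : Ctx H ζ E) :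
    ∃ g0 : ZMod (2 * H), (∀ g, g ≠ g0 → xg (2 * H) ζ E g = 0) ∧ 4 ≤ (clg (2 * H) E g0).card := by
  classical
  obtain ⟨u, hu⟩ := C.exists_ne
  obtain ⟨a, rfl⟩ := ZMod.intCast_surjective u
  refine ⟨((a : ℤ) : ZMod (2 * H)), fun g hg => C.vanish hu hg, ?_⟩
  by_cases hv : ∃ v : ZMod (4 * H), v ≠ ((a : ℤ) : ZMod (4 * H)) ∧ xg (4 * H) ζ E v ≠ 0
  · obtain ⟨v, hv1, hv2⟩ := hv
    obtain ⟨b, rfl⟩ := ZMod.intCast_surjective v
    have c1 := C.card_two hu
    have c2 := C.card_two hv2
    have hdis : Disjoint (clg (4 * H) E ((a : ℤ) : ZMod (4 * H)))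
        (clg (4 * H) E ((b : ℤ) : ZMod (4 * H))) := by
      rw [Finset.disjoint_left]
      intro l h1 h2
      exact hv1 ((mem_clg.mp h2).symm.trans (mem_clg.mp h1))
    have hsub : clg (4 * H) E ((a : ℤ) : ZMod (4 * H)) ∪ clg (4 * H) E ((b : ℤ) : ZMod (4 * H))
        ⊆ clg (2 * H) E ((a : ℤ) : ZMod (2 * H)) := by
      apply Finset.union_subset (clg_sub rfl)
      intro l hl
      rw [mem_clg] at hl ⊢
      rw [lev_down hl]
      exact C.lies_over hu hv2
    have := Finset.card_le_card hsub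
    rw [Finset.card_union_of_disjoint hdis] at this
    omega
  · push Not at hv
    have := C.card_single hu hv
    exact this.trans (Finset.card_le_card (clg_sub rfl))

/-- at most two residue classes modulo `2 * H` occur -/
theorem Ctx.two_levels2 (C : Ctx H ζ E) {g0 : ZMod (2 * H)} (h4 : 4 ≤ (clg (2 * H) E g0).card) :
    ∃ y : ZMod (2 * H), ∀ l, ((E l : ℤ) : ZMod (2 * H)) = g0 ∨ ((E l : ℤ) : ZMod (2 * H)) = y := by
  classical
  by_cases h : ∃ l1, ((E l1 : ℤ) : ZMod (2 * H)) ≠ g0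
  · obtain ⟨l1, hl1⟩ := h
    obtain ⟨k, hk, hke⟩ := C.two l1
    have hke' := lev_down hke
    refine ⟨((E l1 : ℤ) : ZMod (2 * H)), ?_⟩
    intro l
    by_contra hcon
    push Not at hcon
    have h1 : l ≠ l1 := by
      rintro rfl; exact hcon.2 rfl
    have h2 : l ≠ k := by
      rintro rfl; exact hcon.2 hke'
    have hsub : clg (2 * H) E g0 ⊆ univ \ {l, l1, k} := by
      intro m hm
      rw [mem_clg] at hm
      simp only [mem_sdiff, mem_univ, true_and, mem_insert, mem_singleton, not_or]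
      refine ⟨?_, ?_, ?_⟩
      · rintro rfl; exact hcon.1 hm
      · rintro rfl; exact hl1 hm
      · rintro rfl; exact hl1 (hke'.symm.trans hm)
    have hcard := Finset.card_le_card hsub
    rw [Finset.card_sdiff_of_subset (Finset.subset_univ _), Finset.card_univ, Fintype.card_fin,
      Finset.card_insert_of_notMem (by simp [h1, h2]),
      Finset.card_insert_of_notMem (by simp [hk.symm]), Finset.card_singleton] at hcard
    omega
  · push Not at h
    exact ⟨g0, fun l => Or.inl (h l)⟩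

end

/-- the coprimality condition -/
lemma coprime240 (s b c x : ℕ) : (1 + 60 * x).Coprime (240 * (2 ^ s * (3 ^ b * 5 ^ c))) := by
  have h2 : (1 + 60 * x).Coprime 2 := by
    rw [Nat.coprime_comm, Nat.Prime.coprime_iff_not_dvd Nat.prime_two]
    omega
  have h3 : (1 + 60 * x).Coprime 3 := by
    rw [Nat.coprime_comm, Nat.Prime.coprime_iff_not_dvd Nat.prime_three]
    omega
  have h5 : (1 + 60 * x).Coprime 5 := by
    rw [Nat.coprime_comm, Nat.Prime.coprime_iff_not_dvd Nat.prime_five]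
    omega
  have e : 240 * (2 ^ s * (3 ^ b * 5 ^ c)) = 2 ^ (s + 4) * (3 ^ (b + 1) * 5 ^ (c + 1)) := by ring
  rw [e]
  exact Nat.Coprime.mul_right (Nat.Coprime.pow_right _ h2)
    (Nat.Coprime.mul_right (Nat.Coprime.pow_right _ h3) (Nat.Coprime.pow_right _ h5))

instance (s b c : ℕ) : NeZero (2 ^ s * (3 ^ b * 5 ^ c)) := ⟨by positivity⟩

/-- the field of the parity statement -/
abbrev F2 : Type := AlgebraicClosure (ZMod 2)

/-- a root of the polynomial `X ^ 4 + X + 1` in characteristic 2 -/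
lemma exists_theta : ∃ θ : F2, θ ^ 4 = θ + 1 := by
  have hdeg : (Polynomial.X ^ 4 + Polynomial.X + 1 : Polynomial F2).degree ≠ 0 := by
    have h4 : (Polynomial.X ^ 4 + Polynomial.X + 1 : Polynomial F2).natDegree = 4 := by
      compute_degree!
    intro h0
    have h1 := Polynomial.natDegree_eq_of_degree_eq_some h0
    rw [h4] at h1
    exact absurd h1 (by norm_num)
  obtain ⟨θ, hθ⟩ := IsAlgClosed.exists_root _ hdeg
  refine ⟨θ, ?_⟩
  simp only [Polynomial.IsRoot.def, Polynomial.eval_add, Polynomial.eval_pow, Polynomial.eval_X,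
    Polynomial.eval_one] at hθ
  have h2 : (2 : F2) = 0 := by exact_mod_cast CharP.cast_eq_zero F2 2
  linear_combination hθ - (θ + 1) * h2

/-- the order of the powers of `τ` -/
lemma tau_order {θ τ : F2} (hθ : θ ^ 4 = θ + 1) (hτ : τ = θ ∨ τ = θ⁻¹) {w : ℤ} (h : τ ^ w = 1) :
    (15 : ℤ) ∣ w := by
  obtain ⟨h15, h3, h5, h0⟩ := theta_facts hθ
  have hord : orderOf θ = 15 := by
    apply orderOf_eq_of_pow_and_pow_div_prime (by norm_num) h15
    intro p hp hd
    have : p = 3 ∨ p = 5 := by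
      have hp2 : p ∣ 3 * 5 := by simpa using hd
      rcases (Nat.Prime.dvd_mul hp).mp hp2 with h | h
      · left; exact (Nat.prime_dvd_prime_iff_eq hp (by norm_num)).mp h
      · right; exact (Nat.prime_dvd_prime_iff_eq hp (by norm_num)).mp h
    rcases this with rfl | rfl
    · simpa using h5
    · simpa using h3
  have hp : IsPrimitiveRoot θ 15 := by
    rw [← hord]; exact IsPrimitiveRoot.orderOf θ
  rcases hτ with rfl | rfl
  · exact (hp.zpow_eq_one_iff_dvd w).mp h
  · exact (hp.inv.zpow_eq_one_iff_dvd w).mp h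

/-- the hypotheses of the classification from the unbiasedness to zero, with a statement on the
classes -/
theorem ctx_of (s b c : ℕ) {ζ : ℂ} {E : Fin 6 → ℤ}
    (hζ : IsPrimitiveRoot ζ (240 * (2 ^ s * (3 ^ b * 5 ^ c))))
    (hmu : (∑ l, ζ ^ (E l)) * (∑ l, ζ ^ (-E l)) = 6) : Ctx (2 ^ s * (3 ^ b * 5 ^ c)) ζ E := by
  classical
  obtain ⟨θ, hθ⟩ := exists_theta
  obtain ⟨τ, hτ, hsum⟩ := parity3 hθ hζ E hmu
  set H := 2 ^ s * (3 ^ b * 5 ^ c) with hH
  have hHpos : 0 < H := by rw [hH]; positivity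
  have hM : ((4 * H : ℕ) : ℤ) ≠ 0 := by
    have : 0 < 4 * H := by omega
    exact_mod_cast this.ne'
  have h2 : (2 : F2) = 0 := by exact_mod_cast CharP.cast_eq_zero F2 2
  refine ⟨hζ, coprime240 s b c, hmu, ?_, ?_⟩
  · intro l
    by_contra hall
    push Not at hall
    have hs := hsum (E l)
    have hset : Finset.univ.filter (fun k => ((4 * H : ℕ) : ℤ) ∣ E k - E l) = {l} := by
      ext k
      simp only [Finset.mem_filter, Finset.mem_univ, true_and, Finset.mem_singleton]
      constructor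
      · intro hd
        by_contra hne
        exact hall k hne ((lev_iff _ _).mpr hd)
      · rintro rfl
        simp
    rw [hset, Finset.sum_singleton, sub_self, Int.zero_ediv, zpow_zero] at hs
    exact one_ne_zero hs
  · intro x y hxy hy hA
    have hs := hsum (E x)
    have hset : Finset.univ.filter (fun k => ((4 * H : ℕ) : ℤ) ∣ E k - E x) = {x, y} := by
      ext k
      simp only [Finset.mem_filter, Finset.mem_univ, true_and, Finset.mem_insert,
        Finset.mem_singleton]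
      constructor
      · intro hd
        exact hA k ((lev_iff _ _).mpr hd)
      · rintro (rfl | rfl)
        · simp
        · exact (lev_iff _ _).mp hy
    rw [hset, Finset.sum_pair hxy, sub_self, Int.zero_ediv, zpow_zero] at hs
    have hw : τ ^ ((E y - E x) / ((4 * H : ℕ) : ℤ)) = 1 := by
      linear_combination hs - h2
    obtain ⟨w, hw'⟩ := tau_order hθ hτ hw
    obtain ⟨v, hv⟩ := (lev_iff _ _).mp hy
    refine ⟨w, ?_⟩
    rw [hv, Int.mul_ediv_cancel_left _ hM] at hw'
    rw [hv, hw']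
    ring

end Vale.Agent.Lib.P355
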