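import Mathlib

/-!
Definitions for statements about mutually unbiased bases in dimension six.  A family of vectors of
`ℂ^6` is given by a matrix `B : Fin 6 → Fin 6 → ℂ`, the vectors being the rows `B i`, and the
Hermitian inner product of `u` and `v` is `∑ k, u k * star (v k)`.
-/

namespace Vale.Agent.Lib.P355

/-- The rows of `B` are an orthonormal basis of `ℂ^6`. -/
def IsONB (B : Fin 6 → Fin 6 → ℂ) : Prop :=
  ∀ i j, ∑ k, B i k * star (B j k) = if i = j then 1 else 0

/-- The row bases `A` and `B` of `ℂ^6` are mutually unbiased: `|⟨a, b⟩|^2 = 1/6` for all rows. -/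
def MutuallyUnbiased (A B : Fin 6 → Fin 6 → ℂ) : Prop :=
  ∀ i j, ‖∑ k, A i k * star (B j k)‖ ^ 2 = 1 / 6

/-- The vector `v` is a unit complex number times `1/√6` times a vector of `n`-th roots of unity. -/
def IsButsonVector (n : ℕ) (v : Fin 6 → ℂ) : Prop :=
  ∃ c : ℂ, ‖c‖ = 1 ∧ ∀ k, ∃ z : ℂ, z ^ n = 1 ∧ v k = c * z / ((Real.sqrt 6 : ℝ) : ℂ)

/-- Every row of `B` is a unit complex number times `1/√6` times a vector of `n`-th roots of
unity. -/
def IsButsonType (n : ℕ) (B : Fin 6 → Fin 6 → ℂ) : Prop :=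
  ∀ i, IsButsonVector n (B i)

end Vale.Agent.Lib.P355
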