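import Mathlib
import Vale.Agent.Lib.P355.Cls2
import Vale.Agent.Lib.P355.Fn240

/-!
Normal form of the exponent tuples unbiased to zero: preliminaries on lists.
-/

namespace Vale.Agent.Lib.P355

open Finset C240

attribute [local irreducible] C240.Tb C240.OD C240.allN

/-- all tuples of the table -/
def Tl : List (List ℕ) := C240.Tb.flatten

/-- the normal form of an exponent tuple -/
def NF (E : Fin 6 → ℤ) : Prop :=
  ∃ c : ℤ, ∃ e ∈ Tl, (tL240 fun l => dgt240 (E l - c)).Perm (e.drop 4)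

lemma mem_lkp {b : ℕ} {e : List ℕ} (h : e ∈ lkp b) : e ∈ Tl := by
  unfold lkp at h
  unfold Tl
  rw [List.mem_flatten]
  refine ⟨Tb.getD b [], ?_, h⟩
  by_cases hb : b < Tb.length
  · rw [List.getD_eq_getElem _ _ hb]
    exact List.getElem_mem hb
  · rw [List.getD_eq_default _ _ (by omega)] at h
    cases h

lemma inT_sound {l : List ℕ} (h : inT l = true) : ∃ e ∈ Tl, e.drop 4 = l := by
  unfold inT at h
  obtain ⟨e, he, hd⟩ := List.any_eq_true.mp h
  exact ⟨e, mem_lkp he, of_decide_eq_true hd⟩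

lemma zS_nil (ζ : ℂ) : zS ζ [] = 0 := by simp [zS]
lemma zN_nil (ζ : ℂ) : zN ζ [] = 0 := by simp [zN]
lemma zS_cons (ζ : ℂ) (a : ℕ) (l : List ℕ) : zS ζ (a :: l) = ζ ^ a + zS ζ l := by simp [zS]
lemma zN_cons (ζ : ℂ) (a : ℕ) (l : List ℕ) : zN ζ (a :: l) = ζ ^ (240 - a) + zN ζ l := by simp [zN]
lemma zS_append (ζ : ℂ) (L M : List ℕ) : zS ζ (L ++ M) = zS ζ L + zS ζ M := by simp [zS]
lemma zN_append (ζ : ℂ) (L M : List ℕ) : zN ζ (L ++ M) = zN ζ L + zN ζ M := by simp [zN]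
lemma zS_perm (ζ : ℂ) {L M : List ℕ} (h : L.Perm M) : zS ζ L = zS ζ M := (h.map _).sum_eq
lemma zN_perm (ζ : ℂ) {L M : List ℕ} (h : L.Perm M) : zN ζ L = zN ζ M := (h.map _).sum_eq

/-- a row passing the test is, after sorting, a tuple of the table -/
theorem row_end {ζ : ℂ} (hζ : IsPrimitiveRoot ζ 240) {R row : List ℕ} (hp : R.Perm row)
    (hR : zS ζ R * zN ζ R = 6) (hc : chkRow row = true) : ∃ e ∈ Tl, R.Perm (e.drop 4) := by
  have h1 : zS ζ row * zN ζ row = 6 := by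
    rw [← zS_perm ζ hp, ← zN_perm ζ hp]; exact hR
  have h2 := bridge_one hζ h1
  unfold chkRow at hc
  have h3 := okB_of hc h2
  obtain ⟨e, he, hd⟩ := inT_sound h3
  refine ⟨e, he, ?_⟩
  rw [hd]
  exact hp.trans (List.perm_insertionSort _ _).symm

/-- the sum over the list of a tuple -/
lemma zS_tL (ζ : ℂ) (D : Fin 6 → ℕ) : zS ζ (tL240 D) = ∑ l, ζ ^ D l := by
  simp only [zS, tL240, List.map_cons, List.map_nil, List.sum_cons, List.sum_nil, Fin.sum_univ_six]
  ring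

lemma zN_tL (ζ : ℂ) (D : Fin 6 → ℕ) : zN ζ (tL240 D) = ∑ l, ζ ^ (240 - D l) := by
  simp only [zN, tL240, List.map_cons, List.map_nil, List.sum_cons, List.sum_nil, Fin.sum_univ_six]
  ring

/-- the relation for the shifted tuple -/
lemma rel_shift {ζ : ℂ} (hζ : IsPrimitiveRoot ζ 240) {E : Fin 6 → ℤ}
    (hmu : (∑ l, ζ ^ (E l)) * (∑ l, ζ ^ (-E l)) = 6) (c : ℤ) :
    zS ζ (tL240 fun l => dgt240 (E l - c)) * zN ζ (tL240 fun l => dgt240 (E l - c)) = 6 := by
  have h240 := hζ.pow_eq_one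
  have hζ0 : ζ ≠ 0 := hζ.ne_zero (by norm_num)
  have h1 : ∀ l, ζ ^ dgt240 (E l - c) = ζ ^ (-c) * ζ ^ (E l) := by
    intro l
    rw [← zpow_natCast, ← zpow_add₀ hζ0]
    apply zpow_congr240 h240
    have := dgt240_cast (E l - c)
    omega
  have h2 : ∀ l, ζ ^ (240 - dgt240 (E l - c)) = ζ ^ c * ζ ^ (-E l) := by
    intro l
    rw [← zpow_natCast, ← zpow_add₀ hζ0]
    apply zpow_congr240 h240
    have h3 := dgt240_cast (E l - c)
    have h4 := dgt240_lt (E l - c)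
    rw [Nat.cast_sub (by omega)]
    push_cast
    omega
  rw [zS_tL, zN_tL]
  simp only [h1, h2]
  rw [← Finset.mul_sum, ← Finset.mul_sum]
  calc ζ ^ (-c) * (∑ l, ζ ^ E l) * (ζ ^ c * ∑ l, ζ ^ (-E l))
      = (ζ ^ (-c) * ζ ^ c) * ((∑ l, ζ ^ E l) * ∑ l, ζ ^ (-E l)) := by ring
    _ = 6 := by
      rw [hmu, ← zpow_add₀ hζ0, neg_add_cancel, zpow_zero, one_mul]

/-- the relation at any other primitive root of unity -/
lemma twist_rel {ζ : ℂ} (hζ : IsPrimitiveRoot ζ 240) {κ : ℕ} (hκ : κ.Coprime 240) {L : List ℕ}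
    (h : zS ζ L * zN ζ L = 6) : zS (ζ ^ κ) L * zN (ζ ^ κ) L = 6 := by
  have hz := hζ.pow_of_coprime κ hκ
  have hdvd : Polynomial.cyclotomic 240 ℤ ∣ pS L * pN L - 6 := by
    rw [Polynomial.cyclotomic_eq_minpoly hζ (by norm_num)]
    apply minpoly.isIntegrallyClosed_dvd (hζ.isIntegral (by norm_num))
    have h66 : (6 : Polynomial ℤ) = Polynomial.C 6 := rfl
    rw [h66, map_sub, map_mul, aeval_pS, aeval_pN, h, Polynomial.aeval_C]
    norm_num
  obtain ⟨G, hG⟩ := hdvd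
  have h2 : Polynomial.aeval (ζ ^ κ) (pS L * pN L - 6) = 0 := by
    rw [hG, map_mul, Polynomial.cyclotomic_eq_minpoly hz (by norm_num), minpoly.aeval, zero_mul]
  have h66 : (6 : Polynomial ℤ) = Polynomial.C 6 := rfl
  rw [h66, map_sub, map_mul, aeval_pS, aeval_pN, Polynomial.aeval_C] at h2
  have h3 : (algebraMap ℤ ℂ) 6 = 6 := by norm_num
  rw [h3] at h2
  exact sub_eq_zero.mp h2

lemma tw_pow0 {ζ : ℂ} (h240 : ζ ^ 240 = 1) {m y : ℕ} (h : (m * y) % 240 = 0) :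
    (ζ ^ (1 + m)) ^ y = ζ ^ y := by
  obtain ⟨k, hk⟩ := Nat.dvd_of_mod_eq_zero h
  rw [← pow_mul, add_mul, one_mul, pow_add, hk, pow_mul, h240, one_pow, mul_one]

lemma zeta_120 {ζ : ℂ} (hζ : IsPrimitiveRoot ζ 240) : ζ ^ 120 = -1 := by
  have h1 : (ζ ^ 120 - 1) * (ζ ^ 120 + 1) = 0 := by
    have := hζ.pow_eq_one
    linear_combination this
  have h2 : ζ ^ 120 ≠ 1 := hζ.pow_ne_one_of_pos_of_lt (by norm_num) (by norm_num)
  rcases mul_eq_zero.mp h1 with h | h
  · exact absurd (sub_eq_zero.mp h) h2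
  · linear_combination h

lemma tw_pow1 {ζ : ℂ} (hζ : IsPrimitiveRoot ζ 240) {m y : ℕ} (h : (m * y) % 240 = 120) :
    (ζ ^ (1 + m)) ^ y = -ζ ^ y := by
  have hd : m * y = 120 + 240 * (m * y / 240) := by omega
  rw [← pow_mul, add_mul, one_mul, pow_add, hd, pow_add, pow_mul, hζ.pow_eq_one, one_pow,
    zeta_120 hζ]
  ring

lemma zS_eq {ζ ζ' : ℂ} {L : List ℕ} (h : ∀ x ∈ L, ζ' ^ x = ζ ^ x) : zS ζ' L = zS ζ L := by
  unfold zS
  rw [List.map_congr_left h]

lemma zN_eq {ζ ζ' : ℂ} {L : List ℕ} (h : ∀ x ∈ L, ζ' ^ (240 - x) = ζ ^ (240 - x)) :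
    zN ζ' L = zN ζ L := by
  unfold zN
  rw [List.map_congr_left h]

lemma zS_neg {ζ ζ' : ℂ} {L : List ℕ} (h : ∀ x ∈ L, ζ' ^ x = -ζ ^ x) : zS ζ' L = -zS ζ L := by
  induction L with
  | nil => simp [zS_nil]
  | cons a l ih =>
    rw [zS_cons, zS_cons, h a List.mem_cons_self, ih fun x hx => h x (List.mem_cons_of_mem _ hx)]
    ring

lemma zN_neg {ζ ζ' : ℂ} {L : List ℕ} (h : ∀ x ∈ L, ζ' ^ (240 - x) = -ζ ^ (240 - x)) :
    zN ζ' L = -zN ζ L := by
  induction L with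
  | nil => simp [zN_nil]
  | cons a l ih =>
    rw [zN_cons, zN_cons, h a List.mem_cons_self, ih fun x hx => h x (List.mem_cons_of_mem _ hx)]
    ring

lemma split_core {ζ ζ' : ℂ} {L M : List ℕ}
    (h1 : ∀ x ∈ L, ζ' ^ x = ζ ^ x ∧ ζ' ^ (240 - x) = ζ ^ (240 - x))
    (h2 : ∀ x ∈ M, ζ' ^ x = -ζ ^ x ∧ ζ' ^ (240 - x) = -ζ ^ (240 - x))
    (h : zS ζ (L ++ M) * zN ζ (L ++ M) = 6) (h' : zS ζ' (L ++ M) * zN ζ' (L ++ M) = 6) :
    zS ζ L * zN ζ L + zS ζ M * zN ζ M = 6 := by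
  rw [zS_append, zN_append] at h h'
  rw [zS_eq (fun x hx => (h1 x hx).1), zN_eq (fun x hx => (h1 x hx).2),
    zS_neg (fun x hx => (h2 x hx).1), zN_neg (fun x hx => (h2 x hx).2)] at h'
  linear_combination (1 / 2) * h + (1 / 2) * h'

/-- The data of a tuple split into two blocks by residues modulo `a`. -/
structure Blk (ζ : ℂ) (R L M : List ℕ) (a b : ℕ) : Prop where
  perm : R.Perm (L ++ M)
  rel : zS ζ R * zN ζ R = 6
  rel2 : zS ζ L * zN ζ L + zS ζ M * zN ζ M = 6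
  hL : ∀ x ∈ L, x < 240 ∧ x % a = 0
  hM : ∀ x ∈ M, x < 240 ∧ x % a = b
  zero : 0 ∈ L

lemma mem_tL {D : Fin 6 → ℕ} {x : ℕ} (h : x ∈ tL240 D) : ∃ l, D l = x := by
  simp only [tL240, List.mem_cons, List.not_mem_nil, or_false] at h
  rcases h with h | h | h | h | h | h
  · exact ⟨0, h.symm⟩
  · exact ⟨1, h.symm⟩
  · exact ⟨2, h.symm⟩
  · exact ⟨3, h.symm⟩
  · exact ⟨4, h.symm⟩
  · exact ⟨5, h.symm⟩

lemma tL_mem (D : Fin 6 → ℕ) (l : Fin 6) : D l ∈ tL240 D := by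
  simp only [tL240, List.mem_cons, List.not_mem_nil, or_false]
  fin_cases l <;> simp

lemma len_filter (D : Fin 6 → ℕ) (p : ℕ → Prop) [DecidablePred p] :
    ((tL240 D).filter fun x => decide (p x)).length = (univ.filter fun l => p (D l)).card := by
  rw [Finset.card_filter, Fin.sum_univ_six, ← List.countP_eq_length_filter]
  simp only [tL240, List.countP_cons, List.countP_nil, decide_eq_true_eq]
  omega

/-- the sum of a function of the entries of a class over a list -/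
lemma sum_filter_list {F : Type*} [AddCommMonoid F] (L : List ℕ) (p : ℕ → Prop) [DecidablePred p]
    (f : ℕ → F) :
    ((L.filter fun x => decide (p x)).map f).sum = (L.map fun x => if p x then f x else 0).sum := by
  induction L with
  | nil => simp
  | cons a l ih =>
    by_cases h : p a
    · simp [List.filter_cons, h, ih]
    · simp [List.filter_cons, h, ih]

/-- the sum of a function of the entries of a class over a list as a sum over the indices -/
lemma sum_filter_tL {F : Type*} [AddCommMonoid F] (D : Fin 6 → ℕ) (p : ℕ → Prop) [DecidablePred p]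
    (f : ℕ → F) :
    (((tL240 D).filter fun x => decide (p x)).map f).sum = ∑ l ∈ univ.filter (fun l => p (D l)), f (D l) := by
  rw [sum_filter_list, Finset.sum_filter, Fin.sum_univ_six]
  simp only [tL240, List.map_cons, List.map_nil, List.sum_cons, List.sum_nil, add_zero, add_assoc]

/-- the split of a tuple into two blocks -/
theorem mkBlk {ζ : ℂ} (hζ : IsPrimitiveRoot ζ 240) {D : Fin 6 → ℕ} {a b m : ℕ}
    (hrel : zS ζ (tL240 D) * zN ζ (tL240 D) = 6)
    (hlt : ∀ l, D l < 240) (hcl : ∀ l, D l % a = 0 ∨ D l % a = b) (hz : ∃ l, D l = 0)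
    (ha0 : 0 % a = 0)
    (hco : (1 + m).Coprime 240)
    (h0 : ∀ x, x < 240 → x % a = 0 → (m * x) % 240 = 0 ∧ (m * (240 - x)) % 240 = 0)
    (h1 : ∀ x, x < 240 → x % a = b → (m * x) % 240 = 120 ∧ (m * (240 - x)) % 240 = 120) :
    Blk ζ (tL240 D) ((tL240 D).filter fun x => decide (x % a = 0))
      ((tL240 D).filter fun x => decide (¬ x % a = 0)) a b := by
  have hperm : (tL240 D).Perm (((tL240 D).filter fun x => decide (x % a = 0)) ++
      ((tL240 D).filter fun x => decide (¬ x % a = 0))) := by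
    have := List.filter_append_perm (fun x => decide (x % a = 0)) (tL240 D)
    simpa using this.symm
  have hL : ∀ x ∈ (tL240 D).filter (fun x => decide (x % a = 0)), x < 240 ∧ x % a = 0 := by
    intro x hx
    obtain ⟨h2, h3⟩ := List.mem_filter.mp hx
    obtain ⟨l, rfl⟩ := mem_tL h2
    exact ⟨hlt l, of_decide_eq_true h3⟩
  have hM : ∀ x ∈ (tL240 D).filter (fun x => decide (¬ x % a = 0)), x < 240 ∧ x % a = b := by
    intro x hx
    obtain ⟨h2, h3⟩ := List.mem_filter.mp hx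
    obtain ⟨l, rfl⟩ := mem_tL h2
    have h4 : ¬ D l % a = 0 := of_decide_eq_true h3
    exact ⟨hlt l, (hcl l).resolve_left h4⟩
  refine ⟨hperm, hrel, ?_, hL, hM, ?_⟩
  · have hr : zS ζ (((tL240 D).filter fun x => decide (x % a = 0)) ++
      ((tL240 D).filter fun x => decide (¬ x % a = 0))) * zN ζ (((tL240 D).filter fun x => decide (x % a = 0)) ++
      ((tL240 D).filter fun x => decide (¬ x % a = 0))) = 6 := by
      rw [← zS_perm ζ hperm, ← zN_perm ζ hperm]; exact hrel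
    refine split_core (ζ' := ζ ^ (1 + m)) ?_ ?_ hr (twist_rel hζ hco hr)
    · intro x hx
      obtain ⟨h2, h3⟩ := hL x hx
      exact ⟨tw_pow0 hζ.pow_eq_one (h0 x h2 h3).1, tw_pow0 hζ.pow_eq_one (h0 x h2 h3).2⟩
    · intro x hx
      obtain ⟨h2, h3⟩ := hM x hx
      exact ⟨tw_pow1 hζ (h1 x h2 h3).1, tw_pow1 hζ (h1 x h2 h3).2⟩
  · obtain ⟨l, hl⟩ := hz
    refine List.mem_filter.mpr ⟨?_, ?_⟩
    · rw [← hl]; exact tL_mem D l
    · exact decide_eq_true ha0

/-- sorted forms -/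
lemma srt_perm (L : List ℕ) : (srt L).Perm L := List.perm_insertionSort _ _
lemma srt_pw (L : List ℕ) : (srt L).Pairwise (· ≤ ·) := List.pairwise_insertionSort _ _

lemma len_succ {α : Type*} {n : ℕ} {l : List α} (h : l.length = n + 1) :
    ∃ a t, l = a :: t ∧ t.length = n := by
  cases l with
  | nil => simp at h
  | cons a t => exact ⟨a, t, rfl, by simpa using h⟩

lemma len1 {α : Type*} {l : List α} (h : l.length = 1) : ∃ a, l = [a] := by
  obtain ⟨a, t, rfl, h'⟩ := len_succ h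
  rw [List.length_eq_zero_iff] at h'
  exact ⟨a, by rw [h']⟩

lemma len2 {α : Type*} {l : List α} (h : l.length = 2) : ∃ a b, l = [a, b] := by
  obtain ⟨a, t, rfl, h'⟩ := len_succ h
  obtain ⟨b, rfl⟩ := len1 h'
  exact ⟨a, b, rfl⟩

lemma len3 {α : Type*} {l : List α} (h : l.length = 3) : ∃ a b c, l = [a, b, c] := by
  obtain ⟨a, t, rfl, h'⟩ := len_succ h
  obtain ⟨b, c, rfl⟩ := len2 h'
  exact ⟨a, b, c, rfl⟩

lemma len4 {α : Type*} {l : List α} (h : l.length = 4) : ∃ a b c d, l = [a, b, c, d] := by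
  obtain ⟨a, t, rfl, h'⟩ := len_succ h
  obtain ⟨b, c, d, rfl⟩ := len3 h'
  exact ⟨a, b, c, d, rfl⟩

lemma len5 {α : Type*} {l : List α} (h : l.length = 5) : ∃ a b c d e, l = [a, b, c, d, e] := by
  obtain ⟨a, t, rfl, h'⟩ := len_succ h
  obtain ⟨b, c, d, e, rfl⟩ := len4 h'
  exact ⟨a, b, c, d, e, rfl⟩

lemma len6 {α : Type*} {l : List α} (h : l.length = 6) : ∃ a b c d e f, l = [a, b, c, d, e, f] := by
  obtain ⟨a, t, rfl, h'⟩ := len_succ h
  obtain ⟨b, c, d, e, f, rfl⟩ := len5 h'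
  exact ⟨a, b, c, d, e, f, rfl⟩

lemma shift_zS (ζ : ℂ) (y : ℕ) (us : List ℕ) :
    zS ζ (us.map (fun u => y + u)) = ζ ^ y * zS ζ us := by
  induction us with
  | nil => simp [zS_nil]
  | cons a l ih =>
    simp only [List.map_cons]
    rw [zS_cons, zS_cons, ih, pow_add]
    ring

lemma shift_zN (ζ : ℂ) (y : ℕ) (us : List ℕ) (hu : ∀ u ∈ us, y + u ≤ 240) :
    zN ζ (us.map (fun u => y + u)) * ζ ^ y = zN ζ us := by
  induction us with
  | nil => simp [zN_nil]
  | cons a l ih =>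
    simp only [List.map_cons]
    rw [zN_cons, zN_cons, add_mul, ih fun x hx => hu x (List.mem_cons_of_mem _ hx), ← pow_add]
    have h1 := hu a List.mem_cons_self
    have : 240 - (y + a) + y = 240 - a := by omega
    rw [this]

/-- the shift of a block -/
lemma shift_rel (ζ : ℂ) (y : ℕ) (us : List ℕ) (hu : ∀ u ∈ us, y + u ≤ 240) :
    zS ζ (us.map (fun u => y + u)) * zN ζ (us.map (fun u => y + u)) = zS ζ us * zN ζ us := by
  rw [shift_zS, ← shift_zN ζ y us hu]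
  ring

end Vale.Agent.Lib.P355
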