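import Mathlib
import Vale.Agent.Lib.P355.NF0
import Vale.Agent.Lib.P355.ChkN1
import Vale.Agent.Lib.P355.ChkN2
import Vale.Agent.Lib.P355.ChkN3

/-!
Normal form of the exponent tuples unbiased to zero: the cases of the split into two blocks.
-/

namespace Vale.Agent.Lib.P355

open Finset C240

attribute [local irreducible] C240.Tb C240.OD C240.allN C240.chkRow

section

variable {ζ : ℂ} {R L M : List ℕ} {a b : ℕ}

lemma Blk.rel_sort (B : Blk ζ R L M a b) {X Y : List ℕ} (hX : X.Perm L) (hY : Y.Perm M) :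
    zS ζ X * zN ζ X + zS ζ Y * zN ζ Y = 6 := by
  rw [zS_perm ζ hX, zN_perm ζ hX, zS_perm ζ hY, zN_perm ζ hY]
  exact B.rel2

lemma shift1 (ζ : ℂ) {y : ℕ} (hy : y ≤ 240) : zS ζ [y] * zN ζ [y] = zS ζ [0] * zN ζ [0] := by
  simpa using shift_rel ζ y [0] (by simpa using hy)

lemma shift2 (ζ : ℂ) {y u : ℕ} (hy : y + u ≤ 240) :
    zS ζ [y, y + u] * zN ζ [y, y + u] = zS ζ [0, u] * zN ζ [0, u] := by
  simpa using shift_rel ζ y [0, u] (by simp; omega)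

lemma shift3 (ζ : ℂ) {y u v : ℕ} (hu : y + u ≤ 240) (hv : y + v ≤ 240) :
    zS ζ [y, y + u, y + v] * zN ζ [y, y + u, y + v] = zS ζ [0, u, v] * zN ζ [0, u, v] := by
  simpa using shift_rel ζ y [0, u, v] (by simp; omega)

/-- six entries multiples of 8 -/
theorem Blk.c1 (hζ : IsPrimitiveRoot ζ 240) (B : Blk ζ R L M 8 4) (h1 : L.length = 6)
    (h2 : M.length = 0) : ∃ e ∈ Tl, R.Perm (e.drop 4) := by
  have hXp := srt_perm L
  have hXs := srt_pw L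
  obtain ⟨x0, x1, x2, x3, x4, x5, hX⟩ := len6 (l := srt L) (by rw [hXp.length_eq]; exact h1)
  rw [hX] at hXp hXs
  have hm : ∀ x ∈ [x0, x1, x2, x3, x4, x5], x < 240 ∧ x % 8 = 0 := fun x hx => B.hL x (hXp.subset hx)
  have h0 : 0 ∈ [x0, x1, x2, x3, x4, x5] := hXp.symm.subset B.zero
  simp at hm h0 hXs
  obtain rfl : x0 = 0 := by omega
  obtain ⟨b, rfl⟩ : ∃ b, x1 = 8 * b := ⟨x1 / 8, by omega⟩
  obtain ⟨c, rfl⟩ : ∃ c, x2 = 8 * c := ⟨x2 / 8, by omega⟩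
  obtain ⟨d, rfl⟩ : ∃ d, x3 = 8 * d := ⟨x3 / 8, by omega⟩
  obtain ⟨e, rfl⟩ : ∃ e, x4 = 8 * e := ⟨x4 / 8, by omega⟩
  obtain ⟨f, rfl⟩ : ∃ f, x5 = 8 * f := ⟨x5 / 8, by omega⟩
  have a1 : c1e f = true := nf1_all _ (by omega)
  have a2 : c1d e f = true := allN_lt (f := fun e => c1d e f) a1 (by omega)
  have a3 : c1c d e f = true := allN_lt (f := fun d => c1c d e f) a2 (by omega)
  have a4 : c1b c d e f = true := allN_lt (f := fun c => c1b c d e f) a3 (by omega)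
  have a5 : chkRow [0, 8 * b, 8 * c, 8 * d, 8 * e, 8 * f] = true :=
    allN_lt (f := fun b => chkRow [0, 8 * b, 8 * c, 8 * d, 8 * e, 8 * f]) a4 (by omega)
  rw [List.length_eq_zero_iff] at h2
  subst h2
  have hp := B.perm
  rw [List.append_nil] at hp
  exact row_end hζ (hp.trans hXp.symm) B.rel a5

/-- five entries multiples of 8, one more -/
theorem Blk.c2 (hζ : IsPrimitiveRoot ζ 240) (B : Blk ζ R L M 8 4) (h1 : L.length = 5)
    (h2 : M.length = 1) : ∃ e ∈ Tl, R.Perm (e.drop 4) := by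
  have hXp := srt_perm L
  have hXs := srt_pw L
  have hYp := srt_perm M
  obtain ⟨x0, x1, x2, x3, x4, hX⟩ := len5 (l := srt L) (by rw [hXp.length_eq]; exact h1)
  obtain ⟨y0, hY⟩ := len1 (l := srt M) (by rw [hYp.length_eq]; exact h2)
  rw [hX] at hXp hXs
  rw [hY] at hYp
  have hm : ∀ x ∈ [x0, x1, x2, x3, x4], x < 240 ∧ x % 8 = 0 := fun x hx => B.hL x (hXp.subset hx)
  have hn : ∀ x ∈ [y0], x < 240 ∧ x % 8 = 4 := fun x hx => B.hM x (hYp.subset hx)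
  have h0 : 0 ∈ [x0, x1, x2, x3, x4] := hXp.symm.subset B.zero
  have hrel := B.rel_sort hXp hYp
  simp at hm hn h0 hXs
  obtain rfl : x0 = 0 := by omega
  obtain ⟨b, rfl⟩ : ∃ b, x1 = 8 * b := ⟨x1 / 8, by omega⟩
  obtain ⟨c, rfl⟩ : ∃ c, x2 = 8 * c := ⟨x2 / 8, by omega⟩
  obtain ⟨d, rfl⟩ : ∃ d, x3 = 8 * d := ⟨x3 / 8, by omega⟩
  obtain ⟨e, rfl⟩ : ∃ e, x4 = 8 * e := ⟨x4 / 8, by omega⟩
  obtain ⟨x, rfl⟩ : ∃ x, y0 = 4 + 8 * x := ⟨y0 / 8, by omega⟩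
  rw [shift1 ζ (by omega)] at hrel
  have hs := bridge_two hζ hrel
  have a1 : c2d e = true := nf2_all _ (by omega)
  have a2 : c2c d e = true := allN_lt (f := fun d => c2c d e) a1 (by omega)
  have a3 : c2b c d e = true := allN_lt (f := fun c => c2b c d e) a2 (by omega)
  have a4 : c2x b c d e = true := allN_lt (f := fun b => c2x b c d e) a3 (by omega)
  have a5 := okB_of a4 hs
  have a6 : chkRow [0, 8 * b, 8 * c, 8 * d, 8 * e, 4 + 8 * x] = true :=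
    allN_lt (f := fun x => chkRow [0, 8 * b, 8 * c, 8 * d, 8 * e, 4 + 8 * x]) a5 (by omega)
  exact row_end hζ (B.perm.trans (hXp.symm.append hYp.symm)) B.rel a6

/-- four entries multiples of 8, two more -/
theorem Blk.c3 (hζ : IsPrimitiveRoot ζ 240) (B : Blk ζ R L M 8 4) (h1 : L.length = 4)
    (h2 : M.length = 2) : ∃ e ∈ Tl, R.Perm (e.drop 4) := by
  have hXp := srt_perm L
  have hXs := srt_pw L
  have hYp := srt_perm M
  have hYs := srt_pw M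
  obtain ⟨x0, x1, x2, x3, hX⟩ := len4 (l := srt L) (by rw [hXp.length_eq]; exact h1)
  obtain ⟨y0, y1, hY⟩ := len2 (l := srt M) (by rw [hYp.length_eq]; exact h2)
  rw [hX] at hXp hXs
  rw [hY] at hYp hYs
  have hm : ∀ x ∈ [x0, x1, x2, x3], x < 240 ∧ x % 8 = 0 := fun x hx => B.hL x (hXp.subset hx)
  have hn : ∀ x ∈ [y0, y1], x < 240 ∧ x % 8 = 4 := fun x hx => B.hM x (hYp.subset hx)
  have h0 : 0 ∈ [x0, x1, x2, x3] := hXp.symm.subset B.zero
  have hrel := B.rel_sort hXp hYp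
  simp at hm hn h0 hXs hYs
  obtain rfl : x0 = 0 := by omega
  obtain ⟨b, rfl⟩ : ∃ b, x1 = 8 * b := ⟨x1 / 8, by omega⟩
  obtain ⟨c, rfl⟩ : ∃ c, x2 = 8 * c := ⟨x2 / 8, by omega⟩
  obtain ⟨d, rfl⟩ : ∃ d, x3 = 8 * d := ⟨x3 / 8, by omega⟩
  obtain ⟨x, rfl⟩ : ∃ x, y0 = 4 + 8 * x := ⟨y0 / 8, by omega⟩
  obtain ⟨g, rfl⟩ : ∃ g, y1 = 4 + 8 * x + 8 * g := ⟨(y1 - (4 + 8 * x)) / 8, by omega⟩
  rw [shift2 ζ (by omega)] at hrel
  have hs := bridge_two hζ hrel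
  have a1 : c3c d = true := nf3_all _ (by omega)
  have a2 : c3b c d = true := allN_lt (f := fun c => c3b c d) a1 (by omega)
  have a3 : c3g b c d = true := allN_lt (f := fun b => c3g b c d) a2 (by omega)
  have a4 : c3x b c d g = true := allN_lt (f := fun g => c3x b c d g) a3 (by omega)
  have a5 := okB_of a4 hs
  have a6 : chkRow [0, 8 * b, 8 * c, 8 * d, 4 + 8 * x, (4 + 8 * x + 8 * g) % 240] = true :=
    allN_lt (f := fun x => chkRow [0, 8 * b, 8 * c, 8 * d, 4 + 8 * x, (4 + 8 * x + 8 * g) % 240]) a5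
      (by omega)
  rw [Nat.mod_eq_of_lt (by omega)] at a6
  exact row_end hζ (B.perm.trans (hXp.symm.append hYp.symm)) B.rel a6

/-- three entries multiples of 8, three more -/
theorem Blk.c4 (hζ : IsPrimitiveRoot ζ 240) (B : Blk ζ R L M 8 4) (h1 : L.length = 3)
    (h2 : M.length = 3) : ∃ e ∈ Tl, R.Perm (e.drop 4) := by
  have hXp := srt_perm L
  have hXs := srt_pw L
  have hYp := srt_perm M
  have hYs := srt_pw M
  obtain ⟨x0, x1, x2, hX⟩ := len3 (l := srt L) (by rw [hXp.length_eq]; exact h1)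
  obtain ⟨y0, y1, y2, hY⟩ := len3 (l := srt M) (by rw [hYp.length_eq]; exact h2)
  rw [hX] at hXp hXs
  rw [hY] at hYp hYs
  have hm : ∀ x ∈ [x0, x1, x2], x < 240 ∧ x % 8 = 0 := fun x hx => B.hL x (hXp.subset hx)
  have hn : ∀ x ∈ [y0, y1, y2], x < 240 ∧ x % 8 = 4 := fun x hx => B.hM x (hYp.subset hx)
  have h0 : 0 ∈ [x0, x1, x2] := hXp.symm.subset B.zero
  have hrel := B.rel_sort hXp hYp
  simp at hm hn h0 hXs hYs
  obtain rfl : x0 = 0 := by omega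
  obtain ⟨b, rfl⟩ : ∃ b, x1 = 8 * b := ⟨x1 / 8, by omega⟩
  obtain ⟨c, rfl⟩ : ∃ c, x2 = 8 * c := ⟨x2 / 8, by omega⟩
  obtain ⟨x, rfl⟩ : ∃ x, y0 = 4 + 8 * x := ⟨y0 / 8, by omega⟩
  obtain ⟨g, rfl⟩ : ∃ g, y1 = 4 + 8 * x + 8 * g := ⟨(y1 - (4 + 8 * x)) / 8, by omega⟩
  obtain ⟨h, rfl⟩ : ∃ h, y2 = 4 + 8 * x + 8 * h := ⟨(y2 - (4 + 8 * x)) / 8, by omega⟩
  rw [shift3 ζ (by omega) (by omega)] at hrel
  have hs := bridge_two hζ hrel
  have a1 : c4b c = true := nf4_all _ (by omega)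
  have a2 : c4h b c = true := allN_lt (f := fun b => c4h b c) a1 (by omega)
  have a3 : c4g b c h = true := allN_lt (f := fun h => c4g b c h) a2 (by omega)
  have a4 : c4x b c g h = true := allN_lt (f := fun g => c4x b c g h) a3 (by omega)
  have a5 := okB_of a4 hs
  have a6 : chkRow [0, 8 * b, 8 * c, 4 + 8 * x, (4 + 8 * x + 8 * g) % 240,
      (4 + 8 * x + 8 * h) % 240] = true :=
    allN_lt (f := fun x => chkRow [0, 8 * b, 8 * c, 4 + 8 * x, (4 + 8 * x + 8 * g) % 240,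
      (4 + 8 * x + 8 * h) % 240]) a5 (by omega)
  rw [Nat.mod_eq_of_lt (by omega), Nat.mod_eq_of_lt (by omega)] at a6
  exact row_end hζ (B.perm.trans (hXp.symm.append hYp.symm)) B.rel a6

/-- four entries multiples of 4, two more at a distance a multiple of 60 -/
theorem Blk.c5 (hζ : IsPrimitiveRoot ζ 240) (B : Blk ζ R L M 4 2) (h1 : L.length = 4)
    (h2 : M.length = 2) (h60 : ∀ u ∈ M, ∀ v ∈ M, (60 : ℤ) ∣ (u : ℤ) - v) :
    ∃ e ∈ Tl, R.Perm (e.drop 4) := by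
  have hXp := srt_perm L
  have hXs := srt_pw L
  have hYp := srt_perm M
  have hYs := srt_pw M
  obtain ⟨x0, x1, x2, x3, hX⟩ := len4 (l := srt L) (by rw [hXp.length_eq]; exact h1)
  obtain ⟨y0, y1, hY⟩ := len2 (l := srt M) (by rw [hYp.length_eq]; exact h2)
  rw [hX] at hXp hXs
  rw [hY] at hYp hYs
  have hm : ∀ x ∈ [x0, x1, x2, x3], x < 240 ∧ x % 4 = 0 := fun x hx => B.hL x (hXp.subset hx)
  have hn : ∀ x ∈ [y0, y1], x < 240 ∧ x % 4 = 2 := fun x hx => B.hM x (hYp.subset hx)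
  have h0 : 0 ∈ [x0, x1, x2, x3] := hXp.symm.subset B.zero
  have hrel := B.rel_sort hXp hYp
  have hd : (60 : ℤ) ∣ (y1 : ℤ) - y0 :=
    h60 _ (hYp.subset (by simp)) _ (hYp.subset (by simp))
  simp at hm hn h0 hXs hYs
  obtain rfl : x0 = 0 := by omega
  obtain ⟨b, rfl⟩ : ∃ b, x1 = 4 * b := ⟨x1 / 4, by omega⟩
  obtain ⟨c, rfl⟩ : ∃ c, x2 = 4 * c := ⟨x2 / 4, by omega⟩
  obtain ⟨d, rfl⟩ : ∃ d, x3 = 4 * d := ⟨x3 / 4, by omega⟩
  obtain ⟨x, rfl⟩ : ∃ x, y0 = 2 + 4 * x := ⟨y0 / 4, by omega⟩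
  obtain ⟨g, rfl⟩ : ∃ g, y1 = 2 + 4 * x + 60 * g := ⟨(y1 - (2 + 4 * x)) / 60, by omega⟩
  rw [shift2 ζ (by omega)] at hrel
  have hs := bridge_two hζ hrel
  have a1 : c5c d = true := nf5_all _ (by omega)
  have a2 : c5b c d = true := allN_lt (f := fun c => c5b c d) a1 (by omega)
  have a3 : c5g b c d = true := allN_lt (f := fun b => c5g b c d) a2 (by omega)
  have a4 : c5x b c d g = true := allN_lt (f := fun g => c5x b c d g) a3 (by omega)
  have a5 := okB_of a4 hs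
  have a6 : chkRow [0, 4 * b, 4 * c, 4 * d, 2 + 4 * x, (2 + 4 * x + 60 * g) % 240] = true :=
    allN_lt (f := fun x => chkRow [0, 4 * b, 4 * c, 4 * d, 2 + 4 * x, (2 + 4 * x + 60 * g) % 240]) a5
      (by omega)
  rw [Nat.mod_eq_of_lt (by omega)] at a6
  exact row_end hζ (B.perm.trans (hXp.symm.append hYp.symm)) B.rel a6

/-- three entries multiples of 4, three more, with the condition of the parity statement -/
theorem Blk.c6 (hζ : IsPrimitiveRoot ζ 240) (B : Blk ζ R L M 4 2) (h1 : L.length = 3)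
    (h2 : M.length = 3) {ham : ℕ → ℕ → Bool} (hall : ∀ i, i < 60 → c6b ham i = true)
    (hLh : ∀ b c, L.Perm [0, 4 * b, 4 * c] → ham b c = true)
    (hMh : ∀ y g h, M.Perm [y, y + 4 * g, y + 4 * h] → ham g h = true) :
    ∃ e ∈ Tl, R.Perm (e.drop 4) := by
  have hXp := srt_perm L
  have hXs := srt_pw L
  have hYp := srt_perm M
  have hYs := srt_pw M
  obtain ⟨x0, x1, x2, hX⟩ := len3 (l := srt L) (by rw [hXp.length_eq]; exact h1)
  obtain ⟨y0, y1, y2, hY⟩ := len3 (l := srt M) (by rw [hYp.length_eq]; exact h2)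
  rw [hX] at hXp hXs
  rw [hY] at hYp hYs
  have hm : ∀ x ∈ [x0, x1, x2], x < 240 ∧ x % 4 = 0 := fun x hx => B.hL x (hXp.subset hx)
  have hn : ∀ x ∈ [y0, y1, y2], x < 240 ∧ x % 4 = 2 := fun x hx => B.hM x (hYp.subset hx)
  have h0 : 0 ∈ [x0, x1, x2] := hXp.symm.subset B.zero
  have hrel := B.rel_sort hXp hYp
  simp at hm hn h0 hXs hYs
  obtain rfl : x0 = 0 := by omega
  obtain ⟨b, rfl⟩ : ∃ b, x1 = 4 * b := ⟨x1 / 4, by omega⟩
  obtain ⟨c, rfl⟩ : ∃ c, x2 = 4 * c := ⟨x2 / 4, by omega⟩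
  obtain ⟨x, rfl⟩ : ∃ x, y0 = 2 + 4 * x := ⟨y0 / 4, by omega⟩
  obtain ⟨g, rfl⟩ : ∃ g, y1 = 2 + 4 * x + 4 * g := ⟨(y1 - (2 + 4 * x)) / 4, by omega⟩
  obtain ⟨h, rfl⟩ : ∃ h, y2 = 2 + 4 * x + 4 * h := ⟨(y2 - (2 + 4 * x)) / 4, by omega⟩
  rw [shift3 ζ (by omega) (by omega)] at hrel
  have hs := bridge_two hζ hrel
  have a1 : c6b ham c = true := hall _ (by omega)
  have a2 : okB (ham b c) (c6h ham b c) = true :=
    allN_lt (f := fun b => okB (ham b c) (c6h ham b c)) a1 (by omega)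
  have a3 := okB_of a2 (hLh b c hXp.symm)
  have a4 : c6g ham b c h = true := allN_lt (f := fun h => c6g ham b c h) a3 (by omega)
  have a5 : okB (ham g h) (c6x b c g h) = true :=
    allN_lt (f := fun g => okB (ham g h) (c6x b c g h)) a4 (by omega)
  have a6 : c6x b c g h = true := okB_of a5 (hMh _ g h hYp.symm)
  have a7 := okB_of a6 hs
  have a8 : chkRow [0, 4 * b, 4 * c, 2 + 4 * x, (2 + 4 * x + 4 * g) % 240,
      (2 + 4 * x + 4 * h) % 240] = true :=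
    allN_lt (f := fun x => chkRow [0, 4 * b, 4 * c, 2 + 4 * x, (2 + 4 * x + 4 * g) % 240,
      (2 + 4 * x + 4 * h) % 240]) a7 (by omega)
  rw [Nat.mod_eq_of_lt (by omega), Nat.mod_eq_of_lt (by omega)] at a8
  exact row_end hζ (B.perm.trans (hXp.symm.append hYp.symm)) B.rel a8

/-- four even entries and a block of two odd entries with zero sum -/
theorem case_c7 (hζ : IsPrimitiveRoot ζ 240) (hp : R.Perm (L ++ M)) (hR : zS ζ R * zN ζ R = 6)
    (hL : ∀ x ∈ L, x < 240 ∧ x % 2 = 0) (hM : ∀ x ∈ M, x < 240 ∧ x % 2 = 1) (hz : 0 ∈ L)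
    (h1 : L.length = 4) (h2 : M.length = 2) (hS : zS ζ M = 0) :
    ∃ e ∈ Tl, R.Perm (e.drop 4) := by
  have hXp := srt_perm L
  have hXs := srt_pw L
  have hYp := srt_perm M
  have hYs := srt_pw M
  obtain ⟨x0, x1, x2, x3, hX⟩ := len4 (l := srt L) (by rw [hXp.length_eq]; exact h1)
  obtain ⟨y0, y1, hY⟩ := len2 (l := srt M) (by rw [hYp.length_eq]; exact h2)
  rw [hX] at hXp hXs
  rw [hY] at hYp hYs
  have hm : ∀ x ∈ [x0, x1, x2, x3], x < 240 ∧ x % 2 = 0 := fun x hx => hL x (hXp.subset hx)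
  have hn : ∀ x ∈ [y0, y1], x < 240 ∧ x % 2 = 1 := fun x hx => hM x (hYp.subset hx)
  have h0 : 0 ∈ [x0, x1, x2, x3] := hXp.symm.subset hz
  have hS2 : ζ ^ y0 + ζ ^ y1 = 0 := by
    rw [← zS_perm ζ hYp] at hS
    simpa [zS] using hS
  simp at hm hn h0 hXs hYs
  have hζ0 : ζ ≠ 0 := hζ.ne_zero (by norm_num)
  have h120 := zeta_120 hζ
  have hy : y1 = y0 + 120 := by
    obtain ⟨w, rfl⟩ : ∃ w, y1 = y0 + w := ⟨y1 - y0, by omega⟩
    have e1 : ζ ^ w = ζ ^ 120 := by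
      rw [h120]
      rw [pow_add] at hS2
      have h3 : ζ ^ y0 * (ζ ^ w + 1) = 0 := by linear_combination hS2
      have h4 := (mul_eq_zero.mp h3).resolve_left (pow_ne_zero _ hζ0)
      linear_combination h4
    have := hζ.pow_inj (i := w) (j := 120) (by omega) (by norm_num) e1
    omega
  subst hy
  have hy0 : y0 < 120 := by omega
  have hSN : zN ζ [y0, y0 + 120] = 0 := by
    have e1 : ζ ^ (240 - y0) = ζ ^ 120 * ζ ^ (120 - y0) := by
      rw [← pow_add]; congr 1; omega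
    have e2 : 240 - (y0 + 120) = 120 - y0 := by omega
    simp only [zN, List.map_cons, List.map_nil, List.sum_cons, List.sum_nil]
    rw [e1, e2, h120]
    ring
  have hrel : zS ζ [x0, x1, x2, x3] * zN ζ [x0, x1, x2, x3] = 6 := by
    have hp' := hp.trans (hXp.symm.append hYp.symm)
    rw [zS_perm ζ hp', zN_perm ζ hp', zS_append, zN_append, hSN, zS_perm ζ hYp, hS] at hR
    simpa using hR
  obtain rfl : x0 = 0 := by omega
  obtain ⟨b, rfl⟩ : ∃ b, x1 = 2 * b := ⟨x1 / 2, by omega⟩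
  obtain ⟨c, rfl⟩ : ∃ c, x2 = 2 * c := ⟨x2 / 2, by omega⟩
  obtain ⟨d, rfl⟩ : ∃ d, x3 = 2 * d := ⟨x3 / 2, by omega⟩
  obtain ⟨x, rfl⟩ : ∃ x, y0 = 1 + 2 * x := ⟨y0 / 2, by omega⟩
  have hs := bridge_one hζ hrel
  have a1 : c7c d = true := nf7_all _ (by omega)
  have a2 : c7b c d = true := allN_lt (f := fun c => c7b c d) a1 (by omega)
  have a3 : c7x b c d = true := allN_lt (f := fun b => c7x b c d) a2 (by omega)
  have a4 := okB_of a3 hs
  have a5 : chkRow [0, 2 * b, 2 * c, 2 * d, 1 + 2 * x, 121 + 2 * x] = true :=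
    allN_lt (f := fun x => chkRow [0, 2 * b, 2 * c, 2 * d, 1 + 2 * x, 121 + 2 * x]) a4 (by omega)
  have e3 : 1 + 2 * x + 120 = 121 + 2 * x := by omega
  rw [e3] at hYp
  exact row_end hζ (hp.trans (hXp.symm.append hYp.symm)) hR a5

end

end Vale.Agent.Lib.P355
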