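import Mathlib
import Vale.Agent.Lib.P355.NF1

/-!
Normal form of the exponent tuples unbiased to zero.
-/

namespace Vale.Agent.Lib.P355

open Finset C240

attribute [local irreducible] C240.Tb C240.OD C240.allN C240.chkRow

section Ham

variable {θ : F2}

lemma two_F2 : (2 : F2) = 0 := by exact_mod_cast CharP.cast_eq_zero F2 2

/-- the sums of `1` and a power of `θ` -/
theorem zech_tbl (hθ : θ ^ 4 = θ + 1) : ∀ b : ℕ, b < 15 → b ≠ 0 → 1 + θ ^ b = θ ^ (zt b) := by
  have h2 := two_F2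
  intro b hb hb0
  have e : zt b = [15, 4, 8, 14, 1, 10, 13, 9, 2, 7, 5, 12, 11, 6, 3].getD b 0 := by
    revert b
    decide
  rw [e]
  match b, hb, hb0 with
  | 1, _, _ =>
    show 1 + θ ^ 1 = θ ^ 4
    linear_combination ((-1)) * hθ + (0) * h2
  | 2, _, _ =>
    show 1 + θ ^ 2 = θ ^ 8
    linear_combination ((-1) + (-1) * θ + (-1) * θ ^ 4) * hθ + ((-1) * θ) * h2
  | 3, _, _ =>
    show 1 + θ ^ 3 = θ ^ 14
    linear_combination ((-3) + (-1) * θ + (-1) * θ ^ 2 + (-2) * θ ^ 3 + (-1) * θ ^ 4 + (-1) * θ ^ 6 + (-1) * θ ^ 7 + (-1) * θ ^ 10) * hθ + ((-1) + (-2) * θ + (-1) * θ ^ 2 + (-1) * θ ^ 3) * h2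
  | 4, _, _ =>
    show 1 + θ ^ 4 = θ ^ 1
    linear_combination ((1)) * hθ + ((1)) * h2
  | 5, _, _ =>
    show 1 + θ ^ 5 = θ ^ 10
    linear_combination ((-1) + (1) * θ + (-1) * θ ^ 2 + (-1) * θ ^ 3 + (-1) * θ ^ 6) * hθ + ((-1) * θ ^ 3) * h2
  | 6, _, _ =>
    show 1 + θ ^ 6 = θ ^ 13
    linear_combination ((-1) + (-1) * θ + (-1) * θ ^ 2 + (-1) * θ ^ 3 + (-1) * θ ^ 5 + (-1) * θ ^ 6 + (-1) * θ ^ 9) * hθ + ((-1) * θ + (-1) * θ ^ 2 + (-1) * θ ^ 3) * h2
  | 7, _, _ =>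
    show 1 + θ ^ 7 = θ ^ 9
    linear_combination ((1) + (-1) * θ + (-1) * θ ^ 2 + (1) * θ ^ 3 + (-1) * θ ^ 5) * hθ + ((1) + (-1) * θ ^ 2) * h2
  | 8, _, _ =>
    show 1 + θ ^ 8 = θ ^ 2
    linear_combination ((1) + (1) * θ + (1) * θ ^ 4) * hθ + ((1) + (1) * θ) * h2
  | 9, _, _ =>
    show 1 + θ ^ 9 = θ ^ 7
    linear_combination ((-1) + (1) * θ + (1) * θ ^ 2 + (-1) * θ ^ 3 + (1) * θ ^ 5) * hθ + ((1) * θ ^ 2) * h2
  | 10, _, _ =>
    show 1 + θ ^ 10 = θ ^ 5
    linear_combination ((1) + (-1) * θ + (1) * θ ^ 2 + (1) * θ ^ 3 + (1) * θ ^ 6) * hθ + ((1) + (1) * θ ^ 3) * h2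
  | 11, _, _ =>
    show 1 + θ ^ 11 = θ ^ 12
    linear_combination ((1) + (-1) * θ + (-1) * θ ^ 2 + (1) * θ ^ 3 + (-1) * θ ^ 5 + (1) * θ ^ 7 + (-1) * θ ^ 8) * hθ + ((1) + (-1) * θ ^ 2) * h2
  | 12, _, _ =>
    show 1 + θ ^ 12 = θ ^ 11
    linear_combination ((-1) + (1) * θ + (1) * θ ^ 2 + (-1) * θ ^ 3 + (1) * θ ^ 5 + (-1) * θ ^ 7 + (1) * θ ^ 8) * hθ + ((1) * θ ^ 2) * h2
  | 13, _, _ =>
    show 1 + θ ^ 13 = θ ^ 6
    linear_combination ((1) + (1) * θ + (1) * θ ^ 2 + (1) * θ ^ 3 + (1) * θ ^ 5 + (1) * θ ^ 6 + (1) * θ ^ 9) * hθ + ((1) + (1) * θ + (1) * θ ^ 2 + (1) * θ ^ 3) * h2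
  | 14, _, _ =>
    show 1 + θ ^ 14 = θ ^ 3
    linear_combination ((3) + (1) * θ + (1) * θ ^ 2 + (2) * θ ^ 3 + (1) * θ ^ 4 + (1) * θ ^ 6 + (1) * θ ^ 7 + (1) * θ ^ 10) * hθ + ((2) + (2) * θ + (1) * θ ^ 2 + (1) * θ ^ 3) * h2
  | 0, _, h => exact absurd rfl h

lemma ham_step (hθ : θ ^ 4 = θ + 1) {c z : ℕ} (hz : z < 15) (h : θ ^ c = θ ^ z) : c % 15 = z := by
  obtain ⟨-, -, -, h0⟩ := theta_facts hθ
  have h1 : θ ^ ((c : ℤ) - z) = 1 := by
    rw [zpow_sub₀ h0, zpow_natCast, zpow_natCast, h, div_self (pow_ne_zero _ h0)]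
  have h3 := tau_order hθ (Or.inl rfl) h1
  omega

/-- the relation `1 + θ ^ b + θ ^ c = 0` passes to the test -/
theorem ham1_of (hθ : θ ^ 4 = θ + 1) {b c : ℕ} (h : 1 + θ ^ b + θ ^ c = 0) : ham1 b c = true := by
  obtain ⟨h15, -, -, h0⟩ := theta_facts hθ
  have h2 := two_F2
  have hb : θ ^ b = θ ^ (b % 15) := by
    conv_lhs => rw [← Nat.div_add_mod b 15, pow_add, pow_mul, h15, one_pow, one_mul]
  by_cases hb0 : b % 15 = 0
  · rw [hb, hb0, pow_zero] at h
    have : θ ^ c = 0 := by linear_combination h - h2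
    exact absurd this (pow_ne_zero _ h0)
  · have hz := zech_tbl hθ (b % 15) (Nat.mod_lt _ (by norm_num)) hb0
    have e : θ ^ c = θ ^ (zt (b % 15)) := by
      rw [← hz, ← hb]
      linear_combination h - (1 + θ ^ b) * h2
    have hlt : ∀ x, x < 15 → x ≠ 0 → zt x < 15 := by decide
    have h5 := ham_step hθ (hlt _ (Nat.mod_lt _ (by norm_num)) hb0) e
    have e2 : ham1 b c = Nat.beq (zt (b % 15)) (c % 15) := rfl
    rw [e2, h5]
    exact Nat.beq_refl _

lemma inv_pow15 (hθ : θ ^ 4 = θ + 1) (x : ℕ) : (θ⁻¹) ^ x = θ ^ ((15 - x % 15) % 15) := by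
  obtain ⟨h15, -, -, -⟩ := theta_facts hθ
  rw [inv_pow]
  apply inv_eq_of_mul_eq_one_right
  rw [← pow_add]
  obtain ⟨k, hk⟩ : ∃ k, x + (15 - x % 15) % 15 = 15 * k := ⟨(x + (15 - x % 15) % 15) / 15, by omega⟩
  rw [hk, pow_mul, h15, one_pow]

/-- the relation `1 + θ ^ (-b) + θ ^ (-c) = 0` passes to the test -/
theorem ham2_of (hθ : θ ^ 4 = θ + 1) {b c : ℕ} (h : 1 + (θ⁻¹) ^ b + (θ⁻¹) ^ c = 0) :
    ham2 b c = true := by
  rw [inv_pow15 hθ, inv_pow15 hθ] at h
  exact ham1_of hθ h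

/-- the parity relation in terms of the list of residues -/
lemma ham_list {τ : F2} (h0 : τ ≠ 0) (hτ : τ ^ 15 = 1) {E : Fin 6 → ℤ}
    (hH : ∀ g : ℤ, ∑ l ∈ univ.filter (fun l => (4 : ℤ) ∣ E l - g), τ ^ ((E l - g) / 4) = 0)
    (c : ℤ) (y : ℕ) :
    (((tL240 fun l => dgt240 (E l - c)).filter fun x => decide (x % 4 = y % 4)).map
      fun x : ℕ => τ ^ (((x : ℤ) - y) / 4)).sum = 0 := by
  rw [sum_filter_tL]
  rw [← hH (c + y)]
  have hset : (univ.filter fun l => dgt240 (E l - c) % 4 = y % 4)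
      = univ.filter (fun l => (4 : ℤ) ∣ E l - (c + y)) := by
    apply Finset.filter_congr
    intro l _
    have h1 := dgt240_cast (E l - c)
    have h2 := dgt240_lt (E l - c)
    omega
  rw [hset]
  refine Finset.sum_congr rfl fun l hl => ?_
  have hd : (4 : ℤ) ∣ E l - (c + y) := (Finset.mem_filter.mp hl).2
  have h1 := dgt240_cast (E l - c)
  have h2 := dgt240_lt (E l - c)
  obtain ⟨k, hk⟩ : ∃ k : ℤ, (E l - (c + y)) / 4 = ((dgt240 (E l - c) : ℤ) - y) / 4 + 15 * k :=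
    ⟨(E l - c) / 240 * 4, by omega⟩
  rw [hk, zpow_add₀ h0, zpow_mul]
  have : τ ^ (15 : ℤ) = 1 := by exact_mod_cast hτ
  rw [this, one_zpow, mul_one]

end Ham

/-- the choice of a base with a large class -/
lemma base_choice {a : ℤ} {E : Fin 6 → ℤ}
    (h : ∀ l k, ¬ a ∣ E l - E 0 → ¬ a ∣ E k - E 0 → a ∣ E l - E k) :
    ∃ l0, 3 ≤ (univ.filter fun l => a ∣ E l - E l0).card := by
  by_cases h3 : 3 ≤ (univ.filter fun l => a ∣ E l - E 0).card
  · exact ⟨0, h3⟩
  · have h4 := Finset.card_filter_add_card_filter_not (s := (univ : Finset (Fin 6))) (fun l => a ∣ E l - E 0)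
    rw [Finset.card_univ, Fintype.card_fin] at h4
    have h5 : 0 < (univ.filter fun l => ¬ a ∣ E l - E 0).card := by omega
    obtain ⟨k, hk⟩ := Finset.card_pos.mp h5
    have hk' := (Finset.mem_filter.mp hk).2
    refine ⟨k, ?_⟩
    have h6 : (univ.filter fun l => ¬ a ∣ E l - E 0) ⊆ univ.filter fun l => a ∣ E l - E k := by
      intro l hl
      exact Finset.mem_filter.mpr ⟨Finset.mem_univ _, h l k (Finset.mem_filter.mp hl).2 hk'⟩
    have h7 := Finset.card_le_card h6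
    omega

section Levels

variable {ζ : ℂ} {E : Fin 6 → ℤ}

/-- all entries congruent modulo 4 -/
theorem nf_a8 (hζ : IsPrimitiveRoot ζ 240)
    (hmu : (∑ l, ζ ^ (E l)) * (∑ l, ζ ^ (-E l)) = 6) (h4 : ∀ l, (4 : ℤ) ∣ E l - E 0) : NF E := by
  obtain ⟨l0, hl0⟩ := base_choice (a := 8) (E := E) (fun l k h1 h2 => by
    have := h4 l
    have := h4 k
    omega)
  set c := E l0 with hc
  have h4c : ∀ l, (4 : ℤ) ∣ E l - c := fun l => by
    have := h4 l
    have := h4 l0
    omega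
  set D : Fin 6 → ℕ := fun l => dgt240 (E l - c) with hD
  have hcast : ∀ l, ((D l : ℕ) : ℤ) = (E l - c) % 240 := fun l => dgt240_cast _
  have hlt : ∀ l, D l < 240 := fun l => dgt240_lt _
  have hcl : ∀ l, D l % 8 = 0 ∨ D l % 8 = 4 := fun l => by
    have := hcast l
    have := h4c l
    omega
  have hz : ∃ l, D l = 0 := ⟨l0, by
    have := hcast l0
    have := hlt l0
    omega⟩
  have B : Blk ζ (tL240 D) ((tL240 D).filter fun x => decide (x % 8 = 0))
      ((tL240 D).filter fun x => decide (¬ x % 8 = 0)) 8 4 := mkBlk (a := 8) (b := 4) (m := 30) hζ (rel_shift hζ hmu c) hlt hcl hz rfl (by norm_num)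
    (fun x h1 h2 => by omega) (fun x h1 h2 => by omega)
  have hlenL := len_filter D (fun x => x % 8 = 0)
  have hcard : (univ.filter fun l => D l % 8 = 0) = univ.filter fun l => (8 : ℤ) ∣ E l - c := by
    apply Finset.filter_congr
    intro l _
    have := hcast l
    have := hlt l
    omega
  rw [hcard] at hlenL
  have hsum := B.perm.length_eq
  rw [List.length_append] at hsum
  have h6 : (tL240 D).length = 6 := rfl
  rw [h6] at hsum
  refine ⟨c, ?_⟩
  have h3 : 3 ≤ ((tL240 D).filter fun x => decide (x % 8 = 0)).length := by omega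
  have hcases : ((tL240 D).filter fun x => decide (x % 8 = 0)).length = 6 ∨
      ((tL240 D).filter fun x => decide (x % 8 = 0)).length = 5 ∨
      ((tL240 D).filter fun x => decide (x % 8 = 0)).length = 4 ∨
      ((tL240 D).filter fun x => decide (x % 8 = 0)).length = 3 := by omega
  rcases hcases with h | h | h | h
  · exact B.c1 hζ h (by omega)
  · exact B.c2 hζ h (by omega)
  · exact B.c3 hζ h (by omega)
  · exact B.c4 hζ h (by omega)

/-- all entries congruent modulo 2 -/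
theorem nf_a4 {θ : F2} (hθ : θ ^ 4 = θ + 1) (hζ : IsPrimitiveRoot ζ 240)
    (hmu : (∑ l, ζ ^ (E l)) * (∑ l, ζ ^ (-E l)) = 6)
    (two : ∀ l, ∃ k, k ≠ l ∧ (4 : ℤ) ∣ E k - E l)
    (pair : ∀ x y, x ≠ y → (4 : ℤ) ∣ E y - E x → (∀ k, (4 : ℤ) ∣ E k - E x → k = x ∨ k = y) →
      (60 : ℤ) ∣ E y - E x)
    (hH : ∃ τ : F2, (τ = θ ∨ τ = θ⁻¹) ∧
      ∀ g : ℤ, ∑ l ∈ univ.filter (fun l => (4 : ℤ) ∣ E l - g), τ ^ ((E l - g) / 4) = 0)
    (h2 : ∀ l, (2 : ℤ) ∣ E l - E 0) : NF E := by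
  by_cases h6 : ∀ l, (4 : ℤ) ∣ E l - E 0
  · exact nf_a8 hζ hmu h6
  obtain ⟨l0, hl0⟩ := base_choice (a := 4) (E := E) (fun l k h1 h3 => by
    have := h2 l
    have := h2 k
    omega)
  set c := E l0 with hc
  have h2c : ∀ l, (2 : ℤ) ∣ E l - c := fun l => by
    have := h2 l
    have := h2 l0
    omega
  set D : Fin 6 → ℕ := fun l => dgt240 (E l - c) with hD
  have hcast : ∀ l, ((D l : ℕ) : ℤ) = (E l - c) % 240 := fun l => dgt240_cast _
  have hlt : ∀ l, D l < 240 := fun l => dgt240_lt _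
  have hcl : ∀ l, D l % 4 = 0 ∨ D l % 4 = 2 := fun l => by
    have := hcast l
    have := h2c l
    omega
  have hz : ∃ l, D l = 0 := ⟨l0, by
    have := hcast l0
    have := hlt l0
    omega⟩
  have B : Blk ζ (tL240 D) ((tL240 D).filter fun x => decide (x % 4 = 0))
      ((tL240 D).filter fun x => decide (¬ x % 4 = 0)) 4 2 := mkBlk (a := 4) (b := 2) (m := 60) hζ (rel_shift hζ hmu c) hlt hcl hz rfl (by norm_num)
    (fun x h1 h3 => by omega) (fun x h1 h3 => by omega)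
  have hlenL := len_filter D (fun x => x % 4 = 0)
  have hlenM := len_filter D (fun x => ¬ x % 4 = 0)
  have hcard : (univ.filter fun l => D l % 4 = 0) = univ.filter fun l => (4 : ℤ) ∣ E l - c := by
    apply Finset.filter_congr
    intro l _
    have := hcast l
    have := hlt l
    omega
  have hcard' : (univ.filter fun l => ¬ D l % 4 = 0) = univ.filter fun l => ¬ (4 : ℤ) ∣ E l - c := by
    apply Finset.filter_congr
    intro l _
    have := hcast l
    have := hlt l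
    omega
  rw [hcard] at hlenL
  rw [hcard'] at hlenM
  have hsum := B.perm.length_eq
  rw [List.length_append] at hsum
  have h6' : (tL240 D).length = 6 := rfl
  rw [h6'] at hsum
  refine ⟨c, ?_⟩
  have hmemM : ∀ y ∈ (tL240 D).filter (fun x => decide (¬ x % 4 = 0)),
      ∃ l, D l = y ∧ ¬ (4 : ℤ) ∣ E l - c := by
    intro y hy
    obtain ⟨h3, h5⟩ := List.mem_filter.mp hy
    obtain ⟨l, rfl⟩ := mem_tL h3
    refine ⟨l, rfl, ?_⟩
    have h7 : ¬ D l % 4 = 0 := of_decide_eq_true h5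
    have := hcast l
    have := hlt l
    omega
  have hcases : ((tL240 D).filter fun x => decide (x % 4 = 0)).length = 6 ∨
      ((tL240 D).filter fun x => decide (x % 4 = 0)).length = 5 ∨
      ((tL240 D).filter fun x => decide (x % 4 = 0)).length = 4 ∨
      ((tL240 D).filter fun x => decide (x % 4 = 0)).length = 3 := by omega
  rcases hcases with h | h | h | h
  · -- all in one class
    exfalso
    apply h6
    have h7 : (univ.filter fun l => ¬ (4 : ℤ) ∣ E l - c).card = 0 := by omega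
    rw [Finset.card_eq_zero] at h7
    intro l
    have h8 : ∀ k, (4 : ℤ) ∣ E k - c := by
      intro k
      by_contra hk
      have : k ∈ (univ.filter fun l => ¬ (4 : ℤ) ∣ E l - c) :=
        Finset.mem_filter.mpr ⟨Finset.mem_univ _, hk⟩
      rw [h7] at this
      cases this
    have := h8 l
    have := h8 0
    omega
  · -- a singleton class does not occur
    exfalso
    have h7 : (univ.filter fun l => ¬ (4 : ℤ) ∣ E l - c).card = 1 := by omega
    obtain ⟨u, hu⟩ := Finset.card_eq_one.mp h7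
    have hum : u ∈ (univ.filter fun l => ¬ (4 : ℤ) ∣ E l - c) := by
      rw [hu]; exact Finset.mem_singleton_self u
    have hu' := (Finset.mem_filter.mp hum).2
    obtain ⟨k, hk, hd⟩ := two u
    have hk' : ¬ (¬ (4 : ℤ) ∣ E k - c) := by
      intro hk2
      have : k ∈ (univ.filter fun l => ¬ (4 : ℤ) ∣ E l - c) :=
        Finset.mem_filter.mpr ⟨Finset.mem_univ _, hk2⟩
      rw [hu] at this
      exact hk (Finset.mem_singleton.mp this)
    omega
  · -- a class of two elements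
    have h7 : (univ.filter fun l => ¬ (4 : ℤ) ∣ E l - c).card = 2 := by omega
    obtain ⟨u, v, huv, hset⟩ := Finset.card_eq_two.mp h7
    have hmem : ∀ l, ¬ (4 : ℤ) ∣ E l - c → l = u ∨ l = v := by
      intro l hl
      have : l ∈ (univ.filter fun l => ¬ (4 : ℤ) ∣ E l - c) :=
        Finset.mem_filter.mpr ⟨Finset.mem_univ _, hl⟩
      rw [hset] at this
      simpa using this
    have hu : ¬ (4 : ℤ) ∣ E u - c := by
      have : u ∈ (univ.filter fun l => ¬ (4 : ℤ) ∣ E l - c) := by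
        rw [hset]; simp
      exact (Finset.mem_filter.mp this).2
    have hv : ¬ (4 : ℤ) ∣ E v - c := by
      have : v ∈ (univ.filter fun l => ¬ (4 : ℤ) ∣ E l - c) := by
        rw [hset]; simp
      exact (Finset.mem_filter.mp this).2
    have hp : (60 : ℤ) ∣ E v - E u := by
      apply pair u v huv
      · have := h2c u
        have := h2c v
        omega
      · intro k hk
        apply hmem
        omega
    refine B.c5 hζ h (by omega) ?_
    intro x hx y hy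
    obtain ⟨l, rfl, hl⟩ := hmemM x hx
    obtain ⟨m, rfl, hm⟩ := hmemM y hy
    have e1 := hcast l
    have e2 := hcast m
    rcases hmem l hl with rfl | rfl <;> rcases hmem m hm with rfl | rfl <;> omega
  · -- two classes of three elements
    obtain ⟨τ, hτ, hsumH⟩ := hH
    obtain ⟨h15, -, -, hθ0⟩ := theta_facts hθ
    have hτ0 : τ ≠ 0 := by
      rcases hτ with rfl | rfl
      · exact hθ0
      · exact inv_ne_zero hθ0
    have hτ15 : τ ^ 15 = 1 := by
      rcases hτ with rfl | rfl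
      · exact h15
      · rw [inv_pow, h15, inv_one]
    have hl1 := ham_list hτ0 hτ15 hsumH c 0
    have hfil : ((tL240 D).filter fun x => decide (x % 4 = 0 % 4))
        = (tL240 D).filter fun x => decide (x % 4 = 0) := rfl
    have hLs : ∀ b c', ((tL240 D).filter fun x => decide (x % 4 = 0)).Perm [0, 4 * b, 4 * c'] →
        1 + τ ^ b + τ ^ c' = 0 := by
      intro b c' hp
      have h8 : (((tL240 D).filter fun x => decide (x % 4 = 0)).map
          fun x : ℕ => τ ^ (((x : ℤ) - ((0 : ℕ) : ℤ)) / 4)).sum = 0 := hl1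
      rw [(hp.map _).sum_eq] at h8
      simp only [List.map_cons, List.map_nil, List.sum_cons, List.sum_nil, add_zero] at h8
      have e1 : (((0 : ℕ) : ℤ) - ((0 : ℕ) : ℤ)) / 4 = 0 := by simp
      have e2 : (((4 * b : ℕ) : ℤ) - ((0 : ℕ) : ℤ)) / 4 = (b : ℤ) := by omega
      have e3 : (((4 * c' : ℕ) : ℤ) - ((0 : ℕ) : ℤ)) / 4 = (c' : ℤ) := by omega
      rw [e1, e2, e3, zpow_zero, zpow_natCast, zpow_natCast] at h8
      linear_combination h8
    have hMs : ∀ y g h', ((tL240 D).filter fun x => decide (¬ x % 4 = 0)).Perm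
        [y, y + 4 * g, y + 4 * h'] → 1 + τ ^ g + τ ^ h' = 0 := by
      intro y g h' hp
      have hy : y ∈ (tL240 D).filter fun x => decide (¬ x % 4 = 0) :=
        hp.symm.subset (by simp)
      have hy' := B.hM y hy
      have hl2 := ham_list hτ0 hτ15 hsumH c y
      have hfil2 : ((tL240 fun l => dgt240 (E l - c)).filter fun x => decide (x % 4 = y % 4))
          = (tL240 D).filter fun x => decide (¬ x % 4 = 0) := by
        apply List.filter_congr
        intro x hx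
        obtain ⟨l, rfl⟩ := mem_tL hx
        have h9 := hcl l
        have h10 : D l = dgt240 (E l - c) := rfl
        rw [← h10]
        simp only [decide_eq_decide]
        omega
      rw [hfil2, (hp.map _).sum_eq] at hl2
      simp only [List.map_cons, List.map_nil, List.sum_cons, List.sum_nil, add_zero] at hl2
      have e1 : (((y : ℕ) : ℤ) - ((y : ℕ) : ℤ)) / 4 = 0 := by simp
      have e2 : (((y + 4 * g : ℕ) : ℤ) - ((y : ℕ) : ℤ)) / 4 = (g : ℤ) := by omega
      have e3 : (((y + 4 * h' : ℕ) : ℤ) - ((y : ℕ) : ℤ)) / 4 = (h' : ℤ) := by omega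
      rw [e1, e2, e3, zpow_zero, zpow_natCast, zpow_natCast] at hl2
      linear_combination hl2
    rcases hτ with rfl | rfl
    · exact B.c6 hζ h (by omega) nf6a_all (fun b c' hp => ham1_of hθ (hLs b c' hp))
        (fun y g h' hp => ham1_of hθ (hMs y g h' hp))
    · exact B.c6 hζ h (by omega) nf6b_all (fun b c' hp => ham2_of hθ (hLs b c' hp))
        (fun y g h' hp => ham2_of hθ (hMs y g h' hp))

/-- Every tuple unbiased to zero at a primitive 240th root of unity has the normal form. -/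
theorem nf_all (hζ : IsPrimitiveRoot ζ 240) (hmu : (∑ l, ζ ^ (E l)) * (∑ l, ζ ^ (-E l)) = 6) :
    NF E := by
  have hζ' : IsPrimitiveRoot ζ (240 * (2 ^ 0 * (3 ^ 0 * 5 ^ 0))) := by simpa using hζ
  have C := ctx_of 0 0 0 hζ' hmu
  obtain ⟨θ, hθ⟩ := exists_theta
  have h4cast : ((4 * (2 ^ 0 * (3 ^ 0 * 5 ^ 0)) : ℕ) : ℤ) = 4 := by norm_num
  have h2cast : ((2 * (2 ^ 0 * (3 ^ 0 * 5 ^ 0)) : ℕ) : ℤ) = 2 := by norm_num
  have two : ∀ l, ∃ k, k ≠ l ∧ (4 : ℤ) ∣ E k - E l := by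
    intro l
    obtain ⟨k, hk, he⟩ := C.two l
    refine ⟨k, hk, ?_⟩
    have := (lev_iff _ _).mp he
    rwa [h4cast] at this
  have pair : ∀ x y, x ≠ y → (4 : ℤ) ∣ E y - E x →
      (∀ k, (4 : ℤ) ∣ E k - E x → k = x ∨ k = y) → (60 : ℤ) ∣ E y - E x := by
    intro x y hxy h1 h3
    have h5 := C.pair hxy ((lev_iff _ _).mpr (by rw [h4cast]; exact h1))
      (fun k hk => h3 k (by
        have := (lev_iff _ _).mp hk
        rwa [h4cast] at this))
    have e : (15 : ℤ) * ((4 * (2 ^ 0 * (3 ^ 0 * 5 ^ 0)) : ℕ) : ℤ) = 60 := by norm_num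
    rwa [e] at h5
  have hH : ∃ τ : F2, (τ = θ ∨ τ = θ⁻¹) ∧
      ∀ g : ℤ, ∑ l ∈ univ.filter (fun l => (4 : ℤ) ∣ E l - g), τ ^ ((E l - g) / 4) = 0 := by
    obtain ⟨τ, hτ, hs⟩ := parity3 hθ hζ' E hmu
    refine ⟨τ, hτ, fun g => ?_⟩
    have := hs g
    rwa [h4cast] at this
  obtain ⟨g0, hg0, hc4⟩ := C.classify2
  obtain ⟨l0, hl0⟩ : (clg (2 * (2 ^ 0 * (3 ^ 0 * 5 ^ 0))) E g0).Nonempty := by
    rw [← Finset.card_pos]; omega
  have hl0' := mem_clg.mp hl0
  have hmem : ∀ l, l ∈ clg (2 * (2 ^ 0 * (3 ^ 0 * 5 ^ 0))) E g0 ↔ (2 : ℤ) ∣ E l - E l0 := by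
    intro l
    rw [mem_clg, ← hl0', lev_iff, h2cast]
  by_cases hall : ∀ l, (2 : ℤ) ∣ E l - E l0
  · refine nf_a4 hθ hζ hmu two pair hH fun l => ?_
    have := hall l
    have := hall 0
    omega
  push Not at hall
  obtain ⟨u, hu⟩ := hall
  set c := E l0 with hc
  set D : Fin 6 → ℕ := fun l => dgt240 (E l - c) with hD
  have hcast : ∀ l, ((D l : ℕ) : ℤ) = (E l - c) % 240 := fun l => dgt240_cast _
  have hlt : ∀ l, D l < 240 := fun l => dgt240_lt _
  have hcl : ∀ l, D l % 2 = 0 ∨ D l % 2 = 1 := fun l => by omega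
  have hz : ∃ l, D l = 0 := ⟨l0, by
    have := hcast l0
    have := hlt l0
    omega⟩
  have B : Blk ζ (tL240 D) ((tL240 D).filter fun x => decide (x % 2 = 0))
      ((tL240 D).filter fun x => decide (¬ x % 2 = 0)) 2 1 := mkBlk (a := 2) (b := 1) (m := 120) hζ (rel_shift hζ hmu c) hlt hcl hz rfl (by norm_num)
    (fun x h1 h3 => by omega) (fun x h1 h3 => by omega)
  have hlenL := len_filter D (fun x => x % 2 = 0)
  have hlenM := len_filter D (fun x => ¬ x % 2 = 0)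
  have hcard : (univ.filter fun l => D l % 2 = 0) = clg (2 * (2 ^ 0 * (3 ^ 0 * 5 ^ 0))) E g0 := by
    ext l
    rw [hmem, Finset.mem_filter]
    have := hcast l
    have := hlt l
    simp only [mem_univ, true_and]
    omega
  have hcard' : (univ.filter fun l => ¬ D l % 2 = 0) = univ.filter fun l => ¬ (2 : ℤ) ∣ E l - c := by
    apply Finset.filter_congr
    intro l _
    have := hcast l
    have := hlt l
    omega
  rw [hcard] at hlenL
  rw [hcard'] at hlenM
  have hsum := B.perm.length_eq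
  rw [List.length_append] at hsum
  have h6' : (tL240 D).length = 6 := rfl
  rw [h6'] at hsum
  have hum : u ∈ univ.filter fun l => ¬ (2 : ℤ) ∣ E l - c :=
    Finset.mem_filter.mpr ⟨Finset.mem_univ _, hu⟩
  have hpos : 0 < (univ.filter fun l => ¬ (2 : ℤ) ∣ E l - c).card := Finset.card_pos.mpr ⟨u, hum⟩
  refine ⟨c, ?_⟩
  have hne : ((E u : ℤ) : ZMod (2 * (2 ^ 0 * (3 ^ 0 * 5 ^ 0)))) ≠ g0 := by
    intro h
    apply hu
    have : u ∈ clg (2 * (2 ^ 0 * (3 ^ 0 * 5 ^ 0))) E g0 := mem_clg.mpr h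
    exact (hmem u).mp this
  have hx0 := hg0 _ hne
  have hcls : (univ.filter fun l => ((E l : ℤ) : ZMod (2 * (2 ^ 0 * (3 ^ 0 * 5 ^ 0)))) = ((E u : ℤ) : ZMod (2 * (2 ^ 0 * (3 ^ 0 * 5 ^ 0)))))
      = univ.filter fun l => ¬ (2 : ℤ) ∣ E l - c := by
    apply Finset.filter_congr
    intro l _
    rw [lev_iff, h2cast]
    omega
  have hsumz : ∑ l ∈ univ.filter (fun l => ¬ (2 : ℤ) ∣ E l - c), ζ ^ (E l) = 0 := by
    rw [← hcls]
    exact hx0
  have hζ0 : ζ ≠ 0 := hζ.ne_zero (by norm_num)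
  have hSM : zS ζ ((tL240 D).filter fun x => decide (¬ x % 2 = 0)) = 0 := by
    unfold zS
    rw [sum_filter_tL, hcard']
    have : ∀ l ∈ univ.filter (fun l => ¬ (2 : ℤ) ∣ E l - c), ζ ^ D l = ζ ^ (-c) * ζ ^ (E l) := by
      intro l _
      rw [← zpow_natCast, ← zpow_add₀ hζ0]
      apply zpow_congr240 hζ.pow_eq_one
      have := hcast l
      omega
    rw [Finset.sum_congr rfl this, ← Finset.mul_sum, hsumz, mul_zero]
  by_cases h1 : (univ.filter fun l => ¬ (2 : ℤ) ∣ E l - c).card = 1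
  · exfalso
    obtain ⟨w, hw⟩ := Finset.card_eq_one.mp h1
    have hwm : w ∈ (univ.filter fun l => ¬ (2 : ℤ) ∣ E l - c) := by
      rw [hw]; exact Finset.mem_singleton_self w
    have hw' := (Finset.mem_filter.mp hwm).2
    obtain ⟨k, hk, hd⟩ := two w
    have hk' : ¬ (¬ (2 : ℤ) ∣ E k - c) := by
      intro hk2
      have : k ∈ (univ.filter fun l => ¬ (2 : ℤ) ∣ E l - c) :=
        Finset.mem_filter.mpr ⟨Finset.mem_univ _, hk2⟩
      rw [hw] at this
      exact hk (Finset.mem_singleton.mp this)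
    omega
  · exact case_c7 hζ B.perm B.rel B.hL B.hM B.zero (by omega) (by omega) hSM

end Levels

end Vale.Agent.Lib.P355
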