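import Mathlib
import Vale.Agent.Lib.P355.NF2
import Vale.Agent.Lib.P355.ChkT0
import Vale.Agent.Lib.P355.ChkT1
import Vale.Agent.Lib.P355.ChkT2

/-!
The table of tuples at the 240th roots of unity: orbit numbers of rows.
-/

namespace Vale.Agent.Lib.P355

open Finset C240

attribute [local irreducible] C240.Tb C240.OD C240.allN C240.chkRow

/-- The row `r` is, up to a constant and a rearrangement, a tuple of the table with orbit number
`k`. -/
def Idx (r : Fin 6 → ℤ) (k : ℕ) : Prop :=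
  ∃ c : ℤ, ∃ e ∈ Tl, e.getD 0 0 = k ∧ (tL240 fun l => dgt240 (r l - c)).Perm (e.drop 4)

lemma idx_of_nf {r : Fin 6 → ℤ} (h : NF r) : ∃ k, Idx r k := by
  obtain ⟨c, e, he, hp⟩ := h
  exact ⟨e.getD 0 0, c, e, he, rfl, hp⟩

lemma mem_Tl_all {f : List ℕ → Bool}
    (h : ∀ j, j < 12 → rngT f (Nat.mul 20 j) 20 = true) {e : List ℕ} (he : e ∈ Tl) : f e = true := by
  unfold Tl at he
  obtain ⟨g, hg, heg⟩ := List.mem_flatten.mp he
  obtain ⟨i, hi, rfl⟩ := List.getElem_of_mem hg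
  have hi' : i < 240 := by rw [← Tb_len]; exact hi
  have h1 := h (i / 20) (by omega)
  have h2 : (Tb.getD (Nat.add (Nat.mul 20 (i / 20)) (i % 20)) []).all f = true :=
    allN_lt (f := fun x => (Tb.getD (Nat.add (Nat.mul 20 (i / 20)) x) []).all f) h1 (Nat.mod_lt _ (by norm_num))
  have h3 : Nat.add (Nat.mul 20 (i / 20)) (i % 20) = i := by
    show 20 * (i / 20) + i % 20 = i
    omega
  rw [h3, List.getD_eq_getElem _ _ hi] at h2
  exact List.all_eq_true.mp h2 e heg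

lemma dgt_rot (t : ℤ) {y : ℕ} (hy : y ≤ 240) :
    dgt240 (t - y) = Nat.mod (Nat.sub (Nat.add (dgt240 t) 240) y) 240 := by
  show _ = (dgt240 t + 240 - y) % 240
  have h1 := dgt240_cast t
  have h2 := dgt240_lt t
  have h3 := dgt240_cast (t - y)
  have h4 := dgt240_lt (t - y)
  omega

lemma dgt_mul (u : ℕ) (t : ℤ) : dgt240 ((u : ℤ) * t) = Nat.mod (Nat.mul u (dgt240 t)) 240 := by
  show _ = (u * dgt240 t) % 240
  have h1 := dgt240_cast t
  obtain ⟨s, hs⟩ : ∃ s : ℤ, ((dgt240 t : ℕ) : ℤ) = t - 240 * s :=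
    ⟨t / 240, by have := Int.emod_add_mul_ediv t 240; rw [h1]; linarith⟩
  have h3 := dgt240_cast ((u : ℤ) * t)
  have h4 := dgt240_lt ((u : ℤ) * t)
  have h7 : (u : ℤ) * t = ((u * dgt240 t : ℕ) : ℤ) + 240 * ((u : ℤ) * s) := by
    push_cast
    rw [hs]; ring
  have h8 : (u : ℤ) * t % 240 = (((u * dgt240 t : ℕ) : ℤ) + 240 * ((u : ℤ) * s)) % 240 := by rw [← h7]
  rw [h8] at h3
  generalize dgt240 ((u : ℤ) * t) = A at h3 h4 ⊢
  generalize u * dgt240 t = K at h3 ⊢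
  generalize (u : ℤ) * s = C at h3
  omega

lemma dgt_congr {a b : ℤ} (h : (240 : ℤ) ∣ a - b) : dgt240 a = dgt240 b := by
  have h1 := dgt240_cast a
  have h2 := dgt240_cast b
  omega

lemma tL_rot (r : Fin 6 → ℤ) (c : ℤ) {y : ℕ} (hy : y ≤ 240) :
    (tL240 fun l => dgt240 (r l - (c + y))) = rotL y (tL240 fun l => dgt240 (r l - c)) := by
  have e : ∀ l, r l - (c + y) = (r l - c) - y := fun l => by ring
  simp only [tL240, rotL, List.map_cons, List.map_nil, e, dgt_rot _ hy]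

lemma tL_mul (u : ℕ) (r : Fin 6 → ℤ) (c : ℤ) :
    (tL240 fun l => dgt240 ((u : ℤ) * r l - (u : ℤ) * c))
      = mulL u (tL240 fun l => dgt240 (r l - c)) := by
  have e : ∀ l, (u : ℤ) * r l - (u : ℤ) * c = (u : ℤ) * (r l - c) := fun l => by ring
  simp only [tL240, mulL, List.map_cons, List.map_nil, e, dgt_mul]

lemma srt_perm' (l : List ℕ) : (srt l).Perm l := List.perm_insertionSort _ _

/-- the table is closed under the generators of the units -/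
lemma idx_gen {g : ℕ} (hg : ∀ j, j < 12 → rngT (okB1 g) (Nat.mul 20 j) 20 = true) {r : Fin 6 → ℤ} {k : ℕ}
    (h : Idx r k) : Idx (fun l => (g : ℤ) * r l) k := by
  obtain ⟨c, e, he, hk, hp⟩ := h
  have h1 : okB1 g e = true := mem_Tl_all hg he
  unfold okB1 inTk at h1
  obtain ⟨e', he', hd⟩ := List.any_eq_true.mp h1
  obtain ⟨hd1, hd2⟩ := of_decide_eq_true hd
  refine ⟨(g : ℤ) * c, e', mem_lkp he', by rw [hd1, hk], ?_⟩
  rw [tL_mul, hd2]
  exact (hp.map _).trans (srt_perm' _).symm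

/-- closure under a multiplier -/
def Cl (m : ℕ) : Prop := ∀ (r : Fin 6 → ℤ) (k : ℕ), Idx r k → Idx (fun l => (m : ℤ) * r l) k

lemma Cl_one : Cl 1 := fun r k h => by simpa using h

lemma Cl_mul {a b : ℕ} (ha : Cl a) (hb : Cl b) : Cl (a * b) := fun r k h => by
  have := ha _ _ (hb r k h)
  simpa only [Nat.cast_mul, mul_assoc] using this

lemma Cl_pow {a : ℕ} (ha : Cl a) : ∀ n, Cl (a ^ n)
  | 0 => by simpa using Cl_one
  | n + 1 => by
    rw [pow_succ]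
    exact Cl_mul (Cl_pow ha n) ha

lemma Cl_congr {a b : ℕ} (h : a % 240 = b % 240) (ha : Cl a) : Cl b := fun r k hr => by
  obtain ⟨c, e, he, hk, hp⟩ := ha r k hr
  refine ⟨c, e, he, hk, ?_⟩
  have hd : ∀ l, dgt240 ((b : ℤ) * r l - c) = dgt240 ((a : ℤ) * r l - c) := by
    intro l
    apply dgt_congr
    have h1 : (240 : ℤ) ∣ (b : ℤ) - a := by omega
    have h2 : (b : ℤ) * r l - c - ((a : ℤ) * r l - c) = ((b : ℤ) - a) * r l := by ring
    rw [h2]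
    exact Dvd.dvd.mul_right h1 _
  simp only [hd]
  exact hp

lemma Cl_7 : Cl 7 := fun _ _ h => idx_gen okB7_all h
lemma Cl_11 : Cl 11 := fun _ _ h => idx_gen okB11_all h
lemma Cl_13 : Cl 13 := fun _ _ h => idx_gen okB13_all h
lemma Cl_17 : Cl 17 := fun _ _ h => idx_gen okB17_all h

/-- the units are products of the generators -/
theorem U_dec : ∀ u ∈ U, ∃ a ∈ List.range 5, ∃ b ∈ List.range 5, ∃ c ∈ List.range 5,
    ∃ d ∈ List.range 5, (7 ^ a * 11 ^ b * 13 ^ c * 17 ^ d) % 240 = u % 240 := by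
  decide +kernel

lemma Cl_U {u : ℕ} (hu : u ∈ U) : Cl u := by
  obtain ⟨a, -, b, -, c, -, d, -, h⟩ := U_dec u hu
  exact Cl_congr h (Cl_mul (Cl_mul (Cl_mul (Cl_pow Cl_7 a) (Cl_pow Cl_11 b)) (Cl_pow Cl_13 c))
    (Cl_pow Cl_17 d))

/-- the elements of `U` satisfy what the twist needs -/
theorem U_gcd : ∀ k ∈ U, (k ^ 3).Coprime 240 ∧ k ^ 4 % 240 = 1 ∧ k < 240 := by decide +kernel

lemma okA_parts {e : List ℕ} (he : e ∈ Tl) :
    e.getD 2 0 ≤ 240 ∧ e.getD 3 0 ≤ 240 ∧ e.getD 1 0 ∈ U ∧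
      (∃ q ∈ OD.getD (e.getD 0 0) [], q.tail = srt (rotL (e.getD 3 0) (e.drop 4))) ∧
      srt (rotL (e.getD 2 0) (mulL (e.getD 1 0) (e.drop 4))) = piv (e.getD 0 0) := by
  have h1 : okA e = true := mem_Tl_all okA_all he
  unfold okA at h1
  simp only [Bool.and_eq_true] at h1
  obtain ⟨⟨⟨⟨hy, hy'⟩, hu⟩, hany⟩, hpiv⟩ := h1
  obtain ⟨q, hq, hd⟩ := List.any_eq_true.mp hany
  exact ⟨Nat.le_of_ble_eq_true hy, Nat.le_of_ble_eq_true hy', List.elem_iff.mp hu,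
    ⟨q, hq, of_decide_eq_true hd⟩, of_decide_eq_true hpiv⟩

/-- a twist of a row brings it to the pivot of its orbit -/
lemma twist_data {r : Fin 6 → ℤ} {k : ℕ} (h : Idx r k) :
    ∃ u ∈ U, ∃ c0 : ℤ, (tL240 fun l => dgt240 ((u : ℤ) * r l - c0)).Perm (piv k) ∧
      (piv k).Pairwise (· ≤ ·) := by
  obtain ⟨c, e, he, hk, hp⟩ := h
  obtain ⟨hy, -, hu, -, hpiv⟩ := okA_parts he
  rw [hk] at hpiv
  refine ⟨e.getD 1 0, hu, ((e.getD 1 0 : ℕ) : ℤ) * c + ((e.getD 2 0 : ℕ) : ℤ), ?_, ?_⟩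
  · rw [tL_rot (fun l => ((e.getD 1 0 : ℕ) : ℤ) * r l) _ hy, tL_mul, ← hpiv]
    exact (((hp.map _).map _)).trans (srt_perm' _).symm
  · rw [← hpiv]
    exact srt_pw _

/-- a row in a class is a rearrangement of a representative of the class -/
lemma idx_rep {r : Fin 6 → ℤ} {k : ℕ} (h : Idx r k) :
    ∃ c : ℤ, ∃ q ∈ OD.getD k [], (tL240 fun l => dgt240 (r l - c)).Perm q.tail := by
  obtain ⟨c, e, he, hk, hp⟩ := h
  obtain ⟨-, hy, -, ⟨q, hq, hd⟩, -⟩ := okA_parts he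
  rw [hk] at hq
  refine ⟨c + ((e.getD 3 0 : ℕ) : ℤ), q, hq, ?_⟩
  rw [tL_rot _ _ hy, hd]
  exact (hp.map _).trans (srt_perm' _).symm

lemma tL_eq_ofFn (f : Fin 6 → ℕ) : tL240 f = List.ofFn f := by
  simp [tL240, List.ofFn_succ]

lemma tL_comp_perm (f : Fin 6 → ℕ) (τ : Equiv.Perm (Fin 6)) : (tL240 (f ∘ τ)).Perm (tL240 f) := by
  rw [tL_eq_ofFn, tL_eq_ofFn]
  exact Equiv.Perm.ofFn_comp_perm τ f

end Vale.Agent.Lib.P355
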