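import Mathlib
import Vale.Agent.Lib.P355.Fin0
import Vale.Agent.Lib.P355.ChkPAll

/-!
Soundness of the enumeration of arrangements and of the clique searches.
-/

namespace Vale.Agent.Lib.P355

open Finset C240

attribute [local irreducible] C240.Tb C240.OD C240.allN C240.chkRow C240.mu C240.orth C240.SS

lemma mem_flt240 {f : ℕ → Bool} {a : ℕ} {l : List ℕ} (ha : a ∈ l) (hf : f a = true) :
    a ∈ flt f l := by
  induction l with
  | nil => cases ha
  | cons b l ih =>
    have hs : flt f (b :: l) = fltS f b (flt f l) := rfl
    rw [hs]
    unfold fltS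
    rcases List.mem_cons.mp ha with rfl | h
    · rw [hf]; exact List.mem_cons_self
    · cases f b with
      | false => exact ih h
      | true => exact List.mem_cons_of_mem _ (ih h)

lemma isE_not_mem240 {a : ℕ} {l : List ℕ} (h : isE l = true) : a ∉ l := by
  cases l with
  | nil => simp
  | cons b l => cases h

lemma rmv_eq240 (a : ℕ) (l : List ℕ) : rmv a l = l.erase a := by
  induction l with
  | nil => rfl
  | cons x l ih =>
    have hs : rmv a (x :: l) = rmvS a x l (rmv a l) := rfl
    rw [hs, ih]
    unfold rmvS
    by_cases h : x = a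
    · subst h
      have : Nat.beq x x = true := Nat.beq_refl x
      rw [this]
      simp
    · have h' : a ≠ x := fun e => h e.symm
      have : Nat.beq a x = false := by
        cases hb : Nat.beq a x with
        | false => rfl
        | true => exact absurd (Nat.eq_of_beq_eq_true hb) h'
      rw [this, List.erase_cons_tail]
      simpa using h

lemma mem_dd240 {a : ℕ} {l : List ℕ} (h : a ∈ l) : a ∈ dd l := by
  induction l with
  | nil => cases h
  | cons x l ih =>
    have hs : dd (x :: l) = ddS x (dd l) := rfl
    rw [hs]
    unfold ddS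
    cases hd : dd l with
    | nil =>
      rcases List.mem_cons.mp h with rfl | h'
      · exact List.mem_cons_self
      · have := ih h'
        rw [hd] at this
        cases this
    | cons y t =>
      show a ∈ (Bool.rec (x :: y :: t) (y :: t) (Nat.beq x y) : List ℕ)
      cases hb : Nat.beq x y with
      | false =>
        rcases List.mem_cons.mp h with rfl | h'
        · exact List.mem_cons_self
        · have := ih h'
          rw [hd] at this
          exact List.mem_cons_of_mem _ this
      | true =>
        have hxy := Nat.eq_of_beq_eq_true hb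
        rcases List.mem_cons.mp h with rfl | h'
        · rw [hxy]; exact List.mem_cons_self
        · have := ih h'
          rw [hd] at this
          exact this

lemma fold_tail240 {α : Type} {g : α → List ℕ → List ℕ} (hg : ∀ a t x, x ∈ t → x ∈ g a t)
    (ds : List α) (tail : List ℕ) {x : ℕ} (hx : x ∈ tail) :
    x ∈ (List.rec (motive := fun _ => List ℕ) tail (fun a _ ih => g a ih) ds : List ℕ) := by
  induction ds with
  | nil => exact hx
  | cons a ds ih => exact hg _ _ _ ih

lemma fold_mem240 {α : Type} {g : α → List ℕ → List ℕ} (hg : ∀ a t x, x ∈ t → x ∈ g a t)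
    {a : α} {x : ℕ} (hx : ∀ t, x ∈ g a t) {ds : List α} (ha : a ∈ ds) (tail : List ℕ) :
    x ∈ (List.rec (motive := fun _ => List ℕ) tail (fun a _ ih => g a ih) ds : List ℕ) := by
  induction ds with
  | nil => cases ha
  | cons b ds ih =>
    rcases List.mem_cons.mp ha with rfl | h'
    · exact hx _
    · exact hg _ _ _ (ih h')

lemma mem_gn_tail240 : ∀ (k : ℕ) (vals : List ℕ) (m pre : ℕ) (tail : List ℕ) {x : ℕ}, x ∈ tail →
    x ∈ gn k vals m pre tail := by
  intro k
  induction k with
  | zero =>
    intro vals m pre tail x hx
    exact List.mem_cons_of_mem _ hx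
  | succ k ih =>
    intro vals m pre tail x hx
    exact fold_tail240 (g := fun a t => gn k (rmv a vals) (Nat.mul m 512)
      (Nat.add pre (Nat.mul m a)) t) (fun a t x hx => ih _ _ _ _ hx) (dd vals) tail hx

lemma mem_gn240 : ∀ (k : ℕ) (vals l : List ℕ) (m pre : ℕ) (tail : List ℕ), l.length = k → l.Perm vals →
    pre + m * enc l ∈ gn k vals m pre tail := by
  intro k
  induction k with
  | zero =>
    intro vals l m pre tail hl _
    have : l = [] := List.length_eq_zero_iff.mp hl
    subst this
    exact List.mem_cons_self
  | succ k ih =>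
    intro vals l m pre tail hl hp
    cases l with
    | nil => simp at hl
    | cons a l' =>
      have h1 := List.cons_perm_iff_perm_erase.mp hp
      have hval : pre + m * enc (a :: l') =
          Nat.add pre (Nat.mul m a) + Nat.mul m 512 * enc l' := by
        show pre + m * (a + 512 * enc l') = pre + m * a + m * 512 * enc l'
        ring
      rw [hval]
      exact fold_mem240 (g := fun a t => gn k (rmv a vals) (Nat.mul m 512)
        (Nat.add pre (Nat.mul m a)) t) (fun a t x hx => mem_gn_tail240 _ _ _ _ _ hx)
        (fun t => ih (rmv a vals) l' (Nat.mul m 512) (Nat.add pre (Nat.mul m a)) t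
          (by simpa using hl) (by rw [rmv_eq240]; exact h1.2)) (mem_dd240 h1.1) tail

lemma fltC_tail {f : ℕ → Bool} : ∀ (n C : ℕ) (tail : List ℕ) {x : ℕ}, x ∈ tail → x ∈ fltC f n C tail := by
  intro n
  induction n with
  | zero =>
    intro C tail x hx
    exact hx
  | succ n ih =>
    intro C tail x hx
    have hs : fltC f (n + 1) C tail = Bool.rec (fltC f n (Nat.div C 18014398509481984) tail)
        (List.cons (Nat.mod C 18014398509481984) (fltC f n (Nat.div C 18014398509481984) tail))
        (f (Nat.mod C 18014398509481984)) := rfl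
    rw [hs]
    cases f (Nat.mod C 18014398509481984) with
    | false => exact ih _ _ hx
    | true => exact List.mem_cons_of_mem _ (ih _ _ hx)

lemma fltC_mem {f : ℕ → Bool} : ∀ (n C : ℕ) (tail : List ℕ) {x : ℕ}, x ∈ decC n C → f x = true →
    x ∈ fltC f n C tail := by
  intro n
  induction n with
  | zero =>
    intro C tail x hx _
    cases hx
  | succ n ih =>
    intro C tail x hx hf
    have hs : fltC f (n + 1) C tail = Bool.rec (fltC f n (Nat.div C 18014398509481984) tail)
        (List.cons (Nat.mod C 18014398509481984) (fltC f n (Nat.div C 18014398509481984) tail))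
        (f (Nat.mod C 18014398509481984)) := rfl
    have hd : decC (n + 1) C = (Nat.mod C 18014398509481984) ::
        decC n (Nat.div C 18014398509481984) := rfl
    rw [hs]
    rw [hd] at hx
    rcases List.mem_cons.mp hx with rfl | h
    · rw [hf]; exact List.mem_cons_self
    · cases f (Nat.mod C 18014398509481984) with
      | false => exact ih _ _ h hf
      | true => exact List.mem_cons_of_mem _ (ih _ _ h hf)

lemma fltX_tail {f : ℕ → Bool} (e tail : List ℕ) {x : ℕ} (hx : x ∈ tail) : x ∈ fltX f e tail := by
  cases e with
  | nil => exact hx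
  | cons X r => exact fltC_tail _ _ _ hx

lemma fltX_mem {f : ℕ → Bool} {e : List ℕ} (tail : List ℕ) {x : ℕ} (hx : x ∈ decX e) (hf : f x = true) :
    x ∈ fltX f e tail := by
  cases e with
  | nil => cases hx
  | cons X r => exact fltC_mem _ _ _ hx hf

lemma fltO_tail {f : ℕ → Bool} (o : List (List ℕ)) (tail : List ℕ) {x : ℕ} (hx : x ∈ tail) :
    x ∈ fltO f o tail :=
  fold_tail240 (g := fltX f) (fun a t _ h => fltX_tail a t h) o tail hx

lemma fltO_mem {f : ℕ → Bool} {o : List (List ℕ)} {e : List ℕ} (he : e ∈ o) (tail : List ℕ) {x : ℕ}
    (hx : x ∈ decX e) (hf : f x = true) : x ∈ fltO f o tail :=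
  fold_mem240 (g := fltX f) (fun a t _ h => fltX_tail a t h) (fun t => fltX_mem t hx hf) he tail

lemma fltJ_mem {f : ℕ → Bool} {os : List (List (List ℕ))} {o : List (List ℕ)} {e : List ℕ}
    (ho : o ∈ os) (he : e ∈ o) {x : ℕ} (hx : x ∈ decX e) (hf : f x = true) : x ∈ fltJ f os :=
  fold_mem240 (g := fltO f) (fun a t _ h => fltO_tail a t h) (fun t => fltO_mem he t hx hf) ho []

/-- every arrangement of a representative is listed -/
lemma eF_in_dec {q : List ℕ} {o : List (List ℕ)} (ho : o ∈ OD) (hq : q ∈ o) {f : Fin 6 → ℕ}
    (hp : (tL240 f).Perm q.tail) : eF240 f ∈ decX q := by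
  obtain ⟨i, hi, rfl⟩ := List.getElem_of_mem ho
  have hi' : i < 49 := by rw [← OD_len]; exact hi
  have h0 := okX_all i hi'
  rw [List.getD_eq_getElem _ _ hi] at h0
  have h1 : okX q = true := List.all_eq_true.mp h0 q hq
  have h2 : decX q = gn 6 q.tail 1 0 [] := of_decide_eq_true h1
  rw [h2]
  have := mem_gn240 6 q.tail (tL240 f) 1 0 [] rfl hp
  rw [zero_add, one_mul] at this
  exact this

lemma getD_mem_drop {α : Type} {L : List (List α)} {j k : ℕ} {q : α} (hq : q ∈ L.getD j []) (h : k ≤ j) :
    L.getD j [] ∈ L.drop k := by
  by_cases hj : j < L.length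
  · rw [List.getD_eq_getElem _ _ hj]
    obtain ⟨i, rfl⟩ : ∃ i, j = k + i := ⟨j - k, by omega⟩
    have hlen : i < (L.drop k).length := by
      rw [List.length_drop]; omega
    have := List.getElem_mem hlen
    rwa [List.getElem_drop] at this
  · rw [List.getD_eq_default _ _ (by omega)] at hq
    cases hq

lemma drop_sub {α : Type} {L : List α} (k : ℕ) {x : α} (h : x ∈ L.drop k) : x ∈ L :=
  List.mem_of_mem_drop h

/-- a row of orbit number at least `k` is in the list of orbits from `k` on -/
lemma idx_mem {r : Fin 6 → ℤ} {j k : ℕ} (h : Idx r j) (hk : k ≤ j) :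
    ∃ c : ℤ, ∀ (τ : Equiv.Perm (Fin 6)) (f : ℕ → Bool),
      f (eF240 fun l => dgt240 (r (τ l) - c)) = true →
        (eF240 fun l => dgt240 (r (τ l) - c)) ∈ fltJ f (OD.drop k) := by
  obtain ⟨c, q, hq, hp⟩ := idx_rep h
  refine ⟨c, fun τ f hf => ?_⟩
  have ho := getD_mem_drop hq hk
  have hp' : (tL240 fun l => dgt240 (r (τ l) - c)).Perm q.tail :=
    (tL_comp_perm (fun l => dgt240 (r l - c)) τ).trans hp
  exact fltJ_mem ho hq (eF_in_dec (drop_sub k ho) hq hp') hf

lemma orth240_self (w : ℕ) : orth w w = false := by
  rw [orth240_eq]
  have h : w + CC240 - w = CC240 := by omega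
  rw [h]
  have : SS CC240 % p = 6 := by
    unfold SS
    decide +kernel
  rw [this]
  rfl

/-- soundness of the search for orthogonal cliques -/
theorem cq_false : ∀ (k : ℕ) (M S : List ℕ), S.length = k → S.Nodup →
    (∀ a ∈ S, ∀ b ∈ S, a ≠ b → orth a b = true) → (∀ s ∈ S, s ∈ M) → cq k M = true → False := by
  intro k
  induction k with
  | zero =>
    intro M S _ _ _ _ hc
    cases hc
  | succ k ih =>
    intro M S hlen hnd hS hSM hc
    induction M with
    | nil =>
      have : S ≠ [] := by
        intro h
        rw [h] at hlen
        simp at hlen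
      obtain ⟨s, hs⟩ := List.exists_mem_of_ne_nil S this
      exact absurd (hSM s hs) (by simp)
    | cons a rest ih2 =>
      have hstep : cq (k + 1) (a :: rest) = Bool.rec false (cq (k + 1) rest)
          (cq k (flt (orth a) rest)) := rfl
      rw [hstep] at hc
      cases hfirst : cq k (flt (orth a) rest) with
      | false => rw [hfirst] at hc; cases hc
      | true =>
        rw [hfirst] at hc
        by_cases haS : a ∈ S
        · refine ih (flt (orth a) rest) (S.erase a) ?_ (hnd.erase a) ?_ ?_ hfirst
          · rw [List.length_erase_of_mem haS, hlen]; rfl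
          · intro b hb c hc' hbc
            exact hS b (List.mem_of_mem_erase hb) c (List.mem_of_mem_erase hc') hbc
          · intro s hs
            have hs' := (hnd.mem_erase_iff).mp hs
            have hm := hSM s hs'.2
            rcases List.mem_cons.mp hm with h | h
            · exact absurd h hs'.1
            · exact mem_flt240 h (hS a haS s hs'.2 (Ne.symm hs'.1))
        · refine ih2 ?_ hc
          intro s hs
          rcases List.mem_cons.mp (hSM s hs) with h | h
          · subst h; exact absurd hs haS
          · exact h

/-- soundness of the search for orthogonal cliques with a common unbiased vector -/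
theorem cl_false240 : ∀ (k : ℕ) (M X S : List ℕ) (x : ℕ), S.length = k → S.Nodup →
    (∀ a ∈ S, ∀ b ∈ S, a ≠ b → orth a b = true) → (∀ s ∈ S, s ∈ M) → x ∈ X →
    (∀ s ∈ S, C240.mu s x = true) → cl k M X = true → False := by
  intro k
  induction k with
  | zero =>
    intro M X S x _ _ _ _ hx _ hc
    exact isE_not_mem240 hc hx
  | succ k ih =>
    intro M X S x hlen hnd hS hSM hx hmu hc
    induction M with
    | nil =>
      have : S ≠ [] := by
        intro h
        rw [h] at hlen
        simp at hlen
      obtain ⟨s, hs⟩ := List.exists_mem_of_ne_nil S this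
      exact absurd (hSM s hs) (by simp)
    | cons a rest ih2 =>
      have hstep : cl (k + 1) (a :: rest) X = Bool.rec false (cl (k + 1) rest X)
          (cl k (flt (orth a) rest) (flt (C240.mu a) X)) := rfl
      rw [hstep] at hc
      cases hfirst : cl k (flt (orth a) rest) (flt (C240.mu a) X) with
      | false => rw [hfirst] at hc; cases hc
      | true =>
        rw [hfirst] at hc
        by_cases haS : a ∈ S
        · refine ih (flt (orth a) rest) (flt (C240.mu a) X) (S.erase a) x ?_
            (hnd.erase a) ?_ ?_ (mem_flt240 hx (hmu a haS)) ?_ hfirst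
          · rw [List.length_erase_of_mem haS, hlen]; rfl
          · intro b hb c hc' hbc
            exact hS b (List.mem_of_mem_erase hb) c (List.mem_of_mem_erase hc') hbc
          · intro s hs
            have hs' := (hnd.mem_erase_iff).mp hs
            have hm := hSM s hs'.2
            rcases List.mem_cons.mp hm with h | h
            · exact absurd h hs'.1
            · exact mem_flt240 h (hS a haS s hs'.2 (Ne.symm hs'.1))
          · intro s hs
            exact hmu s (List.mem_of_mem_erase hs)
        · refine ih2 ?_ hc
          intro s hs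
          rcases List.mem_cons.mp (hSM s hs) with h | h
          · subst h; exact absurd hs haS
          · exact h

end Vale.Agent.Lib.P355
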