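import Mathlib
import Vale.Agent.Lib.P355.Fin1

/-!
The final impossibility over the 240th roots of unity.
-/

namespace Vale.Agent.Lib.P355

open Finset C240

attribute [local irreducible] C240.Tb C240.OD C240.allN C240.chkRow C240.mu C240.orth C240.SS
  C240.chkA C240.chkB

section

variable {ζ : ℂ}

lemma twist_zeta (hζ : IsPrimitiveRoot ζ 240) {u : ℕ} (hu : u ∈ U) :
    IsPrimitiveRoot (ζ ^ (u ^ 3)) 240 ∧ ∀ x : ℤ, (ζ ^ (u ^ 3)) ^ ((u : ℤ) * x) = ζ ^ x := by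
  obtain ⟨hco, h4, -⟩ := U_gcd u hu
  refine ⟨hζ.pow_of_coprime _ hco, fun x => ?_⟩
  rw [← zpow_natCast, ← zpow_mul]
  apply zpow_congr240 hζ.pow_eq_one
  have h5 : ((u ^ 4 : ℕ) : ℤ) % 240 = 1 := by exact_mod_cast h4
  have h6 : (((u ^ 3 : ℕ) : ℤ) * ((u : ℤ) * x)) - x = (((u ^ 4 : ℕ) : ℤ) - 1) * x := by
    push_cast; ring
  rw [h6]
  apply Dvd.dvd.mul_right
  omega

/-- the encoding of a twisted row in the new coordinates -/
def Wd (u : ℕ) (τ : Equiv.Perm (Fin 6)) (r : Fin 6 → ℤ) (c : ℤ) : ℕ :=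
  eF240 fun l => dgt240 ((u : ℤ) * r (τ l) - c)

lemma sum_W {ζ' : ℂ} (h0 : ζ' ≠ 0) {u : ℕ} (hz : ∀ x : ℤ, ζ' ^ ((u : ℤ) * x) = ζ ^ x)
    (τ : Equiv.Perm (Fin 6)) (r s : Fin 6 → ℤ) (c d : ℤ) :
    ∑ l, ζ' ^ (((u : ℤ) * r (τ l) - c) - ((u : ℤ) * s (τ l) - d))
      = ζ' ^ (d - c) * ∑ l, ζ ^ (r l - s l) := by
  rw [← Equiv.sum_comp τ (fun l => ζ ^ (r l - s l)), Finset.mul_sum]
  refine Finset.sum_congr rfl fun l _ => ?_
  rw [← hz, ← zpow_add₀ h0]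
  congr 1
  ring

lemma orth_W {ζ' : ℂ} (hζ' : IsPrimitiveRoot ζ' 240) {u : ℕ}
    (hz : ∀ x : ℤ, ζ' ^ ((u : ℤ) * x) = ζ ^ x) (τ : Equiv.Perm (Fin 6)) {r s : Fin 6 → ℤ} (c d : ℤ)
    (h : ∑ l, ζ ^ (r l - s l) = 0) : C240.orth (Wd u τ r c) (Wd u τ s d) = true := by
  apply bridge240_orth hζ'
  rw [sum_W (hζ'.ne_zero (by norm_num)) hz, h, mul_zero]

lemma mu_W {ζ' : ℂ} (hζ' : IsPrimitiveRoot ζ' 240) {u : ℕ}
    (hz : ∀ x : ℤ, ζ' ^ ((u : ℤ) * x) = ζ ^ x) (τ : Equiv.Perm (Fin 6)) {r s : Fin 6 → ℤ} (c d : ℤ)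
    (h : (∑ l, ζ ^ (r l - s l)) * (∑ l, ζ ^ (s l - r l)) = 6) :
    C240.mu (Wd u τ r c) (Wd u τ s d) = true := by
  have h0 := hζ'.ne_zero (by norm_num)
  apply bridge240_mu hζ'
  rw [sum_W h0 hz, sum_W h0 hz]
  calc ζ' ^ (d - c) * (∑ l, ζ ^ (r l - s l)) * (ζ' ^ (c - d) * ∑ l, ζ ^ (s l - r l))
      = (ζ' ^ (d - c) * ζ' ^ (c - d)) * ((∑ l, ζ ^ (r l - s l)) * ∑ l, ζ ^ (s l - r l)) := by ring
    _ = 6 := by
      rw [← zpow_add₀ h0, h]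
      simp

/-- the coordinates and the twist bringing a row to the pivot of its orbit -/
lemma pivot_data {p : Fin 6 → ℤ} {k : ℕ} (hp : Idx p k) :
    ∃ u ∈ U, ∃ c0 : ℤ, ∃ τ : Equiv.Perm (Fin 6), enc (piv k) = Wd u τ p c0 := by
  obtain ⟨u, hu, c0, hperm, hsorted⟩ := twist_data hp
  set f0 : Fin 6 → ℕ := fun l => dgt240 ((u : ℤ) * p l - c0) with hf0
  set τ := Tuple.sort f0 with hτ
  have hmono : Monotone (f0 ∘ τ) := Tuple.monotone_sort f0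
  have hpiv : tL240 (f0 ∘ τ) = piv k := by
    have h1 : (tL240 (f0 ∘ τ)).Perm (piv k) := (tL_comp_perm f0 τ).trans hperm
    refine h1.eq_of_pairwise' ?_ hsorted
    rw [tL_eq_ofFn]
    exact hmono.sortedLE_ofFn.pairwise
  refine ⟨u, hu, c0, τ, ?_⟩
  rw [← hpiv]
  rfl

lemma idx_mem_W {r : Fin 6 → ℤ} {j k u : ℕ} (h : Idx (fun l => (u : ℤ) * r l) j) (hk : k ≤ j) :
    ∃ c : ℤ, ∀ (τ : Equiv.Perm (Fin 6)) (f : ℕ → Bool), f (Wd u τ r c) = true →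
      Wd u τ r c ∈ fltJ f (OD.drop k) :=
  idx_mem h hk

attribute [local irreducible] Wd

/-- four rows other than a given one give a clique in the list of arrangements orthogonal to it -/
lemma clique_of (hζ : IsPrimitiveRoot ζ 240) {u : ℕ} (hu : u ∈ U) (τ : Equiv.Perm (Fin 6))
    {t : Fin 6 → Fin 6 → ℤ} (ho : ∀ i j, i ≠ j → ∑ l, ζ ^ (t i l - t j l) = 0) {kk : Fin 6 → ℕ}
    (hi : ∀ i, Idx (t i) (kk i)) {k : ℕ} (hk : ∀ i, k ≤ kk i) (i₀ : Fin 6) (c0 : ℤ) :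
    ∃ S : List ℕ, S.length = 4 ∧ S.Nodup ∧ (∀ a ∈ S, ∀ b ∈ S, a ≠ b → C240.orth a b = true) ∧
      (∀ s ∈ S, s ∈ fltJ (C240.orth (Wd u τ (t i₀) c0)) (OD.drop k)) ∧
      (∀ s ∈ S, ∃ i c, s = Wd u τ (t i) c) := by
  obtain ⟨hζ', hz⟩ := twist_zeta hζ hu
  set σ : Equiv.Perm (Fin 6) := Equiv.swap 0 i₀ with hσ
  have hσ0 : σ 0 = i₀ := Equiv.swap_apply_left _ _
  have hne : ∀ s : Fin 6, s ≠ 0 → i₀ ≠ σ s := by
    intro s hs h
    rw [← hσ0] at h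
    exact hs (σ.injective h).symm
  have hrow : ∀ s : Fin 6, s ≠ 0 → ∃ c : ℤ, Wd u τ (t (σ s)) c ∈
      fltJ (C240.orth (Wd u τ (t i₀) c0)) (OD.drop k) := by
    intro s hs
    obtain ⟨c, hc⟩ := idx_mem_W (Cl_U hu _ _ (hi (σ s))) (hk (σ s))
    exact ⟨c, hc τ _ (orth_W hζ' hz τ c0 c (ho i₀ (σ s) (hne s hs)))⟩
  obtain ⟨c1, h1⟩ := hrow 1 (by decide)
  obtain ⟨c2, h2⟩ := hrow 2 (by decide)
  obtain ⟨c3, h3⟩ := hrow 3 (by decide)
  obtain ⟨c4, h4⟩ := hrow 4 (by decide)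
  have hO : ∀ {s s' : Fin 6} {c c' : ℤ}, s ≠ s' → C240.orth (Wd u τ (t (σ s)) c) (Wd u τ (t (σ s')) c') = true := by
    intro s s' c c' hss
    exact orth_W hζ' hz τ c c' (ho _ _ fun h => hss (σ.injective h))
  have hN : ∀ {s s' : Fin 6} {c c' : ℤ}, s ≠ s' → Wd u τ (t (σ s)) c ≠ Wd u τ (t (σ s')) c' := by
    intro s s' c c' hss heq
    have := hO (c := c) (c' := c') hss
    rw [heq, orth240_self] at this
    cases this
  refine ⟨[Wd u τ (t (σ 1)) c1, Wd u τ (t (σ 2)) c2, Wd u τ (t (σ 3)) c3, Wd u τ (t (σ 4)) c4],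
    rfl, ?_, ?_, ?_, ?_⟩
  · simp only [List.nodup_cons, List.mem_cons, List.not_mem_nil, or_false, not_or,
      List.nodup_nil, and_true, not_false_eq_true]
    refine ⟨⟨?_, ?_, ?_⟩, ⟨?_, ?_⟩, ?_⟩ <;> exact hN (by decide)
  · intro a ha b hb hab
    simp only [List.mem_cons, List.not_mem_nil, or_false] at ha hb
    rcases ha with rfl | rfl | rfl | rfl <;> rcases hb with rfl | rfl | rfl | rfl <;>
      first
        | exact hO (by decide)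
        | exact absurd rfl hab
  · intro s hs
    simp only [List.mem_cons, List.not_mem_nil, or_false] at hs
    rcases hs with rfl | rfl | rfl | rfl <;> assumption
  · intro s hs
    simp only [List.mem_cons, List.not_mem_nil, or_false] at hs
    rcases hs with rfl | rfl | rfl | rfl <;> exact ⟨_, _, rfl⟩

/-- In a family of six pairwise orthogonal rows all orbit numbers are at least `kC`. -/
theorem phaseA (hζ : IsPrimitiveRoot ζ 240) {t : Fin 6 → Fin 6 → ℤ}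
    (ho : ∀ i j, i ≠ j → ∑ l, ζ ^ (t i l - t j l) = 0) {kk : Fin 6 → ℕ}
    (hi : ∀ i, Idx (t i) (kk i)) : ∀ i, kC ≤ kk i := by
  by_contra hcon
  push Not at hcon
  obtain ⟨i₁, h₁⟩ := hcon
  obtain ⟨i₀, -, hmin⟩ := Finset.exists_min_image univ kk ⟨0, Finset.mem_univ _⟩
  have hk : kk i₀ < kC := (hmin i₁ (Finset.mem_univ _)).trans_lt h₁
  have hchk := chkA_all (kk i₀) hk
  obtain ⟨u, hu, c0, τ, hP⟩ := pivot_data (hi i₀)
  obtain ⟨S, hlen, hnd, hO, hM, -⟩ := clique_of hζ hu τ ho hi (k := kk i₀)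
    (fun i => hmin i (Finset.mem_univ _)) i₀ c0
  rw [← hP] at hM
  unfold chkA at hchk
  exact cq_false 4 _ S hlen hnd hO hM hchk

lemma idx_lt {r : Fin 6 → ℤ} {k : ℕ} (h : Idx r k) : k < 49 := by
  obtain ⟨c, q, hq, -⟩ := idx_rep h
  by_contra hk
  rw [List.getD_eq_default _ _ (by rw [OD_len]; omega)] at hq
  cases hq

/-- The final check. -/
theorem phaseB (hζ : IsPrimitiveRoot ζ 240) {t : Fin 6 → Fin 6 → ℤ} {w : Fin 6 → ℤ}
    (ho : ∀ i j, i ≠ j → ∑ l, ζ ^ (t i l - t j l) = 0)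
    (hm : ∀ i, (∑ l, ζ ^ (t i l - w l)) * (∑ l, ζ ^ (w l - t i l)) = 6) {kk : Fin 6 → ℕ}
    (hi : ∀ i, Idx (t i) (kk i)) (hk : ∀ i, kC ≤ kk i) {j : ℕ} (hj : Idx w j) (hjk : kC ≤ j) : False := by
  obtain ⟨i₀, -, hmin⟩ := Finset.exists_min_image univ kk ⟨0, Finset.mem_univ _⟩
  have hchk := chkB_all (kk i₀) (hk i₀) (idx_lt (hi i₀))
  obtain ⟨u, hu, c0, τ, hP⟩ := pivot_data (hi i₀)
  obtain ⟨hζ', hz⟩ := twist_zeta hζ hu
  obtain ⟨S, hlen, hnd, hO, hM, hform⟩ := clique_of hζ hu τ ho hi (k := kk i₀)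
    (fun i => hmin i (Finset.mem_univ _)) i₀ c0
  rw [← hP] at hM
  obtain ⟨d, hd⟩ := idx_mem_W (Cl_U hu _ _ hj) hjk
  have hx : Wd u τ w d ∈ fltJ (C240.mu (enc (piv (kk i₀)))) (OD.drop kC) := by
    apply hd τ
    rw [hP]
    exact mu_W hζ' hz τ c0 d (hm i₀)
  unfold chkB at hchk
  refine cl_false240 4 _ _ S (Wd u τ w d) hlen hnd hO hM hx ?_ hchk
  intro s hs
  obtain ⟨i, c, rfl⟩ := hform s hs
  exact mu_W hζ' hz τ c d (hm i)

/-- There are no two families of six pairwise orthogonal rows over the 240th roots of unity,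
unbiased to the all one vector and to each other. -/
theorem final240 (hζ : IsPrimitiveRoot ζ 240) (t w : Fin 6 → Fin 6 → ℤ)
    (hvt : ∀ i, (∑ l, ζ ^ (t i l)) * (∑ l, ζ ^ (-t i l)) = 6)
    (hvw : ∀ i, (∑ l, ζ ^ (w i l)) * (∑ l, ζ ^ (-w i l)) = 6)
    (hot : ∀ i j, i ≠ j → ∑ l, ζ ^ (t i l - t j l) = 0)
    (how : ∀ i j, i ≠ j → ∑ l, ζ ^ (w i l - w j l) = 0)
    (hm : ∀ i, (∑ l, ζ ^ (t i l - w 0 l)) * (∑ l, ζ ^ (w 0 l - t i l)) = 6) : False := by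
  have h1 : ∀ i, ∃ k, Idx (t i) k := fun i => idx_of_nf (nf_all hζ (hvt i))
  have h2 : ∀ i, ∃ k, Idx (w i) k := fun i => idx_of_nf (nf_all hζ (hvw i))
  choose kt hkt using h1
  choose kw hkw using h2
  exact phaseB hζ hot hm hkt (phaseA hζ hot hkt) (hkw 0) (phaseA hζ how hkw 0)

end

end Vale.Agent.Lib.P355
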