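import Mathlib
import Vale.Agent.Lib.P355.Defs
import Vale.Agent.Lib.P355.Classes

/-!
From mutually unbiased bases of Butson type to exponent tuples.
-/

namespace Vale.Agent.Lib.P355

open Finset

section

variable {ζ : ℂ}

lemma inner_term (hnorm : ‖ζ‖ = 1) {a b : ℂ} {f h : ℤ} :
    (a * ζ ^ f / ((Real.sqrt 6 : ℝ) : ℂ)) * star (b * ζ ^ h / ((Real.sqrt 6 : ℝ) : ℂ))
      = (a * star b / 6) * ζ ^ (f - h) := by
  have hζ0 : ζ ≠ 0 := by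
    intro h0; rw [h0] at hnorm; simp at hnorm
  have hs : ((Real.sqrt 6 : ℝ) : ℂ) * ((Real.sqrt 6 : ℝ) : ℂ) = 6 := by
    rw [← Complex.ofReal_mul, Real.mul_self_sqrt (by norm_num)]
    norm_num
  have hs0 : ((Real.sqrt 6 : ℝ) : ℂ) ≠ 0 := by
    intro h0; rw [h0] at hs; norm_num at hs
  have hstar : star (b * ζ ^ h / ((Real.sqrt 6 : ℝ) : ℂ))
      = star b * ζ ^ (-h) / ((Real.sqrt 6 : ℝ) : ℂ) := by
    show (starRingEnd ℂ) (b * ζ ^ h / ((Real.sqrt 6 : ℝ) : ℂ)) = (starRingEnd ℂ) b * ζ ^ (-h) / _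
    rw [map_div₀, map_mul, conj_zpow hnorm, Complex.conj_ofReal]
  rw [hstar, sub_eq_add_neg, zpow_add₀ hζ0]
  field_simp
  rw [sq, hs]
  ring

/-- orthogonality of the vectors gives a vanishing sum of exponents -/
lemma orth_sum (hnorm : ‖ζ‖ = 1) {a b : ℂ} (ha : ‖a‖ = 1) (hb : ‖b‖ = 1) {f h : Fin 6 → ℤ}
    {x y : Fin 6 → ℂ} (hx : ∀ k, x k = a * ζ ^ f k / ((Real.sqrt 6 : ℝ) : ℂ))
    (hy : ∀ k, y k = b * ζ ^ h k / ((Real.sqrt 6 : ℝ) : ℂ))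
    (h0 : ∑ k, x k * star (y k) = 0) : ∑ k, ζ ^ (f k - h k) = 0 := by
  have e : ∑ k, x k * star (y k) = (a * star b / 6) * ∑ k, ζ ^ (f k - h k) := by
    rw [Finset.mul_sum]
    refine Finset.sum_congr rfl fun k _ => ?_
    rw [hx, hy, inner_term hnorm]
  rw [e] at h0
  have hne : a * star b / 6 ≠ 0 := by
    apply div_ne_zero _ (by norm_num)
    apply mul_ne_zero
    · intro h; rw [h] at ha; simp at ha
    · intro h
      have : b = 0 := by simpa using h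
      rw [this] at hb; simp at hb
  exact (mul_eq_zero.mp h0).resolve_left hne

/-- unbiasedness of the vectors gives the norm relation of the sum of exponents -/
lemma mu_sum (hnorm : ‖ζ‖ = 1) {a b : ℂ} (ha : ‖a‖ = 1) (hb : ‖b‖ = 1) {f h : Fin 6 → ℤ}
    {x y : Fin 6 → ℂ} (hx : ∀ k, x k = a * ζ ^ f k / ((Real.sqrt 6 : ℝ) : ℂ))
    (hy : ∀ k, y k = b * ζ ^ h k / ((Real.sqrt 6 : ℝ) : ℂ))
    (h0 : ‖∑ k, x k * star (y k)‖ ^ 2 = 1 / 6) :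
    (∑ k, ζ ^ (f k - h k)) * (∑ k, ζ ^ (h k - f k)) = 6 := by
  have e : ∑ k, x k * star (y k) = (a * star b / 6) * ∑ k, ζ ^ (f k - h k) := by
    rw [Finset.mul_sum]
    refine Finset.sum_congr rfl fun k _ => ?_
    rw [hx, hy, inner_term hnorm]
  rw [e, norm_mul, norm_div, norm_mul, ha] at h0
  have hbs : ‖star b‖ = 1 := by rw [norm_star, hb]
  rw [hbs] at h0
  have hS : ‖∑ k, ζ ^ (f k - h k)‖ ^ 2 = 6 := by
    have h6 : ‖(6 : ℂ)‖ = 6 := by norm_num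
    rw [h6] at h0
    nlinarith [h0]
  have hconj : ∑ k, ζ ^ (h k - f k) = (starRingEnd ℂ) (∑ k, ζ ^ (f k - h k)) := by
    rw [map_sum]
    refine Finset.sum_congr rfl fun k _ => ?_
    rw [conj_zpow hnorm, neg_sub]
  rw [hconj, Complex.mul_conj, Complex.normSq_eq_norm_sq, hS]
  norm_num

end

/-- extraction of exponents -/
lemma butson_exponents {n N : ℕ} (hn : n ∣ N) {ζ : ℂ} (hN : 0 < N) (hζ : IsPrimitiveRoot ζ N)
    {B : Fin 6 → Fin 6 → ℂ} (hB : IsButsonType n B) :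
    ∃ (a : Fin 6 → ℂ) (f : Fin 6 → Fin 6 → ℤ), (∀ i, ‖a i‖ = 1) ∧
      ∀ i k, B i k = a i * ζ ^ (f i k) / ((Real.sqrt 6 : ℝ) : ℂ) := by
  have h1 : ∀ i, ∃ a : ℂ, ‖a‖ = 1 ∧ ∀ k, ∃ j : ℤ, B i k = a * ζ ^ j / ((Real.sqrt 6 : ℝ) : ℂ) := by
    intro i
    obtain ⟨a, ha, hk⟩ := hB i
    refine ⟨a, ha, fun k => ?_⟩
    obtain ⟨z, hz, hBk⟩ := hk k
    have hzN : z ^ N = 1 := by
      obtain ⟨q, rfl⟩ := hn
      rw [pow_mul, hz, one_pow]
    haveI : NeZero N := ⟨hN.ne'⟩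
    obtain ⟨j, -, hj⟩ := hζ.eq_pow_of_pow_eq_one hzN
    refine ⟨(j : ℤ), ?_⟩
    rw [zpow_natCast, hj]
    exact hBk
  choose a ha hj using h1
  choose f hf using hj
  exact ⟨a, f, ha, hf⟩

end Vale.Agent.Lib.P355
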