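import Mathlib
import Vale.Agent.Lib.P355.Basic
import Vale.Agent.Lib.P355.Classes

/-!
Removing a prime `p ≥ 7` from the order of the roots of unity, by Fourier inversion over the
units modulo `p ^ (a + 1)`, a Parseval identity and the integrality of norms.
-/

namespace Vale.Agent.Lib.P355

open Finset Polynomial

section Fourier

variable {ι : Type*}

/-- the sum of the powers of a primitive root over exponents prime to `p` -/
lemma units_sum {p Q : ℕ} (hp : p.Prime) (hQ : 0 < Q) {ξ : ℂ} (hξ : IsPrimitiveRoot ξ (Q * p))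
    (d : ℤ) :
    ∑ r ∈ (range (Q * p)).filter (fun r => ¬ p ∣ r), (ξ ^ r) ^ d
      = (if ((Q * p : ℕ) : ℤ) ∣ d then ((Q * p : ℕ) : ℂ) else 0) - (if (Q : ℤ) ∣ d then (Q : ℂ) else 0) := by
  classical
  have hP : 0 < Q * p := Nat.mul_pos hQ hp.pos
  have hswap : ∀ r : ℕ, (ξ ^ r) ^ d = (ξ ^ d) ^ r := by
    intro r
    rw [← zpow_natCast, ← zpow_mul, ← zpow_natCast, ← zpow_mul, mul_comm]
  have h1 := geom_zpow hP hξ d
  have hχ : IsPrimitiveRoot (ξ ^ p) Q := hξ.pow hP (by ring)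
  have h2 := geom_zpow hQ hχ d
  have h3 : ∑ r ∈ (range (Q * p)).filter (fun r => p ∣ r), (ξ ^ r) ^ d
      = ∑ s ∈ range Q, ((ξ ^ p) ^ d) ^ s := by
    symm
    apply Finset.sum_bij (fun s _ => p * s)
    · intro s hs
      simp only [mem_filter, mem_range] at hs ⊢
      refine ⟨?_, dvd_mul_right _ _⟩
      rw [mul_comm]
      exact Nat.mul_lt_mul_of_pos_right hs hp.pos
    · intro s _ s' _ h
      exact Nat.eq_of_mul_eq_mul_left hp.pos h
    · intro r hr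
      simp only [mem_filter, mem_range] at hr
      obtain ⟨h, s, rfl⟩ := hr
      refine ⟨s, ?_, rfl⟩
      rw [mem_range]
      rw [mul_comm] at h
      exact Nat.lt_of_mul_lt_mul_right h
    · intro s _
      rw [hswap (p * s), pow_mul]
      congr 1
      rw [← zpow_natCast, ← zpow_mul, ← zpow_natCast, ← zpow_mul, mul_comm]
  have h4 := Finset.sum_filter_add_sum_filter_not (range (Q * p)) (fun r => p ∣ r)
    (fun r => (ξ ^ r) ^ d)
  have h5 : ∑ r ∈ range (Q * p), (ξ ^ r) ^ d = ∑ r ∈ range (Q * p), (ξ ^ d) ^ r :=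
    Finset.sum_congr rfl fun r _ => hswap r
  rw [h5, h1, h3, h2] at h4
  rw [← h4]
  ring

/-- Fourier inversion over the units modulo `Q * p`. -/
theorem fourier_units {p Q : ℕ} (hp : p.Prime) (hQ : 0 < Q) {ξ : ℂ}
    (hξ : IsPrimitiveRoot ξ (Q * p)) (I : Finset ι) (E : ι → ℤ) (c : ι → ℂ) (C : ℂ)
    (h : ∀ r : ℕ, ¬ p ∣ r → ∑ i ∈ I, c i * (ξ ^ r) ^ (E i) = C) (j : ℤ) :
    (p : ℂ) * ∑ i ∈ I.filter (fun i => ((Q * p : ℕ) : ℤ) ∣ E i - j), c i
        - ∑ i ∈ I.filter (fun i => (Q : ℤ) ∣ E i - j), c i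
      = C * ((p : ℂ) * (if ((Q * p : ℕ) : ℤ) ∣ j then 1 else 0) - (if (Q : ℤ) ∣ j then 1 else 0)) := by
  classical
  have hP : 0 < Q * p := Nat.mul_pos hQ hp.pos
  have hξ0 : ξ ≠ 0 := ne_zero_of_pow_eq_one hP hξ.pow_eq_one
  have hQc : (Q : ℂ) ≠ 0 := by exact_mod_cast hQ.ne'
  set U := (range (Q * p)).filter (fun r => ¬ p ∣ r) with hU
  have h1 : ∑ r ∈ U, ∑ i ∈ I, c i * (ξ ^ r) ^ (E i - j) = ∑ r ∈ U, C * (ξ ^ r) ^ (-j) := by
    refine Finset.sum_congr rfl fun r hr => ?_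
    have hr' : ¬ p ∣ r := (mem_filter.mp hr).2
    rw [← h r hr', Finset.sum_mul]
    refine Finset.sum_congr rfl fun i _ => ?_
    have hr0 : ξ ^ r ≠ 0 := pow_ne_zero _ hξ0
    rw [mul_assoc, ← zpow_add₀ hr0]
    congr 2
  rw [Finset.sum_comm] at h1
  have h2 : ∀ i ∈ I, ∑ r ∈ U, c i * (ξ ^ r) ^ (E i - j)
      = c i * ((if ((Q * p : ℕ) : ℤ) ∣ E i - j then ((Q * p : ℕ) : ℂ) else 0)
          - (if (Q : ℤ) ∣ E i - j then (Q : ℂ) else 0)) := by
    intro i _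
    rw [← Finset.mul_sum, hU, units_sum hp hQ hξ]
  rw [Finset.sum_congr rfl h2, ← Finset.mul_sum, hU, units_sum hp hQ hξ] at h1
  apply mul_left_cancel₀ hQc
  have hneg1 : ((Q * p : ℕ) : ℤ) ∣ -j ↔ ((Q * p : ℕ) : ℤ) ∣ j := dvd_neg
  have hneg2 : (Q : ℤ) ∣ -j ↔ (Q : ℤ) ∣ j := dvd_neg
  simp only [hneg1, hneg2] at h1
  have hcast : ((Q * p : ℕ) : ℂ) = (Q : ℂ) * (p : ℂ) := by push_cast; ring
  rw [hcast] at h1
  have e1 : (Q : ℂ) * ((p : ℂ) * ∑ i ∈ I.filter (fun i => ((Q * p : ℕ) : ℤ) ∣ E i - j), c i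
        - ∑ i ∈ I.filter (fun i => (Q : ℤ) ∣ E i - j), c i)
      = ∑ x ∈ I, c x * ((if ((Q * p : ℕ) : ℤ) ∣ E x - j then (Q : ℂ) * p else 0)
          - if (Q : ℤ) ∣ E x - j then (Q : ℂ) else 0) := by
    rw [Finset.sum_filter, Finset.sum_filter, mul_sub, ← mul_assoc, Finset.mul_sum, Finset.mul_sum,
      ← Finset.sum_sub_distrib]
    refine Finset.sum_congr rfl fun i _ => ?_
    split_ifs <;> ring
  rw [e1, h1]
  split_ifs <;> ring

/-- a sum splits over the residue classes modulo `Q` -/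
lemma sum_classes {Q : ℕ} (hQ : 0 < Q) (I : Finset ι) (E : ι → ℤ) (c : ι → ℂ) :
    ∑ i ∈ I, c i = ∑ j ∈ range Q, ∑ i ∈ I.filter (fun i => (Q : ℤ) ∣ E i - j), c i := by
  classical
  have hQz : (Q : ℤ) ≠ 0 := by exact_mod_cast hQ.ne'
  have hQz' : (0 : ℤ) < Q := by exact_mod_cast hQ
  have h1 : ∀ i ∈ I, (E i % Q).toNat ∈ range Q := by
    intro i _
    rw [mem_range]
    have h2 := Int.emod_nonneg (E i) hQz
    have h3 := Int.emod_lt_of_pos (E i) hQz'
    omega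
  rw [← Finset.sum_fiberwise_of_maps_to h1]
  refine Finset.sum_congr rfl fun j hj => ?_
  apply Finset.sum_congr _ fun _ _ => rfl
  ext i
  simp only [mem_filter, and_congr_right_iff]
  intro _
  have hj' : (j : ℤ) < Q := by exact_mod_cast mem_range.mp hj
  have h2 := Int.emod_nonneg (E i) hQz
  have h3 := Int.emod_lt_of_pos (E i) hQz'
  constructor
  · intro h
    have h4 : ((E i % Q).toNat : ℤ) = E i % Q := Int.toNat_of_nonneg h2
    rw [← h, h4]
    exact Int.dvd_self_sub_emod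
  · intro h
    have h4 : E i % Q = ((j : ℤ)) % Q :=
      Int.emod_eq_emod_iff_emod_sub_eq_zero.mpr (Int.emod_eq_zero_of_dvd h)
    rw [h4, Int.emod_eq_of_lt (by positivity) hj']
    simp

/-- the sum formula: a relation over units gives the sum over all classes -/
theorem sum_formula {p Q : ℕ} (hp : p.Prime) (hQ : 0 < Q) {ξ : ℂ}
    (hξ : IsPrimitiveRoot ξ (Q * p)) (I : Finset ι) (E : ι → ℤ) (c : ι → ℂ) (C : ℂ)
    (h : ∀ r : ℕ, ¬ p ∣ r → ∑ i ∈ I, c i * (ξ ^ r) ^ (E i) = C) :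
    ∑ i ∈ I, c i = (p : ℂ) * ∑ i ∈ I.filter (fun i => E i % ((Q * p : ℕ) : ℤ) < Q), c i
      - C * ((p : ℂ) - 1) := by
  classical
  have hP : 0 < Q * p := Nat.mul_pos hQ hp.pos
  have hPz : ((Q * p : ℕ) : ℤ) ≠ 0 := by exact_mod_cast hP.ne'
  have hPz' : (0 : ℤ) < ((Q * p : ℕ) : ℤ) := by exact_mod_cast hP
  have hQP : (Q : ℤ) ≤ ((Q * p : ℕ) : ℤ) := by
    have : Q ≤ Q * p := Nat.le_mul_of_pos_right _ hp.pos
    exact_mod_cast this
  rw [sum_classes hQ I E c]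
  have h1 : ∀ j ∈ range Q, ∑ i ∈ I.filter (fun i => (Q : ℤ) ∣ E i - j), c i
      = (p : ℂ) * ∑ i ∈ I.filter (fun i => ((Q * p : ℕ) : ℤ) ∣ E i - j), c i
        - C * (if j = 0 then (p : ℂ) - 1 else 0) := by
    intro j hj
    have h2 := fourier_units hp hQ hξ I E c C h (j : ℤ)
    have hj' : j < Q := mem_range.mp hj
    have h3 : ((Q * p : ℕ) : ℤ) ∣ (j : ℤ) ↔ j = 0 := by
      constructor
      · intro hd
        have hd' : Q * p ∣ j := by exact_mod_cast hd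
        by_contra hne
        have := Nat.le_of_dvd (Nat.pos_of_ne_zero hne) hd'
        have h5 : Q ≤ Q * p := Nat.le_mul_of_pos_right _ hp.pos
        omega
      · rintro rfl; simp
    have h4 : (Q : ℤ) ∣ (j : ℤ) ↔ j = 0 := by
      constructor
      · intro hd
        have hd' : Q ∣ j := by exact_mod_cast hd
        by_contra hne
        have := Nat.le_of_dvd (Nat.pos_of_ne_zero hne) hd'
        omega
      · rintro rfl; simp
    simp only [h3, h4] at h2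
    have h5 : ∑ i ∈ I.filter (fun i => (Q : ℤ) ∣ E i - j), c i
        = (p : ℂ) * ∑ i ∈ I.filter (fun i => ((Q * p : ℕ) : ℤ) ∣ E i - j), c i
          - C * ((p : ℂ) * (if j = 0 then 1 else 0) - (if j = 0 then 1 else 0)) := by
      rw [← h2]; ring
    rw [h5]
    split_ifs <;> ring
  rw [Finset.sum_congr rfl h1, Finset.sum_sub_distrib, ← Finset.mul_sum, ← Finset.mul_sum]
  have h6 : ∑ j ∈ range Q, (if j = 0 then (p : ℂ) - 1 else 0) = (p : ℂ) - 1 := by
    rw [Finset.sum_ite_eq' (range Q) 0]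
    simp [hQ]
  rw [h6]
  congr 2
  -- the classes modulo `Q * p` below `Q`
  have h7 : ∀ j ∈ range Q, ∑ i ∈ I.filter (fun i => ((Q * p : ℕ) : ℤ) ∣ E i - j), c i
      = ∑ i ∈ (I.filter (fun i => E i % ((Q * p : ℕ) : ℤ) < Q)).filter
          (fun i => (E i % ((Q * p : ℕ) : ℤ)).toNat = j), c i := by
    intro j hj
    apply Finset.sum_congr _ fun _ _ => rfl
    ext i
    simp only [mem_filter]
    have hj' : (j : ℤ) < Q := by exact_mod_cast mem_range.mp hj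
    have h2 := Int.emod_nonneg (E i) hPz
    have h3 := Int.emod_lt_of_pos (E i) hPz'
    constructor
    · rintro ⟨hi, hd⟩
      have h4 : E i % ((Q * p : ℕ) : ℤ) = (j : ℤ) := by
        have h5 : E i % ((Q * p : ℕ) : ℤ) = ((j : ℤ)) % ((Q * p : ℕ) : ℤ) :=
          Int.emod_eq_emod_iff_emod_sub_eq_zero.mpr (Int.emod_eq_zero_of_dvd hd)
        rw [h5, Int.emod_eq_of_lt (by positivity) (by omega)]
      refine ⟨⟨hi, by omega⟩, by omega⟩
    · rintro ⟨⟨hi, _⟩, hj2⟩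
      refine ⟨hi, ?_⟩
      have h4 : ((E i % ((Q * p : ℕ) : ℤ)).toNat : ℤ) = E i % ((Q * p : ℕ) : ℤ) :=
        Int.toNat_of_nonneg h2
      rw [← hj2, h4]
      exact Int.dvd_self_sub_emod
  rw [Finset.sum_congr rfl h7]
  apply Finset.sum_fiberwise_of_maps_to
  intro i hi
  have hi2 := (mem_filter.mp hi).2
  have h2 := Int.emod_nonneg (E i) hPz
  rw [mem_range]
  omega

/-- vanishing sums with fewer than `p` terms -/
theorem orth_vanish {p Q : ℕ} (hp : p.Prime) (hp7 : 7 ≤ p) (hQ : 0 < Q) {ξ : ℂ}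
    (hξ : IsPrimitiveRoot ξ (Q * p)) (E : Fin 6 → ℤ) (c : Fin 6 → ℂ)
    (h : ∀ r : ℕ, ¬ p ∣ r → ∑ i, c i * (ξ ^ r) ^ (E i) = 0) : ∑ i, c i = 0 := by
  classical
  have hP : 0 < Q * p := Nat.mul_pos hQ hp.pos
  rw [sum_classes hQ univ E c]
  refine Finset.sum_eq_zero fun j _ => ?_
  have hQz : (Q : ℤ) ≠ 0 := by exact_mod_cast hQ.ne'
  -- an empty class
  obtain ⟨s, hs⟩ : ∃ s : Fin 7, ∀ k : Fin 6, ¬ ((Q * p : ℕ) : ℤ) ∣ E k - ((j : ℤ) + Q * (s : ℕ)) := by
    by_contra hcon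
    push Not at hcon
    choose f hf using hcon
    obtain ⟨s, s', hne, heq⟩ := Fintype.exists_ne_map_eq_of_card_lt f (by simp)
    have h1 := hf s
    have h2 := hf s'
    rw [heq] at h1
    have h3 := dvd_sub h1 h2
    have h4 : E (f s') - ((j : ℤ) + Q * (s : ℕ)) - (E (f s') - ((j : ℤ) + Q * (s' : ℕ)))
        = (Q : ℤ) * (((s' : ℕ) : ℤ) - ((s : ℕ) : ℤ)) := by ring
    rw [h4] at h3
    have h5 : ((Q * p : ℕ) : ℤ) = (Q : ℤ) * (p : ℤ) := by push_cast; ring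
    rw [h5] at h3
    have h6 := (mul_dvd_mul_iff_left hQz).mp h3
    have hs1 := s.isLt
    have hs2 := s'.isLt
    have hne' : (s : ℕ) ≠ (s' : ℕ) := fun h => hne (Fin.ext h)
    have h7 : (p : ℤ) ≤ |((s' : ℕ) : ℤ) - ((s : ℕ) : ℤ)| := by
      apply Int.le_of_dvd
      · rw [abs_pos]; omega
      · exact (dvd_abs _ _).mpr h6
    have h8 : (7 : ℤ) ≤ p := by exact_mod_cast hp7
    rcases abs_cases (((s' : ℕ) : ℤ) - ((s : ℕ) : ℤ)) with ⟨h9, _⟩ | ⟨h9, _⟩ <;> omega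
  have h1 := fourier_units hp hQ hξ univ E c 0 h ((j : ℤ) + Q * (s : ℕ))
  have h2 : (univ.filter (fun i => ((Q * p : ℕ) : ℤ) ∣ E i - ((j : ℤ) + Q * (s : ℕ)))) = ∅ := by
    ext k
    simp only [mem_filter, mem_univ, true_and, notMem_empty, iff_false]
    exact hs k
  rw [h2, Finset.sum_empty, mul_zero, zero_sub, zero_mul, neg_eq_zero] at h1
  rw [← h1]
  apply Finset.sum_congr _ fun _ _ => rfl
  ext k
  simp only [mem_filter, mem_univ, true_and]
  have h3 : E k - ((j : ℤ) + Q * (s : ℕ)) = (E k - j) - Q * (s : ℕ) := by ring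
  rw [h3]
  exact (dvd_sub_left (dvd_mul_right _ _)).symm

end Fourier

section Project

variable {ι : Type*}

/-- a relation at one primitive root holds at all of them -/
lemma rel_all {n : ℕ} (hn : 0 < n) {ζ ζ' : ℂ} (hζ : IsPrimitiveRoot ζ n)
    (hζ' : IsPrimitiveRoot ζ' n) (I : Finset ι) (E : ι → ℤ) (C : ℤ)
    (h : ∑ i ∈ I, ζ ^ (E i) = (C : ℂ)) : ∑ i ∈ I, ζ' ^ (E i) = (C : ℂ) := by
  have : NeZero n := ⟨hn.ne'⟩
  obtain ⟨t, -, ht⟩ := hζ.eq_pow_of_pow_eq_one hζ'.pow_eq_one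
  have hco : t.Coprime n := (hζ.pow_iff_coprime hn t).mp (ht ▸ hζ')
  rw [← ht]
  exact galois_sum hn hζ I E C h t hco

lemma prim_mul {z ξ : ℂ} {K P : ℕ} (hz : IsPrimitiveRoot z K) (hξ : IsPrimitiveRoot ξ P)
    (hco : K.Coprime P) : IsPrimitiveRoot (z * ξ) (K * P) := by
  rw [IsPrimitiveRoot.iff_orderOf] at hz hξ ⊢
  rw [(Commute.all z ξ).orderOf_mul_eq_mul_orderOf_of_coprime (by rw [hz, hξ]; exact hco), hz, hξ]

lemma prod_double {x : ℂ} (hx : x ≠ 0) (E : Fin 6 → ℤ) :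
    (∑ k, x ^ (E k)) * (∑ k, x ^ (- E k)) = ∑ y : Fin 6 × Fin 6, x ^ (E y.1 - E y.2) := by
  rw [Finset.sum_mul_sum, Fintype.sum_prod_type]
  refine Finset.sum_congr rfl fun k _ => Finset.sum_congr rfl fun l _ => ?_
  rw [← zpow_add₀ hx, sub_eq_add_neg]

variable {p Q K : ℕ} {ζ z : ℂ}

lemma coprime_of_not_dvd {a r : ℕ} (hp : p.Prime) (hr : ¬ p ∣ r) : r.Coprime (p ^ a * p) := by
  have h1 : r.Coprime p := ((Nat.Prime.coprime_iff_not_dvd hp).mpr hr).symm
  exact Nat.Coprime.mul_right (Nat.Coprime.pow_right a h1) h1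

/-- orthogonality survives the removal of the prime `p ≥ 7` -/
theorem project_orth {a : ℕ} (hp : p.Prime) (hp7 : 7 ≤ p) (hK : 0 < K)
    (hco : K.Coprime (p ^ a * p)) (hζ : IsPrimitiveRoot ζ (K * (p ^ a * p))) {E : Fin 6 → ℤ}
    (h : ∑ k, ζ ^ (E k) = 0) (hz : IsPrimitiveRoot z K) : ∑ k, z ^ (E k) = 0 := by
  have hQ : 0 < p ^ a := pow_pos hp.pos a
  have hP : 0 < p ^ a * p := Nat.mul_pos hQ hp.pos
  have hξ := Complex.isPrimitiveRoot_exp (p ^ a * p) hP.ne'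
  set ξ := Complex.exp (2 * Real.pi * Complex.I / ((p ^ a * p : ℕ) : ℂ))
  refine orth_vanish hp hp7 hQ hξ E (fun k => z ^ (E k)) fun r hr => ?_
  have h1 : IsPrimitiveRoot (ξ ^ r) (p ^ a * p) := hξ.pow_of_coprime r (coprime_of_not_dvd hp hr)
  have h2 := prim_mul hz h1 hco
  have h3 := rel_all (Nat.mul_pos hK hP) hζ h2 univ E 0 (by simpa using h)
  simp only [mul_zpow, Int.cast_zero] at h3
  exact h3

/-- the norm relation after removal of the prime `p` -/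
theorem project_mu {a : ℕ} (hp : p.Prime) (hK : 0 < K)
    (hco : K.Coprime (p ^ a * p)) (hζ : IsPrimitiveRoot ζ (K * (p ^ a * p))) {E : Fin 6 → ℤ}
    (h : (∑ k, ζ ^ (E k)) * (∑ k, ζ ^ (- E k)) = 6) (hz : IsPrimitiveRoot z K) :
    (∑ k, z ^ (E k)) * (∑ k, z ^ (- E k))
      = (p : ℂ) * (∑ y ∈ univ.filter (fun y : Fin 6 × Fin 6 =>
            (E y.1 - E y.2) % ((p ^ a * p : ℕ) : ℤ) < (p ^ a : ℕ)), z ^ (E y.1 - E y.2))
        - 6 * ((p : ℂ) - 1) := by
  have hQ : 0 < p ^ a := pow_pos hp.pos a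
  have hP : 0 < p ^ a * p := Nat.mul_pos hQ hp.pos
  have hξ := Complex.isPrimitiveRoot_exp (p ^ a * p) hP.ne'
  set ξ := Complex.exp (2 * Real.pi * Complex.I / ((p ^ a * p : ℕ) : ℂ))
  have hn : 0 < K * (p ^ a * p) := Nat.mul_pos hK hP
  have hz0 : z ≠ 0 := ne_zero_of_pow_eq_one hK hz.pow_eq_one
  have hζ0 : ζ ≠ 0 := ne_zero_of_pow_eq_one hn hζ.pow_eq_one
  rw [prod_double hz0] 
  rw [prod_double hζ0] at h
  refine sum_formula hp hQ hξ univ (fun y : Fin 6 × Fin 6 => E y.1 - E y.2)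
    (fun y => z ^ (E y.1 - E y.2)) 6 fun r hr => ?_
  have h1 : IsPrimitiveRoot (ξ ^ r) (p ^ a * p) := hξ.pow_of_coprime r (coprime_of_not_dvd hp hr)
  have h2 := prim_mul hz h1 hco
  have h3 := rel_all hn hζ h2 univ (fun y : Fin 6 × Fin 6 => E y.1 - E y.2) 6 (by simpa using h)
  simp only [mul_zpow] at h3
  simpa using h3

end Project

section Parseval

/-- the Parseval identity for a matrix with orthogonal rows of roots of unity -/
theorem parseval {z : ℂ} (hz : ‖z‖ = 1) (e : Fin 6 → Fin 6 → ℤ) (u : Fin 6 → ℤ)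
    (ho : ∀ i j, i ≠ j → ∑ k, z ^ (e i k - e j k) = 0) :
    ∑ i, (∑ k, z ^ (e i k - u k)) * (∑ k, z ^ (-(e i k - u k))) = 36 := by
  classical
  have hz0 : z ≠ 0 := by
    intro h; rw [h] at hz; simp at hz
  have hself : ∀ x : ℤ, z ^ x * z ^ (-x) = 1 := fun x => by
    rw [← zpow_add₀ hz0]; simp
  let A : Matrix (Fin 6) (Fin 6) ℂ := Matrix.of fun i k => z ^ (e i k)
  let B : Matrix (Fin 6) (Fin 6) ℂ := Matrix.of fun k i => (1 / 6 : ℂ) * z ^ (- e i k)
  have hAB : A * B = 1 := by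
    ext i j
    simp only [Matrix.mul_apply, A, B, Matrix.of_apply]
    have h1 : ∀ k, z ^ (e i k) * ((1 / 6 : ℂ) * z ^ (- e j k)) = (1 / 6 : ℂ) * z ^ (e i k - e j k) := by
      intro k
      rw [sub_eq_add_neg, zpow_add₀ hz0]; ring
    simp only [h1]
    rw [← Finset.mul_sum]
    by_cases hij : i = j
    · subst hij
      simp
    · rw [ho i j hij, Matrix.one_apply_ne hij, mul_zero]
  have hBA : B * A = 1 := mul_eq_one_comm.mp hAB
  have hcol : ∀ k l, ∑ i, z ^ (e i l - e i k) = if k = l then 6 else 0 := by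
    intro k l
    have h1 := congrFun (congrFun hBA k) l
    simp only [Matrix.mul_apply, B, A, Matrix.of_apply] at h1
    have h2 : ∀ i, (1 / 6 : ℂ) * z ^ (- e i k) * z ^ (e i l) = (1 / 6 : ℂ) * z ^ (e i l - e i k) := by
      intro i
      rw [sub_eq_add_neg, zpow_add₀ hz0]; ring
    simp only [h2] at h1
    rw [← Finset.mul_sum] at h1
    by_cases hkl : k = l
    · subst hkl
      simp
    · rw [Matrix.one_apply_ne hkl, mul_eq_zero] at h1
      rw [if_neg hkl]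
      exact h1.resolve_left (by norm_num)
  have h2 : ∀ i, (∑ k, z ^ (e i k - u k)) * (∑ k, z ^ (-(e i k - u k)))
      = ∑ l, ∑ k, z ^ (u k - u l) * z ^ (e i l - e i k) := by
    intro i
    rw [Finset.sum_mul_sum]
    refine Finset.sum_congr rfl fun l _ => Finset.sum_congr rfl fun k _ => ?_
    rw [← zpow_add₀ hz0, ← zpow_add₀ hz0]
    congr 1
    ring
  simp only [h2]
  rw [Finset.sum_comm]
  have h3 : ∀ l, ∑ i, ∑ k, z ^ (u k - u l) * z ^ (e i l - e i k) = 6 := by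
    intro l
    rw [Finset.sum_comm]
    have h4 : ∀ k, ∑ i, z ^ (u k - u l) * z ^ (e i l - e i k)
        = z ^ (u k - u l) * (if k = l then 6 else 0) := by
      intro k
      rw [← Finset.mul_sum, hcol]
    simp only [h4]
    rw [Finset.sum_eq_single l]
    · simp
    · intro k _ hk
      simp [hk]
    · simp
  simp only [h3]
  norm_num

end Parseval

section NormArgument

variable {ι : Type*} [Fintype ι]

/-- If integral polynomials take totally positive values `1 + t` at the primitive `K`th roots of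
unity and the `t` sum to zero at each root, then all the `t` vanish. -/
theorem norm_argument {K : ℕ} (hK : 0 < K) (t : ι → ℂ → ℝ) (h : ι → ℤ[X])
    (h1 : ∀ i z, IsPrimitiveRoot z K → aeval z (h i) = ((1 + t i z : ℝ) : ℂ))
    (h2 : ∀ i z, IsPrimitiveRoot z K → 0 < 1 + t i z)
    (h3 : ∀ z, IsPrimitiveRoot z K → ∑ i, t i z = 0) :
    ∀ i z, IsPrimitiveRoot z K → t i z = 0 := by
  classical
  have : NeZero K := ⟨hK.ne'⟩
  have : NeZero ((K : ℕ) : ℚ) := ⟨by exact_mod_cast hK.ne'⟩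
  have hcyc : IsCyclotomicExtension {K} ℚ (CyclotomicField K ℚ) :=
    CyclotomicField.isCyclotomicExtension K ℚ
  have hη : IsPrimitiveRoot (IsCyclotomicExtension.zeta K ℚ (CyclotomicField K ℚ)) K :=
    IsCyclotomicExtension.zeta_spec K ℚ (CyclotomicField K ℚ)
  set η := IsCyclotomicExtension.zeta K ℚ (CyclotomicField K ℚ) with hηdef
  have hirr : Irreducible (cyclotomic K ℚ) := cyclotomic.irreducible_rat hK
  have hσ : ∀ σ : CyclotomicField K ℚ →ₐ[ℚ] ℂ, IsPrimitiveRoot (σ η) K := fun σ =>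
    hη.map_of_injective σ.injective
  have hval : ∀ (i : ι) (σ : CyclotomicField K ℚ →ₐ[ℚ] ℂ), σ (aeval η (h i)) = ((1 + t i (σ η) : ℝ) : ℂ) := by
    intro i σ
    rw [← h1 i _ (hσ σ)]
    have := aeval_algHom_apply (σ.restrictScalars ℤ) η (h i)
    simpa using this.symm
  have hint : ∀ i, IsIntegral ℤ (aeval η (h i)) := by
    intro i
    have hηi : IsIntegral ℤ η := hη.isIntegral hK
    rw [aeval_eq_sum_range]
    exact IsIntegral.sum _ fun j _ => (hηi.pow j).smul _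
  have hprod : ∀ i, (1 : ℝ) ≤ ∏ σ : CyclotomicField K ℚ →ₐ[ℚ] ℂ, (1 + t i (σ η)) := by
    intro i
    have hn : IsIntegral ℤ (Algebra.norm ℚ (aeval η (h i))) := Algebra.isIntegral_norm ℚ (hint i)
    obtain ⟨m, hm⟩ := IsIntegrallyClosed.isIntegral_iff.mp hn
    have he := Algebra.norm_eq_prod_embeddings ℚ ℂ (aeval η (h i))
    simp only [hval] at he
    rw [← hm] at he
    have hm2 : ((m : ℝ) : ℂ) = ((∏ σ : CyclotomicField K ℚ →ₐ[ℚ] ℂ, (1 + t i (σ η)) : ℝ) : ℂ) := by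
      rw [Complex.ofReal_prod, ← he]
      simp
    have hm3 : (m : ℝ) = ∏ σ : CyclotomicField K ℚ →ₐ[ℚ] ℂ, (1 + t i (σ η)) := by exact_mod_cast hm2
    have hpos : 0 < ∏ σ : CyclotomicField K ℚ →ₐ[ℚ] ℂ, (1 + t i (σ η)) :=
      Finset.prod_pos fun σ _ => h2 i _ (hσ σ)
    rw [← hm3] at hpos ⊢
    have : 0 < m := by exact_mod_cast hpos
    exact_mod_cast this
  have hexp : ∀ i, ∏ σ : CyclotomicField K ℚ →ₐ[ℚ] ℂ, (1 + t i (σ η)) ≤ Real.exp (∑ σ : CyclotomicField K ℚ →ₐ[ℚ] ℂ, t i (σ η)) := by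
    intro i
    rw [Real.exp_sum]
    refine Finset.prod_le_prod (fun σ _ => (h2 i _ (hσ σ)).le) fun σ _ => ?_
    have := Real.add_one_le_exp (t i (σ η))
    linarith
  have hnn : ∀ i, 0 ≤ ∑ σ : CyclotomicField K ℚ →ₐ[ℚ] ℂ, t i (σ η) := by
    intro i
    have := (hprod i).trans (hexp i)
    exact Real.one_le_exp_iff.mp this
  have hsum : ∑ i, ∑ σ : CyclotomicField K ℚ →ₐ[ℚ] ℂ, t i (σ η) = 0 := by
    rw [Finset.sum_comm]
    exact Finset.sum_eq_zero fun σ _ => h3 _ (hσ σ)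
  have hzero : ∀ i, ∑ σ : CyclotomicField K ℚ →ₐ[ℚ] ℂ, t i (σ η) = 0 := by
    intro i
    exact (Finset.sum_eq_zero_iff_of_nonneg fun i _ => hnn i).mp hsum i (mem_univ i)
  intro i z hz
  by_contra hne
  have hz' : z ∈ primitiveRoots K ℂ := (mem_primitiveRoots hK).mpr hz
  let σ₀ := (hη.embeddingsEquivPrimitiveRoots ℂ hirr).symm ⟨z, hz'⟩
  have hσ₀ : σ₀ η = z := by
    have := hη.embeddingsEquivPrimitiveRoots_apply_coe ℂ hirr σ₀
    rw [Equiv.apply_symm_apply] at this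
    exact this.symm
  have hlt : ∏ σ : CyclotomicField K ℚ →ₐ[ℚ] ℂ, (1 + t i (σ η)) < ∏ σ : CyclotomicField K ℚ →ₐ[ℚ] ℂ, Real.exp (t i (σ η)) := by
    refine Finset.prod_lt_prod (fun σ _ => h2 i _ (hσ σ)) (fun σ _ => ?_) ⟨σ₀, mem_univ _, ?_⟩
    · have := Real.add_one_le_exp (t i (σ η))
      linarith
    · rw [hσ₀]
      have := Real.add_one_lt_exp hne
      linarith
  rw [← Real.exp_sum, hzero i, Real.exp_zero] at hlt
  exact absurd (hprod i) (not_le.mpr hlt)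

end NormArgument

end Vale.Agent.Lib.P355
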