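import Mathlib
import Vale.Agent.Lib.P355.Defs
import Vale.Agent.Lib.P355.Project
import Vale.Agent.Lib.P355.Main

/-!
Descent of configurations of exponents: primes at least `7` can be removed from the order of the
roots of unity.
-/

namespace Vale.Agent.Lib.P355

open Finset Polynomial

/-- the rows are orthogonal at `ζ` -/
def Orth (ζ : ℂ) (e : Fin 6 → Fin 6 → ℤ) : Prop :=
  ∀ i j, i ≠ j → ∑ k, ζ ^ (e i k - e j k) = 0

/-- the rows are unbiased at `ζ` -/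
def Mub (ζ : ℂ) (e f : Fin 6 → Fin 6 → ℤ) : Prop :=
  ∀ i j, (∑ k, ζ ^ (e i k - f j k)) * (∑ k, ζ ^ (f j k - e i k)) = 6

/-- two unbiased bases and a vector unbiased to both, with exponents at a primitive `n`th root of
unity -/
def Cfg (n : ℕ) : Prop :=
  ∃ (ζ : ℂ) (u : Fin 6 → ℤ) (e₂ e₃ : Fin 6 → Fin 6 → ℤ), IsPrimitiveRoot ζ n ∧ Orth ζ e₂ ∧ Orth ζ e₃ ∧
    Mub ζ e₂ (fun _ => u) ∧ Mub ζ e₃ (fun _ => u) ∧ Mub ζ e₂ e₃

lemma sum_neg_eq_conj {z : ℂ} (hz : ‖z‖ = 1) (E : Fin 6 → ℤ) :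
    ∑ k, z ^ (- E k) = (starRingEnd ℂ) (∑ k, z ^ (E k)) := by
  rw [map_sum]
  exact Finset.sum_congr rfl fun k _ => (conj_zpow hz (E k)).symm

lemma mul_sum_neg {z : ℂ} (hz : ‖z‖ = 1) (E : Fin 6 → ℤ) :
    (∑ k, z ^ (E k)) * (∑ k, z ^ (- E k)) = ((Complex.normSq (∑ k, z ^ (E k)) : ℝ) : ℂ) := by
  rw [sum_neg_eq_conj hz, Complex.mul_conj]

/-- unbiasedness survives the removal of the prime `p ≥ 7`, for the rows of a basis -/
theorem mu_all {p K a : ℕ} {ζ : ℂ} (hp : p.Prime) (hp7 : 7 ≤ p) (hK : 0 < K)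
    (hco : K.Coprime (p ^ a * p)) (hζ : IsPrimitiveRoot ζ (K * (p ^ a * p)))
    (e : Fin 6 → Fin 6 → ℤ) (u : Fin 6 → ℤ)
    (ho : ∀ i j, i ≠ j → ∑ k, ζ ^ (e i k - e j k) = 0)
    (hm : ∀ i, (∑ k, ζ ^ (e i k - u k)) * (∑ k, ζ ^ (-(e i k - u k))) = 6)
    {z : ℂ} (hz : IsPrimitiveRoot z K) (i : Fin 6) :
    (∑ k, z ^ (e i k - u k)) * (∑ k, z ^ (-(e i k - u k))) = 6 := by
  classical
  have hpc : (p : ℂ) ≠ 0 := by exact_mod_cast hp.pos.ne'
  have hpr : (0 : ℝ) < p := by exact_mod_cast hp.pos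
  have hp7r : (7 : ℝ) ≤ p := by exact_mod_cast hp7
  set E : Fin 6 → Fin 6 → ℤ := fun i k => e i k - u k with hE
  set F : Fin 6 → Finset (Fin 6 × Fin 6) := fun i => univ.filter (fun y : Fin 6 × Fin 6 =>
    (E i y.1 - E i y.2) % ((p ^ a * p : ℕ) : ℤ) < (p ^ a : ℕ)) with hF
  set t : Fin 6 → ℂ → ℝ := fun i z => (Complex.normSq (∑ k, z ^ (E i k)) - 6) / p with ht
  set h : Fin 6 → ℤ[X] := fun i =>
    ∑ y ∈ F i, X ^ ((E i y.1 - E i y.2) % (K : ℤ)).toNat - Polynomial.C 5 with hh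
  have hnz : ∀ z' : ℂ, IsPrimitiveRoot z' K → ‖z'‖ = 1 := fun z' hz' =>
    IsPrimitiveRoot.norm'_eq_one hz' hK.ne'
  have hkey : ∀ (i : Fin 6) (z' : ℂ), IsPrimitiveRoot z' K →
      ((Complex.normSq (∑ k, z' ^ (E i k)) : ℝ) : ℂ)
        = (p : ℂ) * (∑ y ∈ F i, z' ^ (E i y.1 - E i y.2)) - 6 * ((p : ℂ) - 1) := by
    intro i z' hz'
    rw [← mul_sum_neg (hnz z' hz')]
    exact project_mu hp hK hco hζ (hm i) hz'
  have hres := norm_argument hK t h ?_ ?_ ?_ i z hz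
  · have h1 : Complex.normSq (∑ k, z ^ (E i k)) = 6 := by
      have h2 : (Complex.normSq (∑ k, z ^ (E i k)) - 6) / p = 0 := hres
      rcases div_eq_zero_iff.mp h2 with h3 | h3
      · linarith
      · exact absurd h3 hpr.ne'
    have h4 := mul_sum_neg (hnz z hz) (E i)
    rw [h1] at h4
    rw [h4]
    norm_num
  · intro i z' hz'
    have hz'K : z' ^ K = 1 := hz'.pow_eq_one
    have h1 : aeval z' (h i) = (∑ y ∈ F i, z' ^ (E i y.1 - E i y.2)) - 5 := by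
      simp only [hh, map_sub, map_sum, map_pow, aeval_X, aeval_C]
      have h2 : ∀ y ∈ F i, z' ^ ((E i y.1 - E i y.2) % (K : ℤ)).toNat = z' ^ (E i y.1 - E i y.2) :=
        fun y _ => (zpow_eq_pow_emod hK hz'K _).symm
      rw [Finset.sum_congr rfl h2]
      simp
    rw [h1]
    have h2 := hkey i z' hz'
    simp only [ht]
    push_cast
    field_simp
    have h3 : ((Complex.normSq (∑ k, z' ^ (E i k)) : ℝ) : ℂ) = (Complex.normSq (∑ k, z' ^ (E i k)) : ℂ) := rfl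
    rw [h2]
    ring
  · intro i z' _
    simp only [ht]
    have h1 := Complex.normSq_nonneg (∑ k, z' ^ (E i k))
    have h2 : -6 / (p : ℝ) ≤ (Complex.normSq (∑ k, z' ^ (E i k)) - 6) / p := by
      apply div_le_div_of_nonneg_right _ hpr.le
      linarith
    have h3 : (-1 : ℝ) < -6 / (p : ℝ) := by
      rw [lt_div_iff₀ hpr]
      linarith
    linarith
  · intro z' hz'
    have hn : 0 < K * (p ^ a * p) := Nat.mul_pos hK (Nat.mul_pos (pow_pos hp.pos a) hp.pos)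
    have horth : ∀ i j, i ≠ j → ∑ k, z' ^ (e i k - e j k) = 0 := fun i j hij =>
      project_orth hp hp7 hK hco hζ (ho i j hij) hz'
    have hpar := parseval (hnz z' hz') e u horth
    simp only [ht]
    rw [← Finset.sum_div]
    simp only [mul_sum_neg (hnz z' hz')] at hpar
    have h36 : ∑ i, Complex.normSq (∑ k, z' ^ (E i k)) = 36 := by
      exact_mod_cast hpar
    rw [Finset.sum_sub_distrib, h36]
    have h0 : (36 : ℝ) - ∑ _i : Fin 6, (6 : ℝ) = 0 := by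
      simp only [Finset.sum_const, Finset.card_univ, Fintype.card_fin, nsmul_eq_mul]
      norm_num
    rw [h0, zero_div]

/-- a prime at least `7` can be removed from a configuration -/
theorem cfg_project {p K a : ℕ} (hp : p.Prime) (hp7 : 7 ≤ p) (hK : 0 < K)
    (hco : K.Coprime (p ^ a * p)) (h : Cfg (K * (p ^ a * p))) : Cfg K := by
  obtain ⟨ζ, u, e₂, e₃, hζ, o₂, o₃, m₂, m₃, m₂₃⟩ := h
  have hz := Complex.isPrimitiveRoot_exp K hK.ne'
  set z := Complex.exp (2 * Real.pi * Complex.I / (K : ℂ))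
  have key : ∀ e f : Fin 6 → Fin 6 → ℤ, Orth ζ e → Mub ζ e f → Mub z e f := by
    intro e f ho hm i j
    have h1 := mu_all hp hp7 hK hco hζ e (f j) ho (fun i => by
      simp only [neg_sub]
      exact hm i j) hz i
    simpa only [neg_sub] using h1
  refine ⟨z, u, e₂, e₃, hz, ?_, ?_, key _ _ o₂ m₂, key _ _ o₃ m₃, key _ _ o₂ m₂₃⟩
  · exact fun i j hij => project_orth hp hp7 hK hco hζ (o₂ i j hij) hz
  · exact fun i j hij => project_orth hp hp7 hK hco hζ (o₃ i j hij) hz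

/-- only the primes `2`, `3`, `5` matter -/
theorem cfg_reduce : ∀ n : ℕ, 0 < n → Cfg n → ∃ a b c : ℕ, 2 ^ a * 3 ^ b * 5 ^ c ∣ n ∧ Cfg (2 ^ a * 3 ^ b * 5 ^ c) := by
  intro n
  induction n using Nat.strong_induction_on with
  | _ n ih =>
    intro hn hc
    by_cases hbig : ∃ p, p.Prime ∧ 7 ≤ p ∧ p ∣ n
    · obtain ⟨p, hp, hp7, hpn⟩ := hbig
      obtain ⟨m, K, hKp, hnK⟩ := Nat.exists_eq_pow_mul_and_not_dvd hn.ne' p hp.ne_one
      have hm : m ≠ 0 := by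
        rintro rfl
        apply hKp
        simpa [hnK] using hpn
      obtain ⟨a, rfl⟩ := Nat.exists_eq_succ_of_ne_zero hm
      have hKpos : 0 < K := by
        apply Nat.pos_of_ne_zero
        rintro rfl
        simp at hnK
        omega
      have hn2 : n = K * (p ^ a * p) := by
        rw [hnK, pow_succ]; ring
      have hcoK : K.Coprime (p ^ a * p) := by
        have h1 : K.Coprime p := ((Nat.Prime.coprime_iff_not_dvd hp).mpr hKp).symm
        exact Nat.Coprime.mul_right (Nat.Coprime.pow_right a h1) h1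
      rw [hn2] at hc
      have hc' := cfg_project hp hp7 hKpos hcoK hc
      have hlt : K < n := by
        rw [hn2]
        have h1 : 1 < p ^ a * p := by
          have h2 : 0 < p ^ a := pow_pos hp.pos a
          nlinarith [hp.two_le]
        nlinarith
      obtain ⟨x, y, w, hd, hcf⟩ := ih K hlt hKpos hc'
      exact ⟨x, y, w, hd.trans ⟨p ^ a * p, hn2⟩, hcf⟩
    · push Not at hbig
      obtain ⟨a, n₁, hn₁, h2⟩ := Nat.exists_eq_pow_mul_and_not_dvd hn.ne' 2 (by norm_num)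
      have hn₁0 : n₁ ≠ 0 := by
        rintro rfl
        exact hn₁ (dvd_zero _)
      obtain ⟨b, n₂, hn₂, h3⟩ := Nat.exists_eq_pow_mul_and_not_dvd hn₁0 3 (by norm_num)
      have hn₂0 : n₂ ≠ 0 := by
        rintro rfl
        exact hn₂ (dvd_zero _)
      obtain ⟨c, n₃, hn₃, h5⟩ := Nat.exists_eq_pow_mul_and_not_dvd hn₂0 5 (by norm_num)
      have hfac : n = 2 ^ a * 3 ^ b * 5 ^ c * n₃ := by
        rw [h2, h3, h5]; ring
      have hone : n₃ = 1 := by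
        by_contra hne
        have hq := Nat.minFac_prime hne
        have hqd := Nat.minFac_dvd n₃
        set q := n₃.minFac
        have hqn : q ∣ n := hfac ▸ Dvd.dvd.mul_left hqd _
        have hq7 : ¬ 7 ≤ q := fun h7 => hbig q hq h7 hqn
        have h2' : ¬ 2 ∣ n₃ := fun hd => hn₁ (by rw [h3, h5]; exact Dvd.dvd.mul_left (Dvd.dvd.mul_left hd _) _)
        have h3' : ¬ 3 ∣ n₃ := fun hd => hn₂ (by rw [h5]; exact Dvd.dvd.mul_left hd _)
        have hq2 := hq.two_le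
        have : q = 2 ∨ q = 3 ∨ q = 4 ∨ q = 5 ∨ q = 6 := by omega
        rcases this with h | h | h | h | h
        · rw [h] at hqd; exact h2' hqd
        · rw [h] at hqd; exact h3' hqd
        · rw [h] at hq; norm_num at hq
        · rw [h] at hqd; exact hn₃ hqd
        · rw [h] at hq; norm_num at hq
      rw [hone, mul_one] at hfac
      rw [hfac] at hc
      exact ⟨a, b, c, hfac ▸ dvd_rfl, hc⟩

lemma orth_all {n : ℕ} (hn : 0 < n) {ζ ζ' : ℂ} (hζ : IsPrimitiveRoot ζ n)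
    (hζ' : IsPrimitiveRoot ζ' n) {e : Fin 6 → Fin 6 → ℤ} (h : Orth ζ e) : Orth ζ' e := by
  intro i j hij
  have := rel_all hn hζ hζ' univ (fun k => e i k - e j k) 0 (by simpa using h i j hij)
  simpa using this

lemma mub_all {n : ℕ} (hn : 0 < n) {ζ ζ' : ℂ} (hζ : IsPrimitiveRoot ζ n)
    (hζ' : IsPrimitiveRoot ζ' n) {e f : Fin 6 → Fin 6 → ℤ} (h : Mub ζ e f) : Mub ζ' e f := by
  intro i j
  have hζ0 : ζ ≠ 0 := ne_zero_of_pow_eq_one hn hζ.pow_eq_one
  have hζ0' : ζ' ≠ 0 := ne_zero_of_pow_eq_one hn hζ'.pow_eq_one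
  have h1 := h i j
  have e1 : ∀ k, f j k - e i k = - (e i k - f j k) := fun k => by ring
  simp only [e1] at h1 ⊢
  rw [prod_double hζ0] at h1
  rw [prod_double hζ0']
  have := rel_all hn hζ hζ' univ (fun y : Fin 6 × Fin 6 => (e i y.1 - f j y.1) - (e i y.2 - f j y.2)) 6
    (by simpa using h1)
  simpa using this

/-- a configuration from two bases of Butson type and a vector unbiased to both -/
theorem cfg_of_butson {n : ℕ} (hn : 0 < n) {B₂ B₃ : Fin 6 → Fin 6 → ℂ} {v : Fin 6 → ℂ}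
    (h₂ : IsONB B₂) (h₃ : IsONB B₃) (h₂₃ : MutuallyUnbiased B₂ B₃)
    (b₂ : IsButsonType n B₂) (b₃ : IsButsonType n B₃) (bv : IsButsonVector n v)
    (h₂v : ∀ j, ‖∑ k, B₂ j k * star (v k)‖ ^ 2 = 1 / 6)
    (h₃v : ∀ j, ‖∑ k, B₃ j k * star (v k)‖ ^ 2 = 1 / 6) : Cfg n := by
  have hζ := Complex.isPrimitiveRoot_exp n hn.ne'
  set ζ := Complex.exp (2 * Real.pi * Complex.I / (n : ℂ))
  have hnorm : ‖ζ‖ = 1 := IsPrimitiveRoot.norm'_eq_one hζ hn.ne'
  have bv' : IsButsonType n (fun _ => v) := fun _ => bv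
  obtain ⟨a₁, f₁, ha₁, hf₁⟩ := butson_exponents dvd_rfl hn hζ bv'
  obtain ⟨a₂, f₂, ha₂, hf₂⟩ := butson_exponents dvd_rfl hn hζ b₂
  obtain ⟨a₃, f₃, ha₃, hf₃⟩ := butson_exponents dvd_rfl hn hζ b₃
  have orth : ∀ {B : Fin 6 → Fin 6 → ℂ} {a : Fin 6 → ℂ} {f : Fin 6 → Fin 6 → ℤ}, IsONB B →
      (∀ i, ‖a i‖ = 1) → (∀ i k, B i k = a i * ζ ^ (f i k) / ((Real.sqrt 6 : ℝ) : ℂ)) → Orth ζ f := by
    intro B a f hB ha hf i j hij
    have h0 := hB i j
    rw [if_neg hij] at h0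
    exact orth_sum hnorm (ha i) (ha j) (hf i) (hf j) h0
  refine ⟨ζ, f₁ 0, f₂, f₃, hζ, orth h₂ ha₂ hf₂, orth h₃ ha₃ hf₃, ?_, ?_, ?_⟩
  · exact fun i _ => mu_sum hnorm (ha₂ i) (ha₁ 0) (hf₂ i) (hf₁ 0) (h₂v i)
  · exact fun i _ => mu_sum hnorm (ha₃ i) (ha₁ 0) (hf₃ i) (hf₁ 0) (h₃v i)
  · exact fun i j => mu_sum hnorm (ha₂ i) (ha₃ j) (hf₂ i) (hf₃ j) (h₂₃ i j)

end Vale.Agent.Lib.P355
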