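import Mathlib
import Vale.Agent.Lib.P355.Cls2

/-!
Removing the part of the exponents above level 240: each tuple unbiased to zero at a primitive root
of order `240 * H` is a constant, plus an odd function of one residue on part of the coordinates,
plus `H` times a tuple of exponents at a primitive 240th root of unity.
-/

namespace Vale.Agent.Lib.P355

open Finset

/-- An odd lift of the residues modulo `2 * H`, with the residue `H` going to zero. -/
def Yf (H : ℕ) (y : ZMod (2 * H)) : ℤ :=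
  if y.val < H then (y.val : ℤ) else if H < y.val then (y.val : ℤ) - 2 * H else 0

/-- Decomposition of an exponent tuple into a constant, a lift of one residue on part of the
coordinates, and a multiple of `H`. -/
structure IsLift2 (H : ℕ) (e : Fin 6 → ℤ) (g : ℤ) (a : ZMod (2 * H)) (d t : Fin 6 → ℤ) : Prop where
  hd : ∀ l, (d l = 0 ∧ ((e l : ℤ) : ZMod (2 * H)) = ((g : ℤ) : ZMod (2 * H))) ∨
    (d l = Yf H a ∧ ((e l : ℤ) : ZMod (2 * H)) = ((g : ℤ) : ZMod (2 * H)) + a)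
  ht : ∀ l, e l = g + d l + (H : ℤ) * t l

/-- The weights `φ` are constant on classes and the class sums of `a` vanish off one class. -/
lemma sum_phase {κ : Type*} [DecidableEq κ] [Fintype κ] (lev : Fin 6 → κ) (a φ : Fin 6 → ℂ) (g0 : κ)
    (l0 : Fin 6) (hl0 : lev l0 = g0) (hφ : ∀ l m, lev l = lev m → φ l = φ m)
    (h : ∀ g, g ≠ g0 → ∑ l ∈ univ.filter (fun l => lev l = g), a l = 0) :
    ∑ l, φ l * a l = φ l0 * ∑ l, a l := by
  rw [Finset.mul_sum, ← sub_eq_zero, ← Finset.sum_sub_distrib]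
  rw [← Finset.sum_fiberwise univ lev]
  apply Finset.sum_eq_zero
  intro g _
  by_cases hg : g = g0
  · apply Finset.sum_eq_zero
    intro l hl
    have hl' : lev l = g := (Finset.mem_filter.mp hl).2
    rw [hφ l l0 (by rw [hl', hl0, hg]), sub_self]
  · by_cases hne : (univ.filter (fun l => lev l = g)).Nonempty
    · obtain ⟨l1, hl1⟩ := hne
      have hl1' : lev l1 = g := (Finset.mem_filter.mp hl1).2
      have : ∀ l ∈ univ.filter (fun l => lev l = g), φ l * a l - φ l0 * a l = (φ l1 - φ l0) * a l := by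
        intro l hl
        have hl' : lev l = g := (Finset.mem_filter.mp hl).2
        rw [hφ l l1 (by rw [hl', hl1'])]
        ring
      rw [Finset.sum_congr rfl this, ← Finset.mul_sum, h g hg, mul_zero]
    · rw [Finset.not_nonempty_iff_eq_empty] at hne
      rw [hne, Finset.sum_empty]

section

variable {H : ℕ} [NeZero H] {ζ : ℂ}

lemma Yf_zero : Yf H 0 = 0 := by
  have hH := Hpos (H := H)
  unfold Yf
  rw [ZMod.val_zero, if_pos hH]
  rfl

lemma Yf_neg (y : ZMod (2 * H)) : Yf H (-y) = -Yf H y := by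
  have hH := Hpos (H := H)
  by_cases hy : y = 0
  · subst hy
    rw [neg_zero, Yf_zero, neg_zero]
  · have hv : (-y).val = 2 * H - y.val := by
      rw [ZMod.neg_val, if_neg hy]
    have hlt : y.val < 2 * H := ZMod.val_lt y
    have hpos : 0 < y.val := by
      rw [Nat.pos_iff_ne_zero]
      intro h
      exact hy ((ZMod.val_eq_zero y).mp h)
    unfold Yf
    rw [hv]
    by_cases h1 : y.val < H
    · rw [if_pos h1, if_neg (by omega), if_pos (by omega)]
      omega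
    · by_cases h2 : H < y.val
      · rw [if_neg h1, if_pos h2, if_pos (by omega)]
        omega
      · rw [if_neg h1, if_neg h2, if_neg (by omega), if_neg (by omega), neg_zero]

lemma Yf_dvd (b : ℤ) : (H : ℤ) ∣ b - Yf H ((b : ℤ) : ZMod (2 * H)) := by
  have hH := Hpos (H := H)
  have hv := ZMod.val_intCast (n := 2 * H) b
  set v := ((b : ℤ) : ZMod (2 * H)).val with hvdef
  have hb : b = ((2 * H : ℕ) : ℤ) * (b / ((2 * H : ℕ) : ℤ)) + v := by
    rw [hv]
    exact (Int.mul_ediv_add_emod b _).symm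
  have h2 : (H : ℤ) ∣ b - v := by
    refine ⟨2 * (b / ((2 * H : ℕ) : ℤ)), ?_⟩
    push_cast at hb ⊢
    linarith
  unfold Yf
  rw [← hvdef]
  by_cases h1 : v < H
  · rw [if_pos h1]
    exact h2
  · by_cases h3 : H < v
    · rw [if_neg h1, if_pos h3]
      have e : b - ((v : ℤ) - 2 * H) = (b - v) + (H : ℤ) * 2 := by ring
      rw [e]
      exact dvd_add h2 (dvd_mul_right _ _)
    · rw [if_neg h1, if_neg h3]
      have e : v = H := by omega
      have e2 : b - 0 = (b - v) + (H : ℤ) := by rw [e]; ring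
      rw [e2]
      exact dvd_add h2 dvd_rfl

/-- the algebra behind the consistency of the lifts -/
lemma delta_core {au aw x1 x2 z1 z2 : ZMod (2 * H)} (hx1 : x1 = 0 ∨ x1 = au) (hx2 : x2 = 0 ∨ x2 = au)
    (hz1 : z1 = 0 ∨ z1 = aw) (hz2 : z2 = 0 ∨ z2 = aw) (h : x1 - z1 = x2 - z2) :
    Yf H x1 - Yf H z1 = Yf H x2 - Yf H z2 := by
  have hneg : ∀ a b : ZMod (2 * H), a = -b → Yf H a = - Yf H b := fun a b hab => by
    rw [hab, Yf_neg]
  rcases hx1 with rx1 | rx1 <;> rcases hx2 with rx2 | rx2 <;> rcases hz1 with rz1 | rz1 <;>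
    rcases hz2 with rz2 | rz2 <;> rw [rx1, rx2, rz1, rz2] at h <;> rw [rx1, rx2, rz1, rz2] <;>
    first
      | rfl
      | (have e : aw = 0 := by linear_combination h
         rw [e]; done)
      | (have e : aw = 0 := by linear_combination -h
         rw [e]; done)
      | (have e : au = 0 := by linear_combination h
         rw [e]; done)
      | (have e : au = 0 := by linear_combination -h
         rw [e]; done)
      | (have e : au = aw := by linear_combination h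
         rw [e]; ring)
      | (have e : au = aw := by linear_combination -h
         rw [e]; ring)
      | (have e := hneg au aw (by linear_combination h)
         rw [e, Yf_zero]; ring)
      | (have e := hneg au aw (by linear_combination -h)
         rw [e, Yf_zero]; ring)

lemma delta_eq2 {eu ew du dw tu tw : Fin 6 → ℤ} {gu gw : ℤ} {au aw : ZMod (2 * H)}
    (Lu : IsLift2 H eu gu au du tu) (Lw : IsLift2 H ew gw aw dw tw) (l m : Fin 6)
    (h : ((eu l - ew l : ℤ) : ZMod (2 * H)) = ((eu m - ew m : ℤ) : ZMod (2 * H))) :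
    du l - dw l = du m - dw m := by
  have key : ∀ {e d : Fin 6 → ℤ} {g : ℤ} {a : ZMod (2 * H)} {t : Fin 6 → ℤ},
      IsLift2 H e g a d t → ∀ l, ∃ x : ZMod (2 * H), (x = 0 ∨ x = a) ∧ d l = Yf H x ∧
        ((e l : ℤ) : ZMod (2 * H)) = ((g : ℤ) : ZMod (2 * H)) + x := by
    intro e d g a t L l
    rcases L.hd l with ⟨h1, h2⟩ | ⟨h1, h2⟩
    · exact ⟨0, Or.inl rfl, by rw [h1, Yf_zero], by rw [h2, add_zero]⟩
    · exact ⟨a, Or.inr rfl, h1, h2⟩
  obtain ⟨x1, hx1, d1, c1⟩ := key Lu l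
  obtain ⟨x2, hx2, d2, c2⟩ := key Lu m
  obtain ⟨z1, hz1, d3, c3⟩ := key Lw l
  obtain ⟨z2, hz2, d4, c4⟩ := key Lw m
  rw [d1, d2, d3, d4]
  apply delta_core hx1 hx2 hz1 hz2
  push_cast at h
  rw [c1, c2, c3, c4] at h
  linear_combination h

lemma sum_descend2 (hζ0 : ζ ≠ 0) {eu ew du dw tu tw : Fin 6 → ℤ} {gu gw : ℤ}
    {au aw : ZMod (2 * H)}
    (Lu : IsLift2 H eu gu au du tu) (Lw : IsLift2 H ew gw aw dw tw) (l : Fin 6) :
    ζ ^ (-(du l - dw l)) * ζ ^ (eu l - ew l) = ζ ^ (gu - gw) * (ζ ^ H) ^ (tu l - tw l) := by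
  have e : (ζ ^ H) ^ (tu l - tw l) = ζ ^ ((H : ℤ) * (tu l - tw l)) := by
    rw [zpow_mul, zpow_natCast]
  rw [e, ← zpow_add₀ hζ0, ← zpow_add₀ hζ0, Lu.ht l, Lw.ht l]
  congr 1
  ring

lemma sum_descend2' (hζ0 : ζ ≠ 0) {eu ew du dw tu tw : Fin 6 → ℤ} {gu gw : ℤ}
    {au aw : ZMod (2 * H)}
    (Lu : IsLift2 H eu gu au du tu) (Lw : IsLift2 H ew gw aw dw tw) (l : Fin 6) :
    ζ ^ (du l - dw l) * ζ ^ (ew l - eu l) = ζ ^ (gw - gu) * (ζ ^ H) ^ (tw l - tu l) := by
  have e : (ζ ^ H) ^ (tw l - tu l) = ζ ^ ((H : ℤ) * (tw l - tu l)) := by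
    rw [zpow_mul, zpow_natCast]
  rw [e, ← zpow_add₀ hζ0, ← zpow_add₀ hζ0, Lu.ht l, Lw.ht l]
  congr 1
  ring

/-- the lift of an exponent tuple unbiased to zero -/
theorem Ctx.exists_lift2 {E : Fin 6 → ℤ} (C : Ctx H ζ E) :
    ∃ (g : ℤ) (a : ZMod (2 * H)) (d t : Fin 6 → ℤ), IsLift2 H E g a d t := by
  obtain ⟨g0, -, h4⟩ := C.classify2
  obtain ⟨y, hy⟩ := C.two_levels2 h4
  obtain ⟨g, rfl⟩ := ZMod.intCast_surjective g0
  have hex : ∀ l, ∃ (d t : ℤ), ((d = 0 ∧ ((E l : ℤ) : ZMod (2 * H)) = ((g : ℤ) : ZMod (2 * H))) ∨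
      (d = Yf H (y - ((g : ℤ) : ZMod (2 * H))) ∧
        ((E l : ℤ) : ZMod (2 * H)) = ((g : ℤ) : ZMod (2 * H)) + (y - ((g : ℤ) : ZMod (2 * H))))) ∧
      E l = g + d + (H : ℤ) * t := by
    intro l
    rcases hy l with h | h
    · have h2 := (lev_iff _ _).mp h
      have h3 : (H : ℤ) ∣ E l - g := by
        refine Dvd.dvd.trans ⟨2, ?_⟩ h2
        push_cast; ring
      obtain ⟨t, ht⟩ := h3
      exact ⟨0, t, Or.inl ⟨rfl, h⟩, by linear_combination ht⟩
    · have hc : ((E l - g : ℤ) : ZMod (2 * H)) = y - ((g : ℤ) : ZMod (2 * H)) := by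
        push_cast; rw [h]
      obtain ⟨t, ht⟩ := Yf_dvd (H := H) (E l - g)
      rw [hc] at ht
      refine ⟨Yf H (y - ((g : ℤ) : ZMod (2 * H))), t, Or.inr ⟨rfl, ?_⟩, ?_⟩
      · rw [h]; ring
      · linear_combination ht
  choose d t hd ht using hex
  exact ⟨g, y - ((g : ℤ) : ZMod (2 * H)), d, t, ⟨hd, ht⟩⟩

/-- orthogonality descends to level 240 -/
theorem descend_orth2 (hζ : IsPrimitiveRoot ζ (120 * (2 * H)))
    (hco : ∀ x : ℕ, (1 + 120 * x).Coprime (120 * (2 * H)))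
    {eu ew du dw tu tw : Fin 6 → ℤ} {gu gw : ℤ} {au aw : ZMod (2 * H)}
    (Lu : IsLift2 H eu gu au du tu) (Lw : IsLift2 H ew gw aw dw tw)
    (h : ∑ l, ζ ^ (eu l - ew l) = 0) : ∑ l, (ζ ^ H) ^ (tu l - tw l) = 0 := by
  classical
  have hζ0 : ζ ≠ 0 := ne_zero_of_pow_eq_one (by have := Hpos (H := H); omega) hζ.pow_eq_one
  have hcl := class_sum_zmod (m := 120) (N := 2 * H) (by norm_num) hco hζ univ
    (fun l : Fin 6 => eu l - ew l) 0 (by simpa using h)
  have h1 := sum_phase (fun l : Fin 6 => ((eu l - ew l : ℤ) : ZMod (2 * H)))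
    (fun l => ζ ^ (eu l - ew l)) (fun l => ζ ^ (-(du l - dw l))) _ 0 rfl
    (fun l m hlm => by
      show ζ ^ (-(du l - dw l)) = ζ ^ (-(du m - dw m))
      rw [delta_eq2 Lu Lw l m hlm])
    (fun g _ => by
      have := hcl g
      simp only [Int.cast_zero, ite_self] at this
      exact this)
  rw [h, mul_zero] at h1
  simp only [sum_descend2 hζ0 Lu Lw] at h1
  rw [← Finset.mul_sum] at h1
  exact (mul_eq_zero.mp h1).resolve_left (zpow_ne_zero _ hζ0)

/-- unbiasedness descends to level 240 -/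
theorem descend_mu2 {eu ew du dw tu tw : Fin 6 → ℤ} {gu gw : ℤ} {au aw : ZMod (2 * H)}
    (Lu : IsLift2 H eu gu au du tu) (Lw : IsLift2 H ew gw aw dw tw)
    (C : Ctx H ζ (fun l => eu l - ew l)) :
    (∑ l, (ζ ^ H) ^ (tu l - tw l)) * (∑ l, (ζ ^ H) ^ (tw l - tu l)) = 6 := by
  classical
  have hζ0 := C.ne_zero
  have hn := C.norm
  have hmu' : (∑ l, ζ ^ (eu l - ew l)) * ∑ l, ζ ^ (ew l - eu l) = 6 := by
    have := C.mu
    simp only [neg_sub] at this
    exact this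
  set F : Fin 6 → ℤ := fun l => eu l - ew l with hF
  have hnF : ∀ l, -F l = ew l - eu l := fun l => by simp [hF]
  obtain ⟨g0, hg0, h4⟩ := C.classify2
  obtain ⟨l0, hl0⟩ : (clg (2 * H) F g0).Nonempty := by
    rw [← Finset.card_pos]; omega
  have hl0' := mem_clg.mp hl0
  have h1 := sum_phase (fun l : Fin 6 => ((F l : ℤ) : ZMod (2 * H)))
    (fun l => ζ ^ (F l)) (fun l => ζ ^ (-(du l - dw l))) g0 l0 hl0'
    (fun l m hlm => by
      show ζ ^ (-(du l - dw l)) = ζ ^ (-(du m - dw m))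
      rw [delta_eq2 Lu Lw l m hlm])
    (fun g hg => hg0 g hg)
  have h2 := sum_phase (fun l : Fin 6 => ((F l : ℤ) : ZMod (2 * H)))
    (fun l => ζ ^ (-F l)) (fun l => ζ ^ (du l - dw l)) g0 l0 hl0'
    (fun l m hlm => by
      show ζ ^ (du l - dw l) = ζ ^ (du m - dw m)
      rw [delta_eq2 Lu Lw l m hlm])
    (fun g hg => xgb_eq_zero hn (hg0 g hg))
  have h1' : ∑ l, ζ ^ (-(du l - dw l)) * ζ ^ (eu l - ew l)
      = ζ ^ (-(du l0 - dw l0)) * ∑ l, ζ ^ (eu l - ew l) := h1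
  have h2' : ∑ l, ζ ^ (du l - dw l) * ζ ^ (ew l - eu l)
      = ζ ^ (du l0 - dw l0) * ∑ l, ζ ^ (ew l - eu l) := by
    have := h2
    simp only [hnF] at this
    exact this
  simp only [sum_descend2 hζ0 Lu Lw] at h1'
  simp only [sum_descend2' hζ0 Lu Lw] at h2'
  rw [← Finset.mul_sum] at h1' h2'
  have hg1 : ζ ^ (gu - gw) * ζ ^ (gw - gu) = 1 := by
    rw [← zpow_add₀ hζ0]; simp
  have hg2 : ζ ^ (-(du l0 - dw l0)) * ζ ^ (du l0 - dw l0) = 1 := by
    rw [← zpow_add₀ hζ0]; simp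
  calc (∑ l, (ζ ^ H) ^ (tu l - tw l)) * (∑ l, (ζ ^ H) ^ (tw l - tu l))
      = (ζ ^ (gu - gw) * ζ ^ (gw - gu)) * ((∑ l, (ζ ^ H) ^ (tu l - tw l))
          * (∑ l, (ζ ^ H) ^ (tw l - tu l))) := by rw [hg1, one_mul]
    _ = (ζ ^ (gu - gw) * ∑ l, (ζ ^ H) ^ (tu l - tw l))
          * (ζ ^ (gw - gu) * ∑ l, (ζ ^ H) ^ (tw l - tu l)) := by ring
    _ = (ζ ^ (-(du l0 - dw l0)) * ∑ l, ζ ^ (eu l - ew l))
          * (ζ ^ (du l0 - dw l0) * ∑ l, ζ ^ (ew l - eu l)) := by rw [h1', h2']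
    _ = (ζ ^ (-(du l0 - dw l0)) * ζ ^ (du l0 - dw l0))
          * ((∑ l, ζ ^ (eu l - ew l)) * ∑ l, ζ ^ (ew l - eu l)) := by ring
    _ = 6 := by rw [hg2, one_mul, hmu']

end

end Vale.Agent.Lib.P355
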