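import Mathlib
import Vale.Agent.Lib.P355.Defs
import Vale.Agent.Lib.P355.Strip
import Vale.Agent.Lib.P355.Fin2
import Vale.Agent.Lib.P355.Reduce

/-!
No three mutually unbiased bases of Butson type.
-/

namespace Vale.Agent.Lib.P355

open Finset

/-- the statement on exponent tuples -/
theorem exponents_impossible240 {s b c : ℕ} {ζ : ℂ}
    (hζ : IsPrimitiveRoot ζ (240 * (2 ^ s * (3 ^ b * 5 ^ c))))
    (e f : Fin 6 → Fin 6 → ℤ)
    (hve : ∀ i, (∑ l, ζ ^ (e i l)) * (∑ l, ζ ^ (-e i l)) = 6)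
    (hvf : ∀ i, (∑ l, ζ ^ (f i l)) * (∑ l, ζ ^ (-f i l)) = 6)
    (hoe : ∀ i j : Fin 6, i ≠ j → ∑ l, ζ ^ (e i l - e j l) = 0)
    (hof : ∀ i j : Fin 6, i ≠ j → ∑ l, ζ ^ (f i l - f j l) = 0)
    (hm : ∀ i : Fin 6, (∑ l, ζ ^ (e i l - f 0 l)) * (∑ l, ζ ^ (f 0 l - e i l)) = 6) :
    False := by
  have hLe : ∀ i, ∃ (g : ℤ) (a : ZMod (2 * (2 ^ s * (3 ^ b * 5 ^ c)))) (d t : Fin 6 → ℤ),
      IsLift2 (2 ^ s * (3 ^ b * 5 ^ c)) (e i) g a d t :=
    fun i => (ctx_of s b c hζ (hve i)).exists_lift2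
  have hLf : ∀ i, ∃ (g : ℤ) (a : ZMod (2 * (2 ^ s * (3 ^ b * 5 ^ c)))) (d t : Fin 6 → ℤ),
      IsLift2 (2 ^ s * (3 ^ b * 5 ^ c)) (f i) g a d t :=
    fun i => (ctx_of s b c hζ (hvf i)).exists_lift2
  choose ge ae de te hLe using hLe
  choose gf af df tf hLf using hLf
  have L0 : IsLift2 (2 ^ s * (3 ^ b * 5 ^ c)) (fun _ => 0) 0 0 (fun _ => 0) (fun _ => 0) := by
    refine ⟨fun _ => Or.inl ⟨rfl, rfl⟩, fun _ => by simp⟩
  have C0 := ctx_of s b c hζ (hve 0)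
  have hξ : IsPrimitiveRoot (ζ ^ (2 ^ s * (3 ^ b * 5 ^ c))) 240 :=
    hζ.pow (by positivity) (by ring)
  apply final240 hξ te tf
  · intro i
    have h := descend_mu2 (hLe i) L0 (ctx_of s b c hζ (by
      simp only [sub_zero]
      exact hve i))
    simpa only [sub_zero, zero_sub] using h
  · intro i
    have h := descend_mu2 (hLf i) L0 (ctx_of s b c hζ (by
      simp only [sub_zero]
      exact hvf i))
    simpa only [sub_zero, zero_sub] using h
  · intro i j hij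
    exact descend_orth2 C0.prim120 C0.coprime120 (hLe i) (hLe j) (hoe i j hij)
  · intro i j hij
    exact descend_orth2 C0.prim120 C0.coprime120 (hLf i) (hLf j) (hof i j hij)
  · intro i
    exact descend_mu2 (hLe i) (hLf 0) (ctx_of s b c hζ (by
      simp only [neg_sub]
      exact hm i))

/-- a configuration at a divisor of `240 * 2 ^ s * 3 ^ b * 5 ^ c` does not exist -/
theorem cfg_impossible240 {N s b c : ℕ} (hN : N ∣ 240 * (2 ^ s * (3 ^ b * 5 ^ c))) (h : Cfg N) : False := by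
  obtain ⟨ζ, u, e₂, e₃, hζ, o₂, o₃, m₂, m₃, m₂₃⟩ := h
  have hM : 0 < 240 * (2 ^ s * (3 ^ b * 5 ^ c)) := by positivity
  have hNpos : 0 < N := Nat.pos_of_dvd_of_pos hN hM
  obtain ⟨m, hm⟩ := hN
  have hζ₀ := Complex.isPrimitiveRoot_exp (240 * (2 ^ s * (3 ^ b * 5 ^ c))) hM.ne'
  set ζ₀ := Complex.exp (2 * Real.pi * Complex.I / ((240 * (2 ^ s * (3 ^ b * 5 ^ c)) : ℕ) : ℂ))
  have hζ' : IsPrimitiveRoot (ζ₀ ^ m) N := hζ₀.pow hM (by rw [hm, mul_comm])
  have o₂' := orth_all hNpos hζ hζ' o₂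
  have o₃' := orth_all hNpos hζ hζ' o₃
  have m₂' := mub_all hNpos hζ hζ' m₂
  have m₃' := mub_all hNpos hζ hζ' m₃
  have m₂₃' := mub_all hNpos hζ hζ' m₂₃
  have hpow : ∀ x : ℤ, (ζ₀ ^ m) ^ x = ζ₀ ^ ((m : ℤ) * x) := fun x => by
    rw [← zpow_natCast, ← zpow_mul]
  set e : Fin 6 → Fin 6 → ℤ := fun i l => (m : ℤ) * (e₃ i l - u l) with he
  set f : Fin 6 → Fin 6 → ℤ := fun i l => (m : ℤ) * (e₂ i l - u l) with hf
  apply exponents_impossible240 hζ₀ e f
  · intro i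
    have h1 := m₃' i 0
    simp only [hpow] at h1
    have t1 : ∀ l, e i l = (m : ℤ) * (e₃ i l - u l) := fun l => rfl
    have t2 : ∀ l, - e i l = (m : ℤ) * (u l - e₃ i l) := fun l => by
      rw [t1]; ring
    simp only [t2]
    simp only [t1]
    exact h1
  · intro i
    have h1 := m₂' i 0
    simp only [hpow] at h1
    have t1 : ∀ l, f i l = (m : ℤ) * (e₂ i l - u l) := fun l => rfl
    have t2 : ∀ l, - f i l = (m : ℤ) * (u l - e₂ i l) := fun l => by
      rw [t1]; ring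
    simp only [t2]
    simp only [t1]
    exact h1
  · intro i j hij
    have h1 := o₃' i j hij
    simp only [hpow] at h1
    have : ∀ l, e i l - e j l = (m : ℤ) * (e₃ i l - e₃ j l) := fun l => by
      show (m : ℤ) * (e₃ i l - u l) - (m : ℤ) * (e₃ j l - u l) = _
      ring
    simp only [this]
    exact h1
  · intro i j hij
    have h1 := o₂' i j hij
    simp only [hpow] at h1
    have : ∀ l, f i l - f j l = (m : ℤ) * (e₂ i l - e₂ j l) := fun l => by
      show (m : ℤ) * (e₂ i l - u l) - (m : ℤ) * (e₂ j l - u l) = _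
      ring
    simp only [this]
    exact h1
  · intro i
    have h1 := m₂₃' 0 i
    simp only [hpow] at h1
    have t1 : ∀ l, e i l - f 0 l = (m : ℤ) * (e₃ i l - e₂ 0 l) := fun l => by
      show (m : ℤ) * (e₃ i l - u l) - (m : ℤ) * (e₂ 0 l - u l) = _
      ring
    have t2 : ∀ l, f 0 l - e i l = (m : ℤ) * (e₂ 0 l - e₃ i l) := fun l => by
      show (m : ℤ) * (e₂ 0 l - u l) - (m : ℤ) * (e₃ i l - u l) = _
      ring
    simp only [t1, t2]
    rw [mul_comm]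
    exact h1

lemma norm_sum_symm (a b : Fin 6 → ℂ) : ‖∑ k, b k * star (a k)‖ = ‖∑ k, a k * star (b k)‖ := by
  have h : ∑ k, b k * star (a k) = star (∑ k, a k * star (b k)) := by
    rw [star_sum]
    refine Finset.sum_congr rfl fun k _ => ?_
    rw [star_mul, star_star]
  rw [h, norm_star]

/-- no vector of Butson type is unbiased to two unbiased bases of Butson type -/
theorem no_butson_vector {n : ℕ} (hn : 0 < n) {B₂ B₃ : Fin 6 → Fin 6 → ℂ} {v : Fin 6 → ℂ}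
    (h₂ : IsONB B₂) (h₃ : IsONB B₃) (h₂₃ : MutuallyUnbiased B₂ B₃)
    (b₂ : IsButsonType n B₂) (b₃ : IsButsonType n B₃) (bv : IsButsonVector n v)
    (h₂v : ∀ j, ‖∑ k, v k * star (B₂ j k)‖ ^ 2 = 1 / 6)
    (h₃v : ∀ j, ‖∑ k, v k * star (B₃ j k)‖ ^ 2 = 1 / 6) : False := by
  obtain ⟨a, b, c, -, hcf⟩ := cfg_reduce n hn (cfg_of_butson hn h₂ h₃ h₂₃ b₂ b₃ bv
    (fun j => by rw [norm_sum_symm]; exact h₂v j) (fun j => by rw [norm_sum_symm]; exact h₃v j))
  refine cfg_impossible240 (s := a) (b := b) (c := c) ?_ hcf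
  exact ⟨240, by ring⟩

end Vale.Agent.Lib.P355
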